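import Crest.Agent.N325.M0.Loops

/-!
# N325 / M0: the tactic `impl` (helper68)

`impl` proves `Impl f` and `Pu σ f` by a syntax-directed search with the rules registered by
`fun_prop` and the hypotheses; it unfolds the definitions of this development that have no rule,
matchers and join points, and it knows the structures that are represented by `Rp.via`.
It only builds a proof term.
-/

set_option autoImplicit false

namespace Crest.Agent.N325

variable {α β γ δ : Type} [Rp α] [Rp β] [Rp γ] [Rp δ] {σ : Bool}

/-! ### wildcard matches -/

@[fun_prop] theorem Pu.list_else {k : ℕ} {l : α → List β} {n : α → (Nat.hasNotBit k (List.ctorIdx ([] : List β)) → γ) → γ}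
    {c : α → ∀ h t, (Nat.hasNotBit k (List.ctorIdx (h :: t : List β)) → γ) → γ} {e : α → γ} (hl : Pu σ l)
    (hn : Pu σ fun a => n a fun _ => e a)
    (hc : Pu σ fun p : α × β × List β => c p.1 p.2.1 p.2.2 fun _ => e p.1) :
    Pu σ fun a => List.rec (motive := fun t => (Nat.hasNotBit k (List.ctorIdx (t : List β)) → γ) → γ) (n a) (fun h t _ => c a h t) (l a)
      fun _ => e a :=
  (hl.list_casesOn hn (c := fun a h t => c a h t fun _ => e a) hc).of_eq fun a => by
    cases l a <;> rfl
@[fun_prop] theorem Impl.list_else {k : ℕ} {l : α → List β}
    {n : α → (Nat.hasNotBit k (List.ctorIdx ([] : List β)) → R γ) → R γ} {c : α → ∀ h t, (Nat.hasNotBit k (List.ctorIdx (h :: t : List β)) → R γ) → R γ} {e : α → R γ}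
    (hl : Pu true l) (hn : Impl fun a => n a fun _ => e a)
    (hc : Impl fun p : α × β × List β => c p.1 p.2.1 p.2.2 fun _ => e p.1) :
    Impl fun a => List.rec (motive := fun t => (Nat.hasNotBit k (List.ctorIdx (t : List β)) → R γ) → R γ) (n a) (fun h t _ => c a h t) (l a)
      fun _ => e a :=
  (Impl.list_casesOn hl hn (c := fun a h t => c a h t fun _ => e a) hc).of_eq fun a => by
    cases l a <;> rfl
@[fun_prop] theorem Pu.option_else {k : ℕ} {l : α → Option β}
    {n : α → (Nat.hasNotBit k (Option.ctorIdx (Option.none : Option β)) → γ) → γ} {c : α → ∀ h, (Nat.hasNotBit k (Option.ctorIdx (Option.some h : Option β)) → γ) → γ} {e : α → γ}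
    (hl : Pu σ l) (hn : Pu σ fun a => n a fun _ => e a)
    (hc : Pu σ fun p : α × β => c p.1 p.2 fun _ => e p.1) :
    Pu σ fun a => Option.rec (motive := fun t => (Nat.hasNotBit k (Option.ctorIdx (t : Option β)) → γ) → γ) (n a) (c a) (l a) fun _ => e a :=
  (hl.option_casesOn hn (c := fun a h => c a h fun _ => e a) hc).of_eq fun a => by
    cases l a <;> rfl
@[fun_prop] theorem Impl.option_else {k : ℕ} {l : α → Option β}
    {n : α → (Nat.hasNotBit k (Option.ctorIdx (none : Option β)) → R γ) → R γ} {c : α → ∀ h, (Nat.hasNotBit k (Option.ctorIdx (some h : Option β)) → R γ) → R γ} {e : α → R γ}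
    (hl : Pu true l) (hn : Impl fun a => n a fun _ => e a)
    (hc : Impl fun p : α × β => c p.1 p.2 fun _ => e p.1) :
    Impl fun a => Option.rec (motive := fun t => (Nat.hasNotBit k (Option.ctorIdx (t : Option β)) → R γ) → R γ) (n a) (c a) (l a)
      fun _ => e a :=
  (Impl.option_casesOn hl hn (c := fun a h => c a h fun _ => e a) hc).of_eq fun a => by
    cases l a <;> rfl
@[fun_prop] theorem Pu.nat_else {k : ℕ} {l : α → ℕ} {n : α → (Nat.hasNotBit k (Nat.ctorIdx (Nat.zero : ℕ)) → γ) → γ}
    {c : α → ∀ h, (Nat.hasNotBit k (Nat.ctorIdx (Nat.succ h : ℕ)) → γ) → γ} {e : α → γ} (hl : Pu σ l)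
    (hn : Pu σ fun a => n a fun _ => e a) (hc : Pu σ fun p : α × ℕ => c p.1 p.2 fun _ => e p.1) :
    Pu σ fun a => Nat.rec (motive := fun t => (Nat.hasNotBit k (Nat.ctorIdx (t : ℕ)) → γ) → γ) (n a) (fun h _ => c a h) (l a)
      fun _ => e a :=
  (hl.nat_casesOn hn (y := fun a h => c a h fun _ => e a) hc).of_eq fun a => by cases l a <;> rfl
@[fun_prop] theorem Impl.nat_else {k : ℕ} {l : α → ℕ} {n : α → (Nat.hasNotBit k (Nat.ctorIdx (Nat.zero : ℕ)) → R γ) → R γ}
    {c : α → ∀ h, (Nat.hasNotBit k (Nat.ctorIdx (Nat.succ h : ℕ)) → R γ) → R γ} {e : α → R γ} (hl : Pu true l)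
    (hn : Impl fun a => n a fun _ => e a) (hc : Impl fun p : α × ℕ => c p.1 p.2 fun _ => e p.1) :
    Impl fun a => Nat.rec (motive := fun t => (Nat.hasNotBit k (Nat.ctorIdx (t : ℕ)) → R γ) → R γ) (n a) (fun h _ => c a h) (l a)
      fun _ => e a :=
  (Impl.nat_casesOn hl hn (y := fun a h => c a h fun _ => e a) hc).of_eq fun a => by
    cases l a <;> rfl
@[fun_prop] theorem Pu.bool_else {k : ℕ} {l : α → Bool} {n : α → (Nat.hasNotBit k (Bool.ctorIdx (false : Bool)) → γ) → γ}
    {c : α → (Nat.hasNotBit k (Bool.ctorIdx (true : Bool)) → γ) → γ} {e : α → γ} (hl : Pu false l)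
    (hn : Pu σ fun a => n a fun _ => e a) (hc : Pu σ fun a => c a fun _ => e a) :
    Pu σ fun a => Bool.rec (motive := fun t => (Nat.hasNotBit k (Bool.ctorIdx (t : Bool)) → γ) → γ) (n a) (c a) (l a) fun _ => e a :=
  (hl.bool_casesOn hn hc).of_eq fun a => by cases l a <;> rfl
@[fun_prop] theorem Impl.bool_else {k : ℕ} {l : α → Bool}
    {n : α → (Nat.hasNotBit k (Bool.ctorIdx (false : Bool)) → R γ) → R γ} {c : α → (Nat.hasNotBit k (Bool.ctorIdx (true : Bool)) → R γ) → R γ} {e : α → R γ} (hl : Pu false l)
    (hn : Impl fun a => n a fun _ => e a) (hc : Impl fun a => c a fun _ => e a) :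
    Impl fun a => Bool.rec (motive := fun t => (Nat.hasNotBit k (Bool.ctorIdx (t : Bool)) → R γ) → R γ) (n a) (c a) (l a) fun _ => e a :=
  (Impl.bool_casesOn hl hn hc).of_eq fun a => by cases l a <;> rfl
@[fun_prop] theorem Pu.sum_else {k : ℕ} {l : α → β ⊕ δ}
    {n : α → ∀ h, (Nat.hasNotBit k (Sum.ctorIdx (Sum.inl h : β ⊕ δ)) → γ) → γ} {c : α → ∀ h, (Nat.hasNotBit k (Sum.ctorIdx (Sum.inr h : β ⊕ δ)) → γ) → γ} {e : α → γ}
    (hl : Pu σ l) (hn : Pu σ fun p : α × β => n p.1 p.2 fun _ => e p.1)
    (hc : Pu σ fun p : α × δ => c p.1 p.2 fun _ => e p.1) :
    Pu σ fun a => Sum.rec (motive := fun t => (Nat.hasNotBit k (Sum.ctorIdx (t : β ⊕ δ)) → γ) → γ) (n a) (c a) (l a) fun _ => e a :=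
  (hl.sum_casesOn (f := fun a h => n a h fun _ => e a) (g := fun a h => c a h fun _ => e a)
    hn hc).of_eq fun a => by cases l a <;> rfl
@[fun_prop] theorem Impl.sum_else {k : ℕ} {l : α → β ⊕ δ}
    {n : α → ∀ h, (Nat.hasNotBit k (Sum.ctorIdx (Sum.inl h : β ⊕ δ)) → R γ) → R γ} {c : α → ∀ h, (Nat.hasNotBit k (Sum.ctorIdx (Sum.inr h : β ⊕ δ)) → R γ) → R γ}
    {e : α → R γ} (hl : Pu true l) (hn : Impl fun p : α × β => n p.1 p.2 fun _ => e p.1)
    (hc : Impl fun p : α × δ => c p.1 p.2 fun _ => e p.1) :
    Impl fun a => Sum.rec (motive := fun t => (Nat.hasNotBit k (Sum.ctorIdx (t : β ⊕ δ)) → R γ) → R γ) (n a) (c a) (l a) fun _ => e a :=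
  (Impl.sum_casesOn hl (f := fun a h => n a h fun _ => e a) (g := fun a h => c a h fun _ => e a)
    hn hc).of_eq fun a => by cases l a <;> rfl

/-! ### closures as data, units, structures -/

@[fun_prop] theorem Pu.lam' {g : α → γ → R δ} (h : Impl fun p : α × γ => g p.1 p.2) :
    Pu σ fun a c => g a c := Pu.lam h
attribute [fun_prop] Pu.lam Pu.unit Impl.call_known

/-- the code of a value -/
def Rp.out {ρ τ : Type} (e : ρ → τ) (s : ρ) : τ := e s
/-- a value given with its code -/
def Rp.into {ρ τ : Type} (e : ρ → τ) (t : τ) (s : ρ) (_h : e s = t) : ρ := s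

@[fun_prop] theorem Pu.out {ρ τ : Type} [Rp τ] {e : ρ → τ} {f : α → ρ}
    (hf : @Pu α ρ _ (Rp.via e) σ f) : Pu σ fun a => Rp.out e (f a) := hf
@[fun_prop] theorem Pu.into {ρ τ : Type} [Rp τ] {e : ρ → τ} {t : α → τ} {s : α → ρ}
    {h : ∀ a, e (s a) = t a} (ht : Pu σ t) :
    @Pu α ρ _ (Rp.via e) σ fun a => Rp.into e (t a) (s a) (h a) :=
  Pu.via_in e (ht.of_eq fun a => (h a).symm)

attribute [irreducible] Rp.out Rp.into

theorem Impl.let' {v : α → β} {c : α → β → R γ} (hv : Pu true v)
    (hc : Impl fun p : α × β => c p.1 p.2) : Impl fun a => c a (v a) := hc.comp (Pu.id.pair hv)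
theorem Pu.let' {v : α → β} {c : α → β → γ} (hv : Pu σ v)
    (hc : Pu σ fun p : α × β => c p.1 p.2) : Pu σ fun a => c a (v a) := hc.comp (Pu.id.pair hv)
theorem Impl.tk_call {g : α → γ → R δ} {x : α → γ} {p : α → ℕ} (hg : Pu true g) (hx : Pu true x) :
    Impl fun a => R.tk 1 (p a) (g a (x a)) :=
  (Impl.call hg hx).of_run fun _ _ => ⟨rfl, rfl, le_rfl, max_le_max (Nat.zero_le _) le_rfl⟩

namespace ImplTac

/-- the coding map of a structure that is represented through `Rp.via` -/
def viaMap (ty : Lean.Expr) : Lean.MetaM (Option Lean.Expr) := do
  let ty ← Lean.Meta.whnfR ty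
  let some n := ty.getAppFn.constName? | return none
  if [``Prod, ``Subtype, ``Fin, ``Gh, ``Arr].contains n then return none
  unless Lean.isStructure (← Lean.getEnv) n do return none
  unless (← Lean.Meta.inferType ty).isType0 do return none
  let some inst ← Lean.Meta.synthInstance? (Lean.mkApp (Lean.mkConst ``Rp) ty) | return none
  let mut i ← Lean.instantiateMVars inst
  for _ in [0:4] do
    if i.isAppOfArity ``Rp.via 4 then return some i.appArg!
    let some j ← Lean.Meta.unfoldDefinition? i true | return none
    i := j.headBeta
  return none

/-- find the component of the tuple `t` (reduced form `r`) that is `x` -/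
partial def findComp (x t r : Lean.Expr) : Lean.MetaM (Option Lean.Expr) := do
  if ← Lean.Meta.withReducible (Lean.Meta.isDefEq x r) then return some t
  let r ← Lean.Meta.whnf r
  if r.isAppOfArity ``Prod.mk 4 then
    if let some y ← findComp x (← Lean.Meta.mkAppM ``Prod.fst #[t]) r.appFn!.appArg! then
      return some y
    findComp x (← Lean.Meta.mkAppM ``Prod.snd #[t]) r.appArg!
  else return none

/-- the head of a term below projections -/
partial def headOf (e : Lean.Expr) : Lean.MetaM Lean.Expr := do
  let e := e.consumeMData
  let f := e.getAppFn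
  if let .proj _ _ s := f then return ← headOf s
  if let some c := f.constName? then
    if let some p := (← Lean.getEnv).getProjectionFnInfo? c then
      if !p.fromClass && e.getAppNumArgs > p.numParams then return ← headOf (e.getArg! p.numParams)
  return f

/-- steps at the head that need no rule: beta, projections of constructors, matchers -/
partial def hnf (e : Lean.Expr) : Lean.MetaM Lean.Expr := do
  let e := e.consumeMData
  if e.isHeadBetaTarget then return ← hnf e.headBeta
  let env ← Lean.getEnv
  let f := e.getAppFn
  let args := e.getAppArgs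
  if let .mdata _ f' := f then return ← hnf (Lean.mkAppN f' args)
  if let .letE _ _ v b _ := f then
    if args.size > 0 then return ← hnf (Lean.mkAppN (b.instantiate1 v) args)
  if let .proj n i s := f then
    if let some fn := (Lean.getStructureInfo? env n).bind (·.getProjFn? i) then
      let t ← Lean.Meta.whnf (← Lean.Meta.inferType s)
      return ← hnf (Lean.mkAppN (Lean.mkApp (Lean.mkAppN (Lean.mkConst fn t.getAppFn.constLevels!)
        t.getAppArgs) s) args)
  let some c := f.constName? | return e
  if let some p := env.getProjectionFnInfo? c then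
    if !p.fromClass && args.size > p.numParams then
      let s ← hnf args[p.numParams]!
      if s.isAppOf p.ctorName then
        return ← hnf (Lean.mkAppN (s.getArg! (p.numParams + p.i)) (args.extract (p.numParams + 1)))
      return Lean.mkAppN f (args.set! p.numParams s)
    return e
  if Lean.Meta.isMatcherCore env c || Lean.isSparseCasesOn env c then
    let v ← Lean.Core.instantiateValueLevelParams (← Lean.getConstInfo c) f.constLevels!
    if args.size < v.getNumHeadLambdas then return e
    return ← hnf (← Lean.Core.betaReduce (v.beta args))
  if Lean.isCasesOnRecursor env c || Lean.isRecCore env c then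
    let e' ← Lean.Meta.withReducible (Lean.Meta.whnfCore e)
    if e' != e then return ← hnf e'
  return e

/-- state of the search -/
structure St where
  cache : Std.HashMap Lean.Expr (Option Lean.Expr) := {}
  errs : Array Lean.MessageData := #[]
  inst : Std.HashMap Lean.Expr (Option Lean.Expr) := {}
  same : Std.HashMap Lean.Expr Lean.Expr := {}

abbrev M := ReaderT (Lean.LocalContext × Lean.LocalInstances) (StateRefT St Lean.MetaM)

/-- run in the context of the goal -/
def base {τ : Type} (k : M τ) : M τ := do Lean.Meta.withLCtx (← read).1 (← read).2 k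

def fail (m : Lean.MessageData) : M (Option Lean.Expr) := do
  let m ← Lean.addMessageContext m
  modify fun s => if s.errs.size < 6 then { s with errs := s.errs.push m } else s
  return none

/-- the instance `Rp ty` -/
partial def rpInst (ty : Lean.Expr) : M (Option Lean.Expr) := do
  if let some r := (← get).inst[ty]? then return r
  let ty' ← Lean.Meta.whnfR ty
  let r ← if ty'.isAppOfArity ``Prod 2 then do
      let some i ← rpInst ty'.appFn!.appArg! | pure none
      let some j ← rpInst ty'.appArg! | pure none
      pure (some (Lean.mkApp4 (Lean.mkConst ``instRpProd) ty'.appFn!.appArg! ty'.appArg! i j))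
    else Lean.Meta.synthInstance? (Lean.mkApp (Lean.mkConst ``Rp) ty) (some 4096)
  let r ← r.mapM fun i => Lean.instantiateMVars i
  modify fun s => { s with inst := s.inst.insert ty r }
  return r

/-- the canonical form of the instance `i : Rp ty` -/
def canon (ty i : Lean.Expr) : M Lean.Expr := do
  if let some r := (← get).same[i]? then return r
  let r ← match ← rpInst ty with
    | some j => if i == j || (← Lean.Meta.withReducibleAndInstances (Lean.Meta.isDefEq i j))
        then pure j else pure i
    | none => pure i
  modify fun s => { s with same := s.same.insert i r }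
  return r

/-- a tuple of metavariables, as deep as the projections of `p` in `b` go -/
partial def mvTup (α a δ p b : Lean.Expr) : M Lean.Expr := do
  let δ' ← Lean.Meta.whnfR δ
  if δ'.isAppOfArity ``Prod 2 then
    let p1 ← Lean.Meta.mkAppM ``Prod.fst #[p]
    let p2 ← Lean.Meta.mkAppM ``Prod.snd #[p]
    let isP (q s : Lean.Expr) : Bool :=
      s == q || (match s with
        | .proj _ i t => t == p && q.isAppOf (if i == 0 then ``Prod.fst else ``Prod.snd)
        | _ => s.isAppOfArity q.getAppFn.constName! 3 && s.appArg! == p)
    if (b.find? fun s => isP p1 s || isP p2 s).isSome then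
      let b' := b.replace fun s => if isP p1 s then some p1 else if isP p2 s then some p2 else none
      return ← Lean.Meta.mkAppOptM ``Prod.mk #[δ'.appFn!.appArg!, δ'.appArg!,
        ← mvTup α a δ'.appFn!.appArg! p1 b', ← mvTup α a δ'.appArg! p2 b']
  return Lean.mkApp (← base (Lean.Meta.mkFreshExprMVar (← Lean.mkArrow α δ))) a

/-- reduce the projections of explicit pairs -/
def redProj (e : Lean.Expr) : Lean.MetaM Lean.Expr :=
  Lean.Meta.transform e (post := fun s => do
    let (i, t) ← match s with
      | .proj ``Prod i t => pure (i, t)
      | _ =>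
        if s.isAppOfArity ``Prod.fst 3 then pure (0, s.appArg!)
        else if s.isAppOfArity ``Prod.snd 3 then pure (1, s.appArg!) else return .done s
    if t.isAppOfArity ``Prod.mk 4 then return .done (t.getArg! (2 + i)) else return .done s)

def isGoal (t : Lean.Expr) : Bool := t.isAppOfArity ``Impl 5 || t.isAppOfArity ``Pu 6

def unf : List Lean.Name := [``id, ``Function.comp, ``Function.const, ``Function.uncurry,
  ``Function.curry, ``Prod.map, ``flip, ``Function.swap, ``Ne, ``GT.gt, ``GE.ge, ``Sum.elim,
  ``Functor.discard, ``Sum.isLeft, ``Sum.isRight, ``Sum.map, ``Option.orElse,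
  ``Option.or, ``Option.filter, ``Option.all, ``Option.any, ``Option.join, ``List.tail?]

mutual

/-- use the rule `pf`; `dec`: compose it with a tuple -/
partial def useRule (extra : Array Lean.Name) (t pf : Lean.Expr) (dec : Bool) :
    M (Option Lean.Expr) := base do
  let sv ← Lean.Meta.saveState
  let r ← (do
    let (ms, bis, c) ← Lean.Meta.forallMetaTelescope (← Lean.Meta.inferType pf)
    let c ← Lean.Meta.whnfR c
    unless isGoal c && c.getAppFn.constName! == t.getAppFn.constName! do return none
    let mut side : Option Lean.Expr := none
    let mut weak := false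
    if c.isAppOf ``Pu && (c.getArg! 4).isConstOf ``Bool.true && !(t.getArg! 4).isConstOf ``Bool.true
      then weak := true
    let ar := c.isAppOf ``Pu && (c.getArg! 4).isFVar && (t.getArg! 4).isConstOf ``Bool.false
    let t' := if weak then t.setArg 4 (Lean.mkConst ``Bool.true)
      else if ar then t.setArg 4 (c.getArg! 4) else t
    if dec then
      let F := c.appArg!
      let α := t.getArg! 0
      let g? ← Lean.Meta.withLocalDeclD `a α fun a =>
        Lean.Meta.withLocalDeclD `p (c.getArg! 0) fun p => do
          let tp ← mvTup α a (c.getArg! 0) p (F.beta #[p])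
          let l ← Lean.Meta.mkLambdaFVars #[a] (← redProj (F.beta #[tp]))
          unless ← Lean.Meta.withReducible (Lean.Meta.isDefEq (c.getArg! 1) (t.getArg! 1)) do
            return none
          if c.isAppOf ``Pu then
            unless ← Lean.Meta.isDefEq (c.getArg! 4) (t'.getArg! 4) do return none
          unless ← Lean.Meta.withReducibleAndInstances (Lean.Meta.isDefEq l t.appArg!) do return none
          return some (← Lean.Meta.mkLambdaFVars #[a] tp)
      let some g := g? | return none
      side := some g
    else
      unless ← Lean.Meta.withReducibleAndInstances (Lean.Meta.isDefEq c t') do return none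
    for m in ms, bi in bis do
      if bi.isInstImplicit && !(← m.mvarId!.isAssigned) then
        let ty ← Lean.instantiateMVars (← Lean.Meta.inferType m)
        if ty.hasExprMVar then return none
        let some i ← (if ty.isAppOfArity ``Rp 1 then rpInst ty.appArg! else
          Lean.Meta.synthInstance? ty (some 4096)) | return none
        m.mvarId!.assign i
    for m in ms do
      if ← m.mvarId!.isAssigned then continue
      let h ← Lean.instantiateMVars (← Lean.Meta.inferType m)
      let h' ← Lean.Meta.whnfR h
      if isGoal h' then
        if h'.hasExprMVar then return none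
        let some q ← solve extra h' | return none
        m.mvarId!.assign q
      else
        try m.mvarId!.assumption catch _ => return ← fail m!"side condition {h}"
    let mut r := Lean.mkAppN pf ms
    if let some g := side then
      let g ← Lean.instantiateMVars g
      if g.hasExprMVar then return none
      let s := if t.isAppOf ``Pu then t'.getArg! 4 else Lean.mkConst ``Bool.true
      let c ← Lean.instantiateMVars c
      let h := Lean.mkAppN (Lean.mkConst ``Pu) #[t.getArg! 0, c.getArg! 0, t.getArg! 2, c.getArg! 2,
        s, g]
      let some q ← solve extra h | return none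
      r := Lean.mkAppN (Lean.mkConst (if t.isAppOf ``Pu then ``Pu.comp else ``Impl.comp))
        (#[t.getArg! 0, c.getArg! 0, c.getArg! 1, t.getArg! 2, c.getArg! 2, c.getArg! 3]
          ++ (if t.isAppOf ``Pu then #[s] else #[]) ++ #[c.appArg!, g, r, q])
      r ← Lean.Meta.mkExpectedTypeHint r t'
    if weak then
      r := Lean.mkAppN (Lean.mkConst ``Pu.weak) #[t.getArg! 0, t.getArg! 1, t.getArg! 2, t.getArg! 3,
        t.getArg! 4, t.appArg!, ← Lean.Meta.mkExpectedTypeHint r t']
    if ar then
      r := Lean.mkAppN (Lean.mkConst ``Pu.ar) #[t.getArg! 0, t.getArg! 1, t.getArg! 2, t.getArg! 3,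
        c.getArg! 4, t.appArg!, ← Lean.Meta.mkExpectedTypeHint r t']
    return some (← Lean.instantiateMVars r))
  if r.isNone then sv.restore
  return r

/-- the hypotheses of the context about the head `h` -/
partial def useLocal (extra : Array Lean.Name) (t h : Lean.Expr) : M (Option Lean.Expr × Bool) := do
  let mut found := false
  for d in (← read).1 do
    if d.isImplementationDetail then continue
    let ty ← Lean.instantiateMVars d.type
    let b := ty.getForallBody
    unless isGoal b && b.getAppFn.constName! == t.getAppFn.constName! do continue
    let f := b.appArg!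
    let x := if f.isLambda then f.bindingBody! else f
    let hd ← headOf x
    unless (x.getAppFn.isConst && h.isConst && x.getAppFn.constName! == h.constName!
      && (hd.isConst || hd.hasLooseBVars)) || hd == h do continue
    found := true
    if let some r ← useRule extra t d.toExpr false then return (some r, true)
    if let some r ← useRule extra t d.toExpr true then return (some r, true)
  return (none, found)

/-- prove the goal `t` through the definitionally equal goal with the body `b` -/
partial def change (extra : Array Lean.Name) (t a b : Lean.Expr) : M (Option Lean.Expr) := do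
  let some r ← solve extra (Lean.mkApp t.appFn! (← Lean.Meta.mkLambdaFVars #[a] b)) | return none
  return some (← Lean.Meta.mkExpectedTypeHint r t)

partial def byName (extra : Array Lean.Name) (t : Lean.Expr) (n : Lean.Name) :
    M (Option Lean.Expr) := useRule extra t (Lean.mkConst n) false

partial def solve (extra : Array Lean.Name) (t : Lean.Expr) : M (Option Lean.Expr) := do
  let t := (t.setArg 2 (← base (canon (t.getArg! 0) (t.getArg! 2)))).setArg 3
    (← base (canon (t.getArg! 1) (t.getArg! 3)))
  if let some r := (← get).cache[t]? then return r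
  let r ← base (solveCore extra t)
  modify fun s => { s with cache := s.cache.insert t r }
  return r

partial def solveCore (extra : Array Lean.Name) (t : Lean.Expr) (noLam : Bool := false) : M (Option Lean.Expr) := do
  Lean.Core.checkSystem "impl"
  let pu := t.isAppOf ``Pu
  Lean.Meta.withLocalDeclD `a (t.getArg! 0) fun a => do
  let b0 := t.appArg!.beta #[a]
  let b ← hnf b0
  if b != b0 || !t.appArg!.isLambda then return ← change extra t a b
  if !b.containsFVar a.fvarId! then
    for th in ← Mathlib.Meta.FunProp.getLambdaTheorems t.getAppFn.constName! .const do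
      if let some r ← byName extra t th.thmName then return some r
  if pu then
    let β ← Lean.Meta.whnfR (t.getArg! 1)
    if β.isConstOf ``Unit || β.isConstOf ``PUnit then return ← byName extra t ``Pu.unit
    if !(t.getArg! 4).isConstOf ``Bool.false then
      if β.isProp then return ← byName extra t ``Pu.prop
      if β.isConstOf ``Bool then return ← byName extra t ``Pu.bool
    if b == a then return ← byName extra t ``Pu.id
    if β.isForall && !noLam then
      unless (← headOf b) == a do
        if (← headOf b).isFVar || (← headOf b).isConstOf ``Rp.out then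
          let n0 := (← get).errs.size
          if let some r ← solveCore extra t true then return some r
          modify fun s => { s with errs := s.errs.shrink n0 }
        let f ← Lean.Meta.mkLambdaFVars #[a] (← Lean.Meta.etaExpand b)
        let some r ← byName extra (Lean.mkApp t.appFn! f) ``Pu.lam' | return none
        return some (← Lean.Meta.mkExpectedTypeHint r t)
    if let .forallE _ d c _ := b then
      if !c.hasLooseBVars && (← Lean.Meta.isProp d) then return ← byName extra t ``Pu.imp
  if let .letE n ty v c _ := b then
    let ty' ← Lean.Meta.whnfR ty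
    if !(ty'.isForall || v.isFVar || !c.hasLooseBVars || !v.containsFVar a.fvarId!
        || ty.containsFVar a.fvarId!) && (← Lean.Meta.inferType ty').isType0 then
      if let some i ← rpInst ty then
        let s := if pu then t.getArg! 4 else Lean.mkConst ``Bool.true
        let vf ← Lean.Meta.mkLambdaFVars #[a] v
        let n0 := (← get).errs.size
        match ← solve extra (Lean.mkAppN (Lean.mkConst ``Pu) #[t.getArg! 0, ty, t.getArg! 2, i, s, vf])
          with
        | some q1 =>
          let cf ← Lean.Meta.mkLambdaFVars #[a] (.lam n ty c .default)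
          let pf ← Lean.Meta.mkAppOptM (if pu then ``Pu.let' else ``Impl.let')
            (#[t.getArg! 0, ty, t.getArg! 1, t.getArg! 2, i, t.getArg! 3].map some
              ++ (if pu then #[some s] else #[]) ++ #[some vf, some cf])
          let .forallE _ _ (.forallE _ h2 _ _) _ ← Lean.Meta.inferType pf | return none
          let some q2 ← solve extra h2 | return none
          return some (← Lean.Meta.mkExpectedTypeHint (Lean.mkApp2 pf q1 q2) t)
        | none => modify fun s => { s with errs := s.errs.shrink n0 }
    return ← change extra t a (c.instantiate1 v)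
  let f := b.getAppFn
  let args := b.getAppArgs
  let env ← Lean.getEnv
  if f.isFVar then
    let (r, _) ← useLocal extra t f
    if r.isSome then return r
    if let some v ← f.fvarId!.getValue? then return ← change extra t a (v.beta args)
    return ← fail m!"no hypothesis for the variable {f} in{Lean.indentExpr t}"
  let some c := f.constName? | fail m!"no rule for{Lean.indentExpr t}"
  if c == ``call && args.size == 4 then
    let x ← hnf (args[2]!.beta #[args[3]!])
    if x.isApp && (← headOf x).isFVar then
      let y ← Lean.Meta.mkAppM ``call #[x.appFn!, x.appArg!]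
      if y != b then return ← change extra t a y
      let (r, _) ← useLocal extra t f
      if r.isSome then return r
      if (← headOf x) == a then return ← byName extra t ``Impl.call
      let n0 := (← get).errs.size
      if let some r ← byName extra t ``Impl.call_known then return some r
      let r ← byName extra t ``Impl.call
      if r.isSome then modify fun s => { s with errs := s.errs.shrink n0 }
      return r
    return ← byName extra t ``Impl.call_known
  if c == ``R.tk && args.size == 4 && args[1]!.nat? == some 1 then
    let x ← hnf args[3]!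
    if x.isApp && (← headOf x) == a then
      if x != args[3]! then return ← change extra t a (Lean.mkApp b.appFn! x)
      return ← byName extra t ``Impl.tk_call
  if extra.contains c then
    if let some e ← Lean.Meta.unfoldDefinition? b true then return ← change extra t a e
  let (r, found) ← useLocal extra t f
  if r.isSome then return r
  let hd ← headOf b
  let (r, found') ← if hd.isFVar && hd != a then useLocal extra t hd else pure (none, false)
  if r.isSome then return r
  let main := (List.range args.size).filter (args[·]!.containsFVar a.fvarId!)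
  let ths := (← Mathlib.Meta.FunProp.getTheoremsForFunction c t.getAppFn.constName!).filter
    fun th => th.appliedArgs == args.size && main.all th.mainArgs.contains
  let ths := ths.qsort fun x y => x.mainArgs.size < y.mainArgs.size
  let n0 := (← get).errs.size
  for th in ths do
    if let some r ← useRule extra t (← th.getProof) (th.form == .uncurried) then
      modify fun s => { s with errs := s.errs.shrink n0 }
      return some r
  if let some p := env.getProjectionFnInfo? c then
    if !p.fromClass && args.size > p.numParams then
      let s := args[p.numParams]!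
      if let some m ← viaMap (← Lean.Meta.inferType s) then
        let x := Lean.mkAppN f (args.extract 0 (p.numParams + 1))
        if let some y ← findComp x (← Lean.Meta.mkAppM ``Rp.out #[m, s]) (m.beta #[s]) then
          return ← change extra t a (Lean.mkAppN y (args.extract (p.numParams + 1)))
      if ths.isEmpty && !(← headOf s).isConstOf ``Rp.out then
        if let some s' ← Lean.Meta.unfoldDefinition? s true then
          return ← change extra t a (Lean.mkAppN f (args.set! p.numParams s'))
    if p.fromClass && (← get).errs.size == n0 then
      if let some e ← Lean.Meta.unfoldProjInst? b then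
        discard <| fail m!"no rule for{Lean.indentExpr t}"
        let r ← change extra t a e
        if r.isSome then modify fun s => { s with errs := s.errs.shrink n0 }
        return r
  else if let some (.ctorInfo ci) := env.find? c then
    if pu && args.size == ci.numParams + ci.numFields then
      if let some m ← viaMap (t.getArg! 1) then
        let x := m.beta #[b]
        let h ← Lean.Meta.mkExpectedTypeHint (← Lean.Meta.mkEqRefl x)
          (← Lean.Meta.mkEq (Lean.mkApp m b) x)
        return ← change extra t a (← Lean.Meta.mkAppOptM ``Rp.into #[none, none, m, x, b, h])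
  else if ths.isEmpty && !found && !found' then
    if unf.contains c || (← Lean.isReducible c)
        || ((`Crest.Agent).isPrefixOf c && !(← Lean.Meta.isRecursiveDefinition c)) then
      if let some (.defnInfo di) := env.find? c then
        let v ← Lean.Core.instantiateValueLevelParams (.defnInfo di) f.constLevels!
        return ← change extra t a (v.beta args)
  if (← get).errs.size == n0 then fail m!"no rule for{Lean.indentExpr t}" else return none

end

/-- the argument lists of the occurrences of the constant `c` -/
partial def occs (c : Lean.Name) (e : Lean.Expr) : StateM (Array (Array Lean.Expr)) Unit := do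
  match e with
  | .app .. | .const .. =>
    if e.getAppFn.isConstOf c then modify (·.push e.getAppArgs)
    else if e.isApp then occs c e.getAppFn
    e.getAppArgs.forM (occs c)
  | .lam _ _ b _ => occs c b
  | .letE _ _ v b _ => occs c v; occs c b
  | .mdata _ b => occs c b
  | .proj _ _ b => occs c b
  | _ => pure ()

/-- nested pairs -/
def mkTup (xs : List Lean.Expr) : Lean.MetaM Lean.Expr :=
  match xs with
  | [] => pure (Lean.mkConst ``Unit.unit)
  | [x] => pure x
  | x :: l => do Lean.Meta.mkAppM ``Prod.mk #[x, ← mkTup l]

/-- the components of nested pairs -/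
def unTup : ℕ → Lean.Expr → Lean.MetaM (List Lean.Expr)
  | 0, _ => pure []
  | 1, t => pure [t]
  | n + 2, t => do
    return (← Lean.Meta.mkAppM ``Prod.fst #[t]) :: (← unTup (n + 1) (← Lean.Meta.mkAppM ``Prod.snd #[t]))

/-- reduce `Impl fun a => foo ..` for a recursive `foo` to its body -/
def recStep (g : Lean.MVarId) : Lean.MetaM (List Lean.MVarId) := g.withContext do
  let t ← Lean.Meta.whnfR (← Lean.instantiateMVars (← g.getType))
  unless t.isAppOfArity ``Impl 5 do throwError "impl_rec: the goal is not `Impl`"
  Lean.Meta.withLocalDeclD `a (t.getArg! 0) fun a => do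
    let body := t.appArg!.beta #[a]
    let some c := body.getAppFn.constName? | throwError "impl_rec: the head is not a constant"
    let args := body.getAppArgs
    let some eqn ← Lean.Meta.getUnfoldEqnFor? c (nonRec := true)
      | throwError "impl_rec: no unfolding equation for {c}"
    let eqc := Lean.mkConst eqn body.getAppFn.constLevels!
    let vary ← Lean.Meta.forallTelescope (← Lean.Meta.inferType eqc) fun xs eq => do
      unless xs.size == args.size do throwError "impl_rec: wrong number of arguments"
      let some (_, _, rhs) := eq.eq? | throwError "impl_rec: not an equation"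
      let os := ((occs c rhs).run #[]).2
      return (List.range xs.size).filter fun i => os.any fun o => o[i]? != some xs[i]!
    let tup ← mkTup (vary.map (args[·]!))
    let γ ← Lean.Meta.inferType tup
    let ρ ← Lean.Meta.whnfR (← Lean.Meta.inferType body)
    let (gE, FE, eE) ← Lean.Meta.withLocalDeclD `c γ fun x => do
      let ps ← unTup vary.length x
      let args' := (vary.zip ps).foldl (fun r (i, p) => r.set! i p) args
      let gE ← Lean.Meta.mkLambdaFVars #[a, x] (Lean.mkAppN body.getAppFn args')
      let pf := Lean.mkAppN eqc args'
      let some (_, _, rhs) := (← Lean.Meta.inferType pf).eq? | throwError "impl_rec"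
      Lean.Meta.withLocalDeclD `k (← Lean.mkArrow γ ρ) fun k => do
        let rhs' ← Lean.Meta.transform rhs (skipConstInApp := true)
          (pre := fun e => do
            if e.getAppFn.isConstOf c && e.getAppNumArgs < args.size then
              return .visit (← Lean.Meta.forallBoundedTelescope (← Lean.Meta.inferType e)
                (some (args.size - e.getAppNumArgs)) fun ys _ =>
                  Lean.Meta.mkLambdaFVars ys (Lean.mkAppN e ys))
            return .continue)
          (post := fun e => do
            if e.getAppFn.isConstOf c && e.getAppNumArgs == args.size then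
              return .done (Lean.mkApp k (← mkTup (vary.map (e.getArg! ·))))
            return .done e)
        return (gE, ← Lean.Meta.mkLambdaFVars #[a, k, x] rhs', ← Lean.Meta.mkLambdaFVars #[a, x] pf)
    let fx ← Lean.Meta.mkAppOptM ``Impl.fix #[t.getArg! 0, γ, ρ.appArg!, none, none, none, gE, FE]
    let .forallE _ eT _ _ ← Lean.Meta.inferType fx | throwError "impl_rec"
    let fx := Lean.mkApp fx (← Lean.Meta.mkExpectedTypeHint eE eT)
    let .forallE _ hT _ _ ← Lean.Meta.inferType fx | throwError "impl_rec"
    let hF ← Lean.Meta.mkFreshExprMVarAt (← g.getDecl).lctx (← g.getDecl).localInstances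
      (← Lean.Core.betaReduce hT) .syntheticOpaque
    let pr ← Lean.Meta.mkLambdaFVars #[a] (← Lean.Meta.mkAppM ``Prod.mk #[a, tup])
    let hP ← Lean.Meta.mkFreshExprMVarAt (← g.getDecl).lctx (← g.getDecl).localInstances
      (← Lean.Meta.mkAppM ``Pu #[Lean.mkConst ``Bool.true, pr]) .syntheticOpaque
    let pf ← Lean.Meta.mkAppM ``Impl.comp #[Lean.mkApp fx hF, hP]
    g.assign (← Lean.Meta.mkExpectedTypeHint pf t)
    return [hF.mvarId!, hP.mvarId!]

end ImplTac

/-- the proof search for `Impl f` and `Pu σ f` -/
elab "impl_core" ids:(ppSpace colGt ident)* : tactic => Lean.Elab.Tactic.withMainContext do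
  let extra ← ids.mapM fun i => Lean.Elab.realizeGlobalConstNoOverloadWithInfo i
  let g ← Lean.Elab.Tactic.getMainGoal
  let t ← Lean.Meta.whnfR (← Lean.instantiateMVars (← g.getType))
  unless ImplTac.isGoal t do throwError "impl: the goal is not `Impl` or `Pu`"
  let (r, s) ← (ImplTac.solve extra t (← Lean.getLCtx, ← Lean.Meta.getLocalInstances)).run {}
  let some r := r
    | throwError "impl failed:\n{Lean.MessageData.joinSep s.errs.toList "\n"}"
  g.assign r

/-- unfold the recursive program at the head of the goal; its calls become calls of a closure -/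
elab "impl_rec_step" : tactic => do
  Lean.Elab.Tactic.replaceMainGoal (← Lean.withOptions
    (fun o => o.set `synthInstance.maxSize (4096 : ℕ)) (ImplTac.recStep (← Lean.Elab.Tactic.getMainGoal)))

/-- prove `Impl f` or `Pu σ f`; the listed constants are unfolded in any case -/
macro "impl" ids:(ppSpace colGt ident)* : tactic => `(tactic| (intros; impl_core $ids*))

/-- prove `Impl fun a => foo ..` for a recursive program whose recursive uses go through `call` -/
macro "impl_rec" ids:(ppSpace colGt ident)* : tactic =>
  `(tactic| (intros; impl_rec_step; (· impl $ids*); (· impl)))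

end Crest.Agent.N325
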