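import Crest.Agent.N325.M0.Std1

/-!
# N325 / M0 (helper34): **the wrapper for large inputs** `goal_ev`
-/

set_option autoImplicit false

namespace Crest.Agent.N325

open Crest.GraphRAM Filter

variable {α : Type} [Rp α]

/-- the body of the loop counting a list -/
def lenB : List ℕ × ℕ → R ℕ := fun p =>
  List.casesOn p.1 (.ret p.2) fun _ l => foldP (fun _ s => s + 1) l (p.2 + 1)

theorem lenB_eq (l : List ℕ) (s : ℕ) : foldP (fun _ s => s + 1) l s = call lenB (l, s) := by
  cases l <;> rfl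

theorem impl_lenB : Impl lenB :=
  Impl.fix0 (fun g p => List.casesOn p.1 (.ret p.2) fun _ l => call g (l, p.2 + 1))
    (fun p => by simp only [lenB, lenB_eq]) (by fun_prop)

@[fun_prop] theorem impl_sizeR {x : α → List ℕ} (h : Pu true x) : Impl fun a => sizeR (x a) := by
  have := impl_lenB
  refine Impl.comp (g := sizeR) ?_ h
  unfold sizeR lenL
  simp only [lenB_eq]
  refine Impl.bind (Impl.call_known ?_) ?_ <;> fun_prop

/-- the body of the loop of `powR` -/
def powB : ℕ × ℕ × ℕ × ℕ → R ℕ := fun p =>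
  Nat.casesOn p.2.1 (.ret p.2.2.2) fun n =>
    nat (p.2.2.2 * p.1) >>= forN (fun _ s => nat (s * p.1)) n (p.2.2.1 + 1)

theorem powB_eq (a n i : ℕ) :
    forN (fun _ s => nat (s * a)) n i = fun s => call powB (a, n, i, s) := by
  funext s
  cases n <;> rfl

theorem impl_powB : Impl powB :=
  Impl.fix0 (fun g p => Nat.casesOn p.2.1 (.ret p.2.2.2) fun n =>
    nat (p.2.2.2 * p.1) >>= fun s => call g (p.1, n, p.2.2.1 + 1, s))
    (fun p => by simp only [powB, powB_eq]) (by fun_prop)

@[fun_prop] theorem impl_powR {x k : α → ℕ} (hx : Pu true x) (hk : Pu true k) :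
    Impl fun a => powR (x a) (k a) := by
  have := impl_powB
  unfold powR
  simp only [powB_eq]
  refine Impl.call_known ?_
  fun_prop

@[fun_prop] theorem impl_levR {x : α → ℕ} (h : Pu true x) : Impl fun a => levR (x a) := by
  unfold levR; fun_prop

@[fun_prop] theorem impl_lamR {x : α → ℕ} (h : Pu true x) : Impl fun a => lamR (x a) := by
  unfold lamR; fun_prop

@[fun_prop] theorem impl_rtR {x y : α → ℕ} (hx : Pu true x) (hy : Pu true y) :
    Impl fun a => rtR (x a) (y a) := by
  unfold rtR; fun_prop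

@[fun_prop] theorem impl_clg2 {x : α → ℕ} (h : Pu true x) : Impl fun a => clg2 (x a) := by
  unfold clg2; fun_prop

theorem impl_fuStd (C : ℕ) : Impl (fuStd C) := by
  unfold fuStd; fun_prop

/-- **the wrapper for large inputs**: a slow exact algorithm without samples (any cost), and an
algorithm that is correct and fast on all large inputs -/
theorem goal_ev (slow alg : List ℕ → R (List ℕ)) (S G : ℕ → ℕ) (c : ℕ) (hs : Impl slow)
    (ha : Impl alg) (hG : SubQ G)
    (hslow : ∀ (n : ℕ) (Γ : SimpleGraph (Fin n)) (adj : Fin n → List (Fin n)), 1 ≤ n →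
      (∀ v, (adj v).Nodup ∧ ∀ u, u ∈ adj v ↔ Γ.Adj v u) →
      Sp ⟨S (sizeN n adj), -1⟩ (slow (adjInput n adj))
        fun out t => IsMaxMatchingOutput Γ out ∧ t ≤ S (sizeN n adj))
    (halg : ∀ᶠ N : ℕ in atTop, ∀ (n : ℕ) (Γ : SimpleGraph (Fin n)) (adj : Fin n → List (Fin n)),
      1 ≤ n → (∀ v, (adj v).Nodup ∧ ∀ u, u ∈ adj v ↔ Γ.Adj v u) → sizeN n adj = N →
      Sp ⟨(N + 2) ^ c, 1 / ((N : ℝ) + 2) ^ 3⟩ (alg (adjInput n adj))
        fun out t => IsMaxMatchingOutput Γ out ∧ t ≤ N * G N) : Goal :=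
  goal_ev_aux (impl_sizeR Pu.id) impl_fuStd slow alg S G c hs ha hG hslow halg

end Crest.Agent.N325
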