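import Mathlib

/-!
# N325 / M0 (helper34): almost linear functions and the exponent `η`
-/

set_option autoImplicit false

namespace Crest.Agent.N325

open Filter

/-- `G N = N ^ (1 + o(1))` -/
def AL (G : ℕ → ℕ) : Prop :=
  ∀ ε : ℝ, 0 < ε → ∃ C : ℝ, ∀ N : ℕ, 1 ≤ N → (G N : ℝ) ≤ C * (N : ℝ) ^ (1 + ε)

/-- `G N = N ^ o(1)` -/
def SubP (G : ℕ → ℕ) : Prop :=
  ∀ ε : ℝ, 0 < ε → ∃ C : ℝ, ∀ N : ℕ, 1 ≤ N → (G N : ℝ) ≤ C * (N : ℝ) ^ ε

theorem AL.mono {G H : ℕ → ℕ} (h : AL H) (k : ∀ N, 1 ≤ N → G N ≤ H N) : AL G := fun ε e => by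
  obtain ⟨C, hC⟩ := h ε e
  exact ⟨C, fun N hN => (Nat.cast_le.2 (k N hN)).trans (hC N hN)⟩

theorem SubP.mono {G H : ℕ → ℕ} (h : SubP H) (k : ∀ N, 1 ≤ N → G N ≤ H N) : SubP G :=
  fun ε e => by
    obtain ⟨C, hC⟩ := h ε e
    exact ⟨C, fun N hN => (Nat.cast_le.2 (k N hN)).trans (hC N hN)⟩

theorem AL.add {G H : ℕ → ℕ} (g : AL G) (h : AL H) : AL fun N => G N + H N := fun ε e => by
  obtain ⟨C, hC⟩ := g ε e
  obtain ⟨D, hD⟩ := h ε e
  exact ⟨C + D, fun N hN => by push_cast; rw [add_mul]; exact add_le_add (hC N hN) (hD N hN)⟩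

theorem SubP.add {G H : ℕ → ℕ} (g : SubP G) (h : SubP H) : SubP fun N => G N + H N :=
  fun ε e => by
    obtain ⟨C, hC⟩ := g ε e
    obtain ⟨D, hD⟩ := h ε e
    exact ⟨C + D, fun N hN => by push_cast; rw [add_mul]; exact add_le_add (hC N hN) (hD N hN)⟩

theorem mul_rpow_aux {x y C D a b N : ℝ} (hN : 0 < N) (hx : 0 ≤ x) (hy : 0 ≤ y)
    (h1 : x ≤ C * N ^ a) (h2 : y ≤ D * N ^ b) : x * y ≤ C * D * N ^ (a + b) := by
  rw [Real.rpow_add hN]
  calc x * y ≤ C * N ^ a * (D * N ^ b) := mul_le_mul h1 h2 hy (hx.trans h1)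
    _ = _ := by ring

theorem AL.mul {G H : ℕ → ℕ} (g : AL G) (h : SubP H) : AL fun N => G N * H N := fun ε e => by
  obtain ⟨C, hC⟩ := g (ε / 2) (by positivity)
  obtain ⟨D, hD⟩ := h (ε / 2) (by positivity)
  refine ⟨C * D, fun N hN => ?_⟩
  push_cast
  rw [show 1 + ε = 1 + ε / 2 + ε / 2 by ring]
  exact mul_rpow_aux (by exact_mod_cast hN) (by positivity) (by positivity) (hC N hN) (hD N hN)

theorem SubP.mul {G H : ℕ → ℕ} (g : SubP G) (h : SubP H) : SubP fun N => G N * H N :=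
  fun ε e => by
    obtain ⟨C, hC⟩ := g (ε / 2) (by positivity)
    obtain ⟨D, hD⟩ := h (ε / 2) (by positivity)
    refine ⟨C * D, fun N hN => ?_⟩
    push_cast
    rw [show ε = ε / 2 + ε / 2 by ring]
    exact mul_rpow_aux (by exact_mod_cast hN) (by positivity) (by positivity) (hC N hN) (hD N hN)

theorem SubP.const (c : ℕ) : SubP fun _ => c := fun ε e =>
  ⟨c, fun N hN => le_mul_of_one_le_right (by positivity)
    (Real.one_le_rpow (by exact_mod_cast hN) e.le)⟩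

theorem SubP.pow {G : ℕ → ℕ} (g : SubP G) (k : ℕ) : SubP fun N => G N ^ k := by
  induction k with
  | zero => exact SubP.const 1
  | succ k ih => simpa only [pow_succ] using ih.mul g

theorem AL.id : AL fun N => N := fun ε e => ⟨1, fun N hN => by
  have h : (1 : ℝ) ≤ N := by exact_mod_cast hN
  rw [one_mul]
  simpa using Real.rpow_le_rpow_of_exponent_le h (show (1 : ℝ) ≤ 1 + ε by linarith)⟩

theorem SubP.al {G : ℕ → ℕ} (g : SubP G) : AL G :=
  (AL.id.mul g).mono fun _ hN => Nat.le_mul_of_pos_left _ hN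

theorem AL.const (c : ℕ) : AL fun _ => c := (SubP.const c).al

theorem AL.mul_left {G H : ℕ → ℕ} (h : SubP H) (g : AL G) : AL fun N => H N * G N := by
  simpa only [mul_comm] using g.mul h

theorem SubP.log : SubP fun N => Nat.log 2 N := fun ε e => ⟨2 / ε, fun N hN => by
  have h : (1 : ℝ) ≤ N := by exact_mod_cast hN
  have h1 : (Nat.log 2 N : ℝ) * Real.log 2 ≤ Real.log N := by
    rw [← Real.log_pow]
    refine Real.log_le_log (by positivity) ?_
    exact_mod_cast Nat.pow_log_le_self 2 (by omega)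
  have h2 := Real.log_le_rpow_div (by positivity : (0 : ℝ) ≤ N) e
  have h3 := Real.log_two_gt_d9
  have h4 : (0 : ℝ) ≤ Nat.log 2 N := by positivity
  rw [div_mul_eq_mul_div, mul_div_assoc]
  nlinarith⟩

theorem clog_le_log_add (n : ℕ) : Nat.clog 2 n ≤ Nat.log 2 n + 1 :=
  Nat.clog_le_of_le_pow (Nat.lt_pow_succ_log_self one_lt_two n).le

theorem SubP.clog : SubP fun N => Nat.clog 2 (N + 2) :=
  (SubP.log.add (SubP.const 3)).mono fun N hN => by
    refine Nat.clog_le_of_le_pow ?_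
    have := Nat.lt_pow_succ_log_self one_lt_two N
    rw [pow_succ] at this
    rw [pow_add]
    omega

/-- an almost linear function is at most quadratic -/
theorem AL.le_sq {G : ℕ → ℕ} (g : AL G) : ∃ C : ℕ, ∀ N, 1 ≤ N → G N ≤ C * N ^ 2 := by
  obtain ⟨C, hC⟩ := g 1 one_pos
  refine ⟨⌈C⌉₊, fun N hN => ?_⟩
  have := hC N hN
  rw [one_add_one_eq_two, Real.rpow_two] at this
  exact_mod_cast this.trans (mul_le_mul_of_nonneg_right (Nat.le_ceil C) (by positivity))

/-- **the exponent** -/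
theorem AL.exists_eta {G : ℕ → ℕ} (g : AL G) : ∃ (C : ℕ) (η : ℕ → ℝ), Antitone η ∧
    Tendsto η atTop (nhds 0) ∧ ∀ N, 1 ≤ N → G N ≤ ⌈(C : ℝ) * (N : ℝ) ^ (1 + η N)⌉₊ := by
  let a : ℕ → ℝ := fun M => max 0 (Real.logb M (G M + 1) - 1)
  have a0 : ∀ M, 0 ≤ a M := fun M => le_max_left _ _
  have ha : ∀ ε : ℝ, 0 < ε → ∃ M0, ∀ M ≥ M0, a M ≤ ε := by
    intro ε e
    obtain ⟨C, hC⟩ := (g.add (AL.const 1)) (ε / 2) (by positivity)
    have t : Tendsto (fun M : ℕ => (M : ℝ) ^ (ε / 2)) atTop atTop :=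
      (tendsto_rpow_atTop (by positivity)).comp tendsto_natCast_atTop_atTop
    obtain ⟨M0, hM⟩ := eventually_atTop.1 (t.eventually_ge_atTop C)
    refine ⟨max M0 2, fun M hM' => max_le e.le ?_⟩
    have h2 : (1 : ℝ) < M := by exact_mod_cast (show 1 < M by omega)
    have h3 := hC M (by omega)
    push_cast at h3
    rw [sub_le_iff_le_add, Real.logb_le_iff_le_rpow h2 (by positivity),
      show ε + 1 = ε / 2 + (1 + ε / 2) by ring, Real.rpow_add (by positivity)]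
    exact h3.trans (mul_le_mul_of_nonneg_right (hM M (by omega)) (by positivity))
  have hb : BddAbove (Set.range a) := by
    obtain ⟨M0, h⟩ := ha 1 one_pos
    refine ⟨1 + ∑ M ∈ Finset.range M0, a M, ?_⟩
    rintro _ ⟨M, rfl⟩
    have s : 0 ≤ ∑ M ∈ Finset.range M0, a M := Finset.sum_nonneg fun M _ => a0 M
    by_cases k : M < M0
    · have := Finset.single_le_sum (f := a) (fun M _ => a0 M) (Finset.mem_range.2 k)
      linarith
    · have := h M (by omega)
      linarith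
  have hb' : ∀ N, BddAbove (Set.range fun k => a (N + k)) := fun N =>
    hb.mono (by rintro _ ⟨k, rfl⟩; exact ⟨_, rfl⟩)
  have le : ∀ N M, N ≤ M → a M ≤ ⨆ k, a (N + k) := fun N M h => by
    obtain ⟨k, rfl⟩ := Nat.exists_eq_add_of_le h
    exact le_ciSup (hb' N) k
  refine ⟨G 1 + 1, fun N => ⨆ k, a (N + k), fun N M h => ciSup_le fun k => le N _ (by omega),
    Metric.tendsto_atTop.2 fun ε e => ?_, fun N hN => ?_⟩
  · obtain ⟨M0, h⟩ := ha (ε / 2) (by positivity)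
    refine ⟨M0, fun N hN => ?_⟩
    rw [Real.dist_eq, sub_zero, abs_of_nonneg ((a0 N).trans (le N N le_rfl))]
    exact (ciSup_le fun k => h _ (by omega)).trans_lt (by linarith)
  · refine Nat.cast_le (α := ℝ).1 (le_trans ?_ (Nat.le_ceil _))
    rcases hN.eq_or_lt with rfl | h1
    · simp
    · have h2 : (1 : ℝ) < N := by exact_mod_cast h1
      have h3 : Real.logb N (G N + 1) ≤ 1 + ⨆ k, a (N + k) := by
        have := (le_max_right _ _).trans (le N N le_rfl)
        linarith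
      rw [Real.logb_le_iff_le_rpow h2 (by positivity)] at h3
      have h4 : (1 : ℝ) ≤ ((G 1 + 1 : ℕ) : ℝ) := by exact_mod_cast Nat.le_add_left 1 _
      nlinarith [Real.rpow_nonneg (zero_le_one.trans h2.le) (1 + ⨆ k, a (N + k))]

end Crest.Agent.N325
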