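import Crest.Agent.N325.M0.SubQ
import Crest.Agent.N325.M0.Top0
import Crest.Agent.N325.Lst.ListR

/-!
# N325 / M0 (helper34): programs for the size of the input and the standard parameters
-/

set_option autoImplicit false

namespace Crest.Agent.N325

open Crest.GraphRAM

variable {g : Gl}

/-- the size `n + m` read off the input -/
def sizeR (inp : List ℕ) : R ℕ := do
  let l ← lenL inp
  pure (l - 2 - (l - (inp.headD 0 + 2) + 1) / 2)

theorem sp_sizeR (n : ℕ) (adj : Fin n → List (Fin n)) :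
    Sp g (sizeR (adjInput n adj)) fun r t => r = sizeN n adj ∧ t ≤ 2 * sizeN n adj + 4 := by
  refine (sp_lenL _).bind fun l t k => sp_pure.2 ?_
  have := length_adjInput_le n adj
  rw [headD_adjInput, k.1, k.2]
  refine ⟨?_, by omega⟩
  rw [length_adjInput, sizeN]; omega

/-- the number of levels -/
def levR (N : ℕ) : R ℕ := do
  let a ← lg2 N
  let b ← lg2 a
  let c ← lg2 b
  let d ← lg2 c
  pure (d + 1)

theorem sp_levR (N : ℕ) : Sp g (levR N) fun r t => r = lev N ∧ t ≤ 4 * Nat.log 2 N + 4 := by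
  refine (sp_lg2 _).bind fun a t1 k1 => (sp_lg2 _).bind fun b t2 k2 =>
    (sp_lg2 _).bind fun c t3 k3 => (sp_lg2 _).bind fun d t4 k4 => sp_pure.2 ?_
  have h1 := Nat.log_le_self 2 a
  have h2 := Nat.log_le_self 2 b
  have h3 := Nat.log_le_self 2 c
  exact ⟨by rw [k4.1, k3.1, k2.1, k1.1, lev], by omega⟩

/-- the slower parameter -/
def lamR (N : ℕ) : R ℕ := do
  let a ← levR N
  let b ← lg2 a
  pure (b + 1)

theorem lev_le (N : ℕ) : lev N ≤ Nat.log 2 N + 1 :=
  Nat.succ_le_succ ((Nat.log_le_self 2 _).trans ((Nat.log_le_self 2 _).trans (Nat.log_le_self 2 _)))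

theorem sp_lamR (N : ℕ) : Sp g (lamR N) fun r t => r = lam N ∧ t ≤ 5 * Nat.log 2 N + 6 := by
  refine (sp_levR _).bind fun a t1 k1 => (sp_lg2 _).bind fun b t2 k2 => sp_pure.2 ?_
  have h1 := Nat.log_le_self 2 a
  have h2 := lev_le N
  exact ⟨by rw [k2.1, k1.1, lam], by omega⟩

/-- powers (guarded) -/
def powR (a k : ℕ) : R ℕ := forN (fun _ s => nat (s * a)) k 0 1

theorem sp_powR {a k : ℕ} (ha : 1 ≤ a) (h : a ^ k ≤ g.X) :
    Sp g (powR a k) fun r t => r = a ^ k ∧ t ≤ k + 1 :=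
  (sp_forN' (fun j s => s = a ^ j) 0 (fun j s _ hj e => sp_nat.2
    ⟨by rw [e, ← pow_succ]; exact (Nat.pow_le_pow_right ha (by omega)).trans h,
      by rw [e, pow_succ], le_rfl⟩) (pow_zero a).symm).mono fun r t k' =>
    ⟨by rw [k'.1, zero_add], by omega⟩

/-- the root `rt L N` -/
def rtR (L N : ℕ) : R ℕ := do
  let a ← lg2 N
  powR 2 (a / L + 1)

theorem sp_rtR {L N : ℕ} (h : 2 * N + 2 ≤ g.X) :
    Sp g (rtR L N) fun r t => r = rt L N ∧ t ≤ 2 * Nat.log 2 N + 3 := by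
  refine (sp_lg2 _).bind fun a t k => ?_
  rw [k.1]
  refine (sp_powR one_le_two ((rt_le L N).trans h)).mono fun r s k' => ⟨k'.1, ?_⟩
  have := Nat.div_le_self (Nat.log 2 N) L
  omega

/-- the ceiling of the binary logarithm -/
def clg2 (x : ℕ) : R ℕ := do
  let a ← lg2 (x - 1)
  pure (if x ≤ 1 then 0 else a + 1)

theorem sp_clg2 (x : ℕ) : Sp g (clg2 x) fun r t => r = Nat.clog 2 x ∧ t ≤ Nat.log 2 x + 1 := by
  refine (sp_lg2 _).bind fun a t k => sp_pure.2 ⟨?_, ?_⟩
  · split_ifs with h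
    · exact (Nat.clog_of_right_le_one h 2).symm
    · refine (le_antisymm (Nat.clog_le_of_le_pow ?_) (Nat.succ_le_of_lt
        ((Nat.lt_clog_iff_pow_lt one_lt_two).2 ?_))).symm
      · have := Nat.lt_pow_succ_log_self one_lt_two (x - 1)
        rw [k.1]; omega
      · have := Nat.pow_log_le_self 2 (show x - 1 ≠ 0 by omega)
        rw [k.1]; omega
  · have := Nat.log_mono_right (b := 2) (Nat.sub_le x 1)
    omega

/-- the standard fuel -/
def fuStd (C : ℕ) (inp : List ℕ) : R ℕ := do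
  let N ← sizeR inp
  let l ← lamR N
  let r ← rtR l N
  nat (C * (N * r))

theorem sp_fuStd {C n : ℕ} {adj : Fin n → List (Fin n)}
    (h : C * (sizeN n adj * rt (lam (sizeN n adj)) (sizeN n adj)) ≤ g.X)
    (h' : 2 * sizeN n adj + 2 ≤ g.X) : Sp g (fuStd C (adjInput n adj)) fun r t =>
      r = C * (sizeN n adj * rt (lam (sizeN n adj)) (sizeN n adj)) ∧ t ≤ 9 * sizeN n adj + 13 := by
  refine (sp_sizeR n adj).bind fun N t1 k1 => ?_
  rw [k1.1]
  refine (sp_lamR _).bind fun l t2 k2 => (sp_rtR h').bind fun r t3 k3 => ?_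
  have := Nat.log_le_self 2 (sizeN n adj)
  rw [k3.1, k2.1]
  exact sp_nat.2 ⟨h, rfl, by omega⟩

end Crest.Agent.N325
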