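import Crest.Agent.N325.M0.Data2

/-!
# N325 / M0: binary recursion, arrays (tries), samples (helper68)
-/

set_option autoImplicit false

namespace Crest.Agent.N325

variable {α β γ δ : Type} [Rp α] [Rp β] [Rp γ] [Rp δ] {σ : Bool}

/-! ### linear recursion in the deep language -/

/-- the body: `x ↦ if p x = 0 then b x else u (x, self (d x))` on `node self x` -/
def recB (p b d u : Tm) : Tm :=
  .comp (.cond (.comp u (.pair .snd (.comp .app (.pair .fst (.pair .fst (.comp d .snd))))))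
    (.comp b .snd)) (.pair (.comp p .snd) .id)

/-- the recursion -/
def recT (p b d u : Tm) : Tm := .comp (recB p b d u) (.pair (.const (recB p b d u).enc) .id)

section
variable {W : ℕ} {p b d u : Tm} {x x' y y' q : V} {n1 n2 n3 n4 : ℕ}

theorem ev_rec_base (h1 : Ev W p x (.leaf 0) n1) (h2 : Ev W b x y n2) :
    Ev W (recB p b d u) (.node (recB p b d u).enc x) y (n1 + n2 + 8) :=
  ((((Ev.snd _ _).comp h1).pair (Ev.id _)).comp (Ev.cond_zero ((Ev.snd _ _).comp h2))).le (by omega)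

theorem ev_rec_step (h1 : Ev W p x q n1) (hq : q ≠ .leaf 0) (h2 : Ev W d x x' n2)
    (h3 : Ev W (recB p b d u) (.node (recB p b d u).enc x') y' n3) (h4 : Ev W u (.node x y') y n4) :
    Ev W (recB p b d u) (.node (recB p b d u).enc x) y (n1 + n2 + n3 + n4 + 17) :=
  ((((Ev.snd _ _).comp h1).pair (Ev.id _)).comp (Ev.cond_ne hq (((Ev.snd _ _).pair
    (((Ev.fst _ _).pair ((Ev.fst _ _).pair ((Ev.snd _ _).comp h2))).comp (Ev.app h3))).comp h4))).le
    (by omega)

theorem ev_recT (h : Ev W (recB p b d u) (.node (recB p b d u).enc x) y n1) :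
    Ev W (recT p b d u) x y (n1 + 4) := (((Ev.const _ _).pair (Ev.id _)).comp h).le (by omega)

end

/-! ### recursion on the binary digits -/

/-- recursion along `n ↦ n / 2` -/
def binRec {β γ : Type} (b : β → γ) (d : ℕ → β → β) (u : ℕ → β → γ → γ) (n : ℕ) (x : β) : γ :=
  if _h : n = 0 then b x else u n x (binRec b d u (n / 2) (d n x))
termination_by n
decreasing_by omega

theorem lt_grow2 {x s : ℕ} (c : ℕ) (hs : 1 ≤ s) (h : x < 2 ^ s) :
    x + c * (s + 1) < 2 ^ ((2 * c + 1) * s) := by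
  have h1 : c * (s + 1) + 1 ≤ 2 ^ (2 * c * s) :=
    (Nat.lt_two_pow_self (n := c * (s + 1))).trans_le
      (Nat.pow_le_pow_right two_pos (by nlinarith))
  rw [add_mul, one_mul, pow_add]
  nlinarith [Nat.mul_le_mul h1 (Nat.succ_le_of_lt h), Nat.zero_le (c * (s + 1) * x)]

theorem Pu.binRec' {b : β → γ} {d : ℕ → β → β} {u : ℕ → β → γ → γ} (hb : Pu true b)
    (hd : Pu true fun p : ℕ × β => d p.1 p.2)
    (hu : Pu true fun p : (ℕ × β) × γ => u p.1.1 p.1.2 p.2) :
    Pu false fun p : ℕ × β => N325.binRec b d u p.1 p.2 := by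
  obtain ⟨t1, d1, c1, hd1, hb⟩ := hb.comp (Pu.snd' (α := ℕ))
  obtain ⟨t2, d2, c2, hd2, hd⟩ := (Pu.fst'.div (Pu.const 2)).pair hd
  obtain ⟨t3, d3, c3, hd3, hu⟩ := hu
  refine ⟨recT .fst t1 t2 t3, (d1 + d2 + d3) * (2 * (c1 + c2 + c3) + 1), c1 + c2 + c3 + 18 + 1 + 4,
    Nat.mul_pos (by omega) (by omega), fun P s B a v k1 k2 k3 k4 k5 k6 => ?_⟩
  rw [mul_assoc] at k3 ⊢
  generalize hc : c1 + c2 + c3 = c at *
  generalize hs : (2 * c + 1) * s = s' at *
  have e0 : s ≤ s' := hs ▸ Nat.le_mul_of_pos_left _ (by omega)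
  have e1 := U_add3 P.w (c1 + c2) c3 18
  have e2 := U_add P.w c1 c2
  have e3 := U_succ P.w (c + 18)
  have e4 := U_add2 P.w (c + 18 + 1) 4
  have e5 := U_mono P.w (Nat.le_add_right (c + 18) 1)
  rw [hc] at e1
  rw [add_mul, add_mul] at k3
  have e6 : s' ≤ d1 * s' := Nat.le_mul_of_pos_left _ hd1
  have key : ∀ (j : ℕ) (a : ℕ × β) (v : V), a.1 < 2 ^ j → rp P B a v → v.mx + c * (j + 1) < 2 ^ s' →
      ∃ r, rp P B (N325.binRec b d u a.1 a.2) r ∧ r.mx ≤ v.mx + c * (j + 1) ∧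
        Ev (2 ^ P.w) (recB .fst t1 t2 t3) (.node (recB .fst t1 t2 t3).enc v) r
          ((j + 1) * U P.w (c + 18)) := by
    intro j
    induction j with
    | zero =>
      rintro ⟨n, x⟩ v h1 h2 h3
      obtain rfl : n = 0 := by simpa using h1
      obtain ⟨r, r1, -, r3, r4⟩ := hb P s' B _ v k1 (by omega) (by omega) (by omega) h2 (by omega)
      obtain ⟨y, z, rfl, rfl, -⟩ := h2
      rw [binRec, dif_pos rfl]
      exact ⟨r, r1, by have := r3 rfl; omega, (ev_rec_base (Ev.fst _ _) r4).le (by omega)⟩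
    | succ j ih =>
      rintro ⟨n, x⟩ v h1 h2 h3
      rw [mul_add, mul_one] at h3 ⊢
      rw [add_mul, one_mul]
      by_cases hn : n = 0
      · obtain ⟨r, r1, r2, r3⟩ := ih (n, x) v (by rw [hn]; positivity) h2 (by omega)
        exact ⟨r, r1, by omega, r3.le (by omega)⟩
      obtain ⟨q, q1, -, q3, q4⟩ := hd P s' B _ v k1 (by omega) (by omega) (by omega) h2 (by omega)
      have q3 := q3 rfl
      obtain ⟨r, r1, r2, r3⟩ := ih _ q (by dsimp only at h1 ⊢; rw [pow_succ] at h1; omega) q1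
        (by omega)
      obtain ⟨z, z1, -, z3, z4⟩ := hu P s' B ((n, x), _) (.node v r) k1 (by omega) (by omega)
        (by omega) ⟨v, r, rfl, h2, r1⟩ (by rw [V.mx_node]; omega)
      have z3 := z3 rfl
      rw [V.mx_node] at z3
      obtain ⟨y, y', rfl, rfl, -⟩ := h2
      rw [binRec, dif_neg hn]
      exact ⟨z, z1, by omega,
        (ev_rec_step (Ev.fst _ _) (by simpa using hn) q4 r3 z4).le (by omega)⟩
  have k7 : a.1 < 2 ^ s := by
    obtain ⟨y, y', rfl, rfl, -⟩ := k5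
    exact (le_max_left _ _).trans_lt k6
  have k8 := lt_grow2 c (k1.trans k2) k6
  rw [hs] at k8
  obtain ⟨r, r1, r2, r3⟩ := key s a v k7 k5 k8
  have e7 : (s + 1) * U P.w (c + 18) ≤ (P.w + 1) * U P.w (c + 18) :=
    Nat.mul_le_mul_right _ (by omega)
  exact ⟨r, r1, lt_up (r2.trans_lt k8) (by rw [add_mul, add_mul]; omega), fun h => by simp at h,
    (ev_recT r3).le (by omega)⟩

theorem size_eq_binRec (n : ℕ) :
    binRec (fun _ : Unit => 0) (fun _ x => x) (fun _ _ y => y + 1) n () = n.size := by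
  induction n using Nat.strong_induction_on with
  | _ n ih =>
    rw [binRec]
    split_ifs with h
    · rw [h, Nat.size_zero]
    · rw [ih _ (by omega)]
      conv_rhs => rw [← Nat.bit_testBit_zero_shiftRight_one n]
      rw [Nat.size_bit (by rwa [Nat.bit_testBit_zero_shiftRight_one]), Nat.shiftRight_one]

@[fun_prop] theorem Pu.size {f : α → ℕ} (hf : Pu σ f) : Pu σ fun a => (f a).size :=
  (((Pu.binRec' (Pu.const 0) Pu.snd' (Pu.snd'.add_const 1)).comp
    (hf.ar.pair (Pu.unit fun _ => ()))).of_eq fun _ => size_eq_binRec _).clamp hf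
      fun _ => Nat.size_le.2 Nat.lt_two_pow_self

/-! ### tries -/

/-- tries over values -/
inductive Tr : Type
  | cst (d : V)
  | br (x : V) (l r : Tr)

namespace Tr

def enc : Tr → V
  | cst d => .node d (.leaf 0)
  | br x l r => .node x (.node l.enc r.enc)

def val : Tr → V
  | cst d => d
  | br x _ _ => x

def ch : Tr → Tr × Tr
  | cst d => (cst d, cst d)
  | br _ l r => (l, r)

def dn (n : ℕ) (t : Tr) : Tr := if n % 2 = 0 then t.ch.1 else t.ch.2

def get (t : Tr) (i : ℕ) : V := binRec val dn (fun _ _ y => y) i t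

def set (t : Tr) (i : ℕ) (x : V) : Tr :=
  binRec (fun p : Tr × V => br p.2 p.1.ch.1 p.1.ch.2) (fun n p => (dn n p.1, p.2))
    (fun n p y => if n % 2 = 0 then br p.1.val y p.1.ch.2 else br p.1.val p.1.ch.1 y) i (t, x)

theorem get_eq (t : Tr) (i : ℕ) : t.get i = if i = 0 then t.val else (dn i t).get (i / 2) := by
  rw [get, binRec]; rfl

theorem set_eq (t : Tr) (i : ℕ) (x : V) : t.set i x = if i = 0 then br x t.ch.1 t.ch.2 else
    if i % 2 = 0 then br t.val ((dn i t).set (i / 2) x) t.ch.2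
    else br t.val t.ch.1 ((dn i t).set (i / 2) x) := by
  rw [set, binRec]; rfl

theorem get_cst (d : V) (i : ℕ) : (cst d).get i = d := by
  induction i using Nat.strong_induction_on with
  | _ i ih =>
    rw [get_eq]
    split_ifs with h
    · rfl
    · rw [show dn i (cst d) = cst d from ite_self _, ih _ (by omega)]

theorem get_set (t : Tr) (i j : ℕ) (x : V) : (t.set i x).get j = if j = i then x else t.get j := by
  induction i using Nat.strong_induction_on generalizing t j with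
  | _ i ih =>
    rw [set_eq, get_eq, get_eq t]
    by_cases hi : i = 0
    · subst hi
      by_cases hj : j = 0 <;> simp [hj, val, dn, ch]
    have := fun j => ih (i / 2) (by omega) (dn i t) j
    by_cases hj : j = 0
    · rw [if_neg hi, if_pos hj, if_pos hj, if_neg (show ¬j = i by omega)]
      split_ifs <;> rfl
    rw [if_neg hi, if_neg hj, if_neg hj]
    by_cases h1 : i % 2 = 0 <;> by_cases h2 : j % 2 = 0 <;>
      simp only [h1, h2, dn, ch, if_true, if_false] at this ⊢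
    · rw [this]; exact if_congr (by omega) rfl rfl
    · rw [if_neg (by omega)]
    · rw [if_neg (by omega)]
    · rw [this]; exact if_congr (by omega) rfl rfl

theorem mx_val (t : Tr) : t.val.mx ≤ t.enc.mx := by cases t <;> exact le_max_left _ _

theorem mx_ch (t : Tr) : t.ch.1.enc.mx ≤ t.enc.mx ∧ t.ch.2.enc.mx ≤ t.enc.mx := by
  cases t <;> simp [ch, enc]

theorem mx_dn (n : ℕ) (t : Tr) : (dn n t).enc.mx ≤ t.enc.mx := by
  unfold dn; split_ifs; exacts [t.mx_ch.1, t.mx_ch.2]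

theorem mx_get (t : Tr) (i : ℕ) : (t.get i).mx ≤ t.enc.mx := by
  induction i using Nat.strong_induction_on generalizing t with
  | _ i ih =>
    rw [get_eq]
    split_ifs with h
    exacts [t.mx_val, (ih _ (by omega) _).trans (mx_dn _ _)]

theorem mx_set (t : Tr) (i : ℕ) (x : V) : (t.set i x).enc.mx ≤ max t.enc.mx x.mx := by
  induction i using Nat.strong_induction_on generalizing t with
  | _ i ih =>
    have h1 := t.mx_ch
    have h2 := t.mx_val
    have h3 := mx_dn i t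
    rw [set_eq]
    split_ifs with h
    · simp only [enc, V.mx_node]; omega
    all_goals
      have := ih (i / 2) (by omega) (dn i t)
      simp only [enc, V.mx_node]; omega

instance : Rp Tr := Rp.via enc

theorem pu_val : Pu σ val :=
  Pu.prim .fst 0 1 fun _ _ _ t v _ _ h _ => by
    obtain rfl : v = t.enc := h
    exact ⟨_, rfl, t.mx_val.trans (Nat.le_succ _), by cases t <;> exact Ev.fst _ _⟩

theorem pu_ch : Pu σ ch :=
  Pu.prim (.comp (.cond .snd (.pair .id .id)) (.pair .snd .id)) 0 8 fun _ _ _ t v _ _ h _ => by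
    obtain rfl : v = t.enc := h
    refine ⟨.node t.ch.1.enc t.ch.2.enc, ⟨_, _, rfl, rfl, rfl⟩,
      (max_le t.mx_ch.1 t.mx_ch.2).trans (Nat.le_add_right _ _), ?_⟩
    cases t with
    | cst d => exact ((Ev.snd _ _).pair (Ev.id _)).comp (Ev.cond_zero ((Ev.id _).pair (Ev.id _)))
    | br x l r =>
      exact (((Ev.snd _ _).pair (Ev.id _)).comp (Ev.cond_ne (by simp) (Ev.snd _ _))).le (by omega)

theorem pu_br' : Pu σ fun p : V × Tr × Tr => br p.1 p.2.1 p.2.2 :=
  Pu.of_rp fun _ _ _ _ ⟨_, _, e, h1, _, _, e', h2, h3⟩ => by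
    rw [e, e', h1, h2, h3]; rfl

theorem pu_br {x : α → V} {l r : α → Tr} (hx : Pu σ x) (hl : Pu σ l) (hr : Pu σ r) :
    Pu σ fun a => br (x a) (l a) (r a) := pu_br'.comp (hx.pair (hl.pair hr))

theorem pu_dn : Pu σ fun p : ℕ × Tr => dn p.1 p.2 :=
  (Pu.fst'.mod (Pu.const 2)).eq_zero.ite (pu_ch.comp Pu.snd').fst (pu_ch.comp Pu.snd').snd

theorem pu_get : Pu1 get :=
  Pu1.of_ar ((Pu.binRec' pu_val pu_dn Pu.snd').comp Pu.id.swap) 0 fun _ _ t i x r h1 h2 => by
    rw [show x = t.enc from h1, show r = t.get i from h2]; exact t.mx_get i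

theorem pu_set : Pu1 fun (p : Tr × V) (i : ℕ) => p.1.set i p.2 :=
  Pu1.of_ar ((Pu.binRec' (pu_br Pu.snd' (pu_ch.comp Pu.fst').fst (pu_ch.comp Pu.fst').snd)
    ((pu_dn.comp (Pu.fst'.pair Pu.snd'.fst)).pair Pu.snd'.snd)
    ((Pu.fst'.fst.mod (Pu.const 2)).eq_zero.ite
      (pu_br (pu_val.comp Pu.fst'.snd.fst) Pu.snd' (pu_ch.comp Pu.fst'.snd.fst).snd)
      (pu_br (pu_val.comp Pu.fst'.snd.fst) (pu_ch.comp Pu.fst'.snd.fst).fst Pu.snd'))).comp
    Pu.id.swap) 0 fun _ _ p i x r ⟨_, _, e, h0, h1⟩ h2 => by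
      rw [e, h0, h1, show r = (p.1.set i p.2).enc from h2]; exact p.1.mx_set i p.2

end Tr

/-! ### arrays -/

instance : Rp (Arr α) where
  rp P B a v := ∃ t : Tr, v = t.enc ∧ ∀ i, rp P B (a.get i) (t.get i)
  anti := fun ⟨t, e, h⟩ k => ⟨t, e, fun i => Rp.anti (h i) k⟩

@[fun_prop] theorem Pu.arr_cst {x : α → β} (hx : Pu σ x) : Pu σ fun a => Arr.cst (x a) :=
  Pu.comp (g := Arr.cst) (Pu.prim (.pair .id (.const (.leaf 0))) 0 3 fun _ _ _ _ v _ _ h _ =>
    ⟨(Tr.cst v).enc, ⟨_, rfl, fun i => by rw [Tr.get_cst]; exact h⟩, by simp [Tr.enc],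
      (Ev.id _).pair (Ev.const _ _)⟩) hx

@[fun_prop] theorem Pu.arr_get {x : α → Arr β} {i : α → ℕ} (hx : Pu σ x) (hi : Pu false i) :
    Pu σ fun a => (x a).get (i a) := by
  refine Pu1.app (f := Arr.get) ?_ hx hi
  obtain ⟨t, d, c, h⟩ := Tr.pu_get
  refine ⟨t, d, c, fun P s B a i x y h1 h2 h3 h4 ⟨u, e, h5⟩ h6 h7 h8 => ?_⟩
  obtain ⟨r, r1, r2⟩ := h P s B u i x y h1 h2 h3 h4 e h6 h7 h8
  exact ⟨r, by rw [show r = u.get i from r1]; exact h5 i, r2⟩

@[fun_prop] theorem Pu.arr_set {x : α → Arr β} {i : α → ℕ} {y : α → β} (hx : Pu σ x)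
    (hi : Pu false i) (hy : Pu σ y) : Pu σ fun a => (x a).set (i a) (y a) := by
  refine Pu1.app (f := fun (p : Arr β × β) i => p.1.set i p.2) ?_ (hx.pair hy) hi
  obtain ⟨t, d, c, h⟩ := Tr.pu_set
  refine ⟨t, d, c, fun P s B a i x y h1 h2 h3 h4 ⟨x1, x2, e, ⟨u, e', h5⟩, h9⟩ h6 h7 h8 => ?_⟩
  obtain ⟨r, r1, r2⟩ := h P s B (u, x2) i x y h1 h2 h3 h4 ⟨x1, x2, e, e', rfl⟩ h6 h7 h8
  refine ⟨r, ⟨_, r1, fun j => ?_⟩, r2⟩
  rw [Tr.get_set, Arr.get_set]
  split_ifs
  exacts [h9, h5 j]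

/-! ### samples -/

theorem tkb_succ (n : ℕ) (τ : List Bool) : tkb (n + 1) τ = τ.headD false :: tkb n τ.tail := by
  cases τ <;> simp [tkb, List.replicate_succ]

theorem impl_smp (G : ℕ → List Bool → Prop) : Impl fun n : ℕ => smp n (G n) := by
  obtain ⟨t2, d2, c2, hd2, h2⟩ : Pu true fun p : ℕ × List Bool => (p.1 - 1, p.2.tail) :=
    (Pu.fst'.sub (Pu.const 1)).pair Pu.snd'.tail
  obtain ⟨t3, d3, c3, hd3, h3⟩ : Pu true fun p : (ℕ × List Bool) × List Bool × List Bool =>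
      (p.1.2.headD false :: p.2.1, p.2.2) :=
    ((Pu.fst'.snd.headD (Pu.const false)).cons Pu.snd'.fst).pair Pu.snd'.snd
  have rpl : ∀ {P : Par} {B : ℕ} {l : List Bool} {v : V}, rp P B l v → v = tp l := by
    intro P B l
    induction l with
    | nil => exact fun h => rp_nil.1 h
    | cons a l ih =>
      intro v h
      obtain ⟨x, y, rfl, h1, h2⟩ := rp_cons.1 h
      rw [show x = .leaf a.toNat from h1, ih h2]; rfl
  refine ⟨recT .fst (.pair (.const (.leaf 0)) .snd) t2 t3, d2 + d3, c2 + c3 + 18,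
    fun P B M n v τ k1 k2 k3 k4 k5 _ _ k8 => ?_⟩
  obtain rfl : v = .leaf n := k4
  rw [add_mul] at k2
  have e1 := U_add3 P.w c2 c3 18
  have k5 : n ≤ M := k5
  have hM : M + 1 < 2 ^ P.m := by omega
  have key : ∀ (n : ℕ) (τ : List Bool), n ≤ M → Ev (2 ^ P.w)
      (recB .fst (.pair (.const (.leaf 0)) .snd) t2 t3)
      (.node (recB .fst (.pair (.const (.leaf 0)) .snd) t2 t3).enc (.node (.leaf n) (tp τ)))
      (.node (tp (tkb n τ)) (tp (τ.drop n))) (P.K * (n + 1)) := by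
    intro n
    induction n with
    | zero =>
      intro τ _
      rw [List.drop_zero, show tp (tkb 0 τ) = .leaf 0 by simp [tkb, tp]]
      exact (ev_rec_base (Ev.fst _ _) ((Ev.const _ _).pair (Ev.snd _ _))).le (by omega)
    | succ n ih =>
      intro τ hn
      have m1 := mx_tp τ
      have m2 := mx_tp (tkb n τ.tail)
      have m3 := mx_tp (τ.tail.drop n)
      obtain ⟨q, ⟨_, _, rfl, rfl, q1⟩, -, -, q4⟩ := h2 P P.m B (n + 1, τ) _ k1 le_rfl (by omega)
        (by omega) ⟨_, _, rfl, rfl, rp_tp τ⟩ (by simp only [V.mx_node, V.mx_leaf]; omega)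
      rw [rpl q1] at q4
      obtain ⟨z, ⟨_, _, rfl, z1, z2⟩, -, -, z4⟩ := h3 P P.m B
        ((n + 1, τ), tkb n τ.tail, τ.tail.drop n) _ k1 le_rfl (by omega) (by omega)
        ⟨_, _, rfl, ⟨_, _, rfl, rfl, rp_tp τ⟩, _, _, rfl, rp_tp _, rp_tp _⟩
        (by simp only [V.mx_node, V.mx_leaf]; omega)
      rw [rpl z1, rpl z2] at z4
      rw [tkb_succ, ← List.drop_tail, mul_add]
      exact (ev_rec_step (Ev.fst _ _) (by simp) q4 (ih τ.tail (by omega)) z4).le (by omega)
  refine ⟨tp (tkb n τ), rp_tp _, (mx_tp _).trans (by omega), (ev_recT (key n τ k5)).le ?_⟩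
  show P.K * (n + 1) + 4 ≤ P.K * (n + 1 + 0) + _
  rw [add_zero]; omega

@[fun_prop] theorem Impl.smp {n : α → ℕ} (G : α → List Bool → Prop) (h : Pu true n) :
    Impl fun a => smp (n a) (G a) :=
  ((impl_smp fun _ _ => True).comp h).of_run fun _ _ => ⟨rfl, rfl, le_rfl, le_rfl⟩

end Crest.Agent.N325
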