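import Crest.Agent.N325.M0.RulesR

/-!
# N325 / M0: numbers and logic are straight-line (helper68)
-/

set_option autoImplicit false

namespace Crest.Agent.N325

variable {α β γ δ : Type} [Rp α] [Rp β] [Rp γ] [Rp δ] {σ : Bool}

/-! ### natural numbers -/

section nat
variable {f g : α → ℕ}

theorem Pu.op (o : BOp) (hf : Pu false f) (hg : Pu false g) : Pu false fun a => o.ap (f a) (g a) := by
  refine Pu.comp (g := fun p : ℕ × ℕ => o.ap p.1 p.2) ⟨.op o, 2, 1, one_le_two,
    fun P s B p v h1 h2 h3 _ ⟨x, y, e, hx, hy⟩ h6 => ?_⟩ (hf.pair hg)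
  obtain rfl : x = .leaf p.1 := hx
  obtain rfl : y = .leaf p.2 := hy
  subst e
  simp only [V.mx_node, V.mx_leaf, max_lt_iff] at h6
  have h2s : 2 ≤ 2 ^ s := Nat.le_self_pow (by omega) 2
  have : o.ap p.1 p.2 < 2 ^ (2 * s) := by
    rw [two_mul, pow_add]
    have := Nat.sub_le p.1 p.2
    have := Nat.div_le_self p.1 p.2
    have := Nat.mod_le p.1 p.2
    have := Nat.mul_lt_mul'' h6.1 h6.2
    cases o <;> simp only [BOp.ap] <;> nlinarith [h6.1, h6.2]
  exact ⟨_, rfl, this, fun h => by simp at h, (Ev.op o _ _ (lt_up this h3)).le (le_U _ _)⟩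

/-- an `Ar` function of two numbers that is bounded through the first one -/
theorem Pu.op1 (F : ℕ → β → ℕ) (k : ℕ) (hF : Pu false fun p : ℕ × β => F p.1 p.2)
    (hk : ∀ a b, F a b ≤ a + k) {e : α → β} (hf : Pu σ f) (he : Pu false e) :
    Pu σ fun a => F (f a) (e a) :=
  (Pu1.of_ar hF k fun _ _ b e x r h1 h2 => by
    rw [show x = .leaf b from h1, show r = .leaf (F b e) from h2]; exact hk b e).app hf he

/-- a number bounded by a `Sel` number is `Sel` -/
theorem Pu.clamp (hf : Pu false f) (hg : Pu σ g) (h : ∀ a, f a ≤ g a) : Pu σ f :=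
  (Pu1.of_ar (f := fun (x : ℕ) (y : ℕ) => x - (x - y))
    (Pu.op .sub Pu.fst' (Pu.op .sub Pu.fst' Pu.snd')) 0 fun _ _ b e x r h1 h2 => by
      rw [show x = .leaf b from h1, show r = .leaf (b - (b - e)) from h2]
      exact Nat.sub_le _ _).app hg hf |>.of_eq fun a => by have := h a; omega

@[fun_prop] theorem Pu.add (hf : Pu false f) (hg : Pu false g) : Pu false fun a => f a + g a :=
  Pu.op .add hf hg
@[fun_prop] theorem Pu.mul (hf : Pu false f) (hg : Pu false g) : Pu false fun a => f a * g a :=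
  Pu.op .mul hf hg
@[fun_prop] theorem Pu.add_const (c : ℕ) (hf : Pu σ f) : Pu σ fun a => f a + c :=
  Pu.op1 (fun x (_ : Unit) => x + c) c (Pu.fst'.add (Pu.const c)) (fun _ _ => le_rfl) hf
    (Pu.unit fun _ => ())
@[fun_prop] theorem Pu.const_add (c : ℕ) (hf : Pu σ f) : Pu σ fun a => c + f a :=
  (hf.add_const c).of_eq fun _ => add_comm _ _
@[fun_prop] theorem Pu.succ (hf : Pu σ f) : Pu σ fun a => Nat.succ (f a) := hf.add_const 1
@[fun_prop] theorem Pu.sub (hf : Pu σ f) (hg : Pu false g) : Pu σ fun a => f a - g a :=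
  Pu.op1 (· - ·) 0 (Pu.op .sub Pu.fst' Pu.snd') Nat.sub_le hf hg
@[fun_prop] theorem Pu.pred (hf : Pu σ f) : Pu σ fun a => Nat.pred (f a) := hf.sub (Pu.const 1)
@[fun_prop] theorem Pu.div (hf : Pu σ f) (hg : Pu false g) : Pu σ fun a => f a / g a :=
  Pu.op1 (· / ·) 0 (Pu.op .div Pu.fst' Pu.snd') Nat.div_le_self hf hg
@[fun_prop] theorem Pu.mod (hf : Pu σ f) (hg : Pu false g) : Pu σ fun a => f a % g a :=
  Pu.op1 (· % ·) 0 (Pu.op .mod Pu.fst' Pu.snd') Nat.mod_le hf hg
@[fun_prop] theorem Pu.mod_succ (hf : Pu false f) (hg : Pu σ g) : Pu σ fun a => f a % (g a + 1) :=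
  (hf.mod (hg.ar.add_const 1)).clamp hg fun _ => Nat.le_of_lt_succ (Nat.mod_lt _ (Nat.succ_pos _))
@[fun_prop] theorem Pu.min_r (hf : Pu false f) (hg : Pu σ g) : Pu σ fun a => min (f a) (g a) :=
  ((hg.ar.sub (hg.ar.sub hf)).of_eq fun _ => by omega).clamp hg fun _ => min_le_right _ _
@[fun_prop] theorem Pu.min_l (hf : Pu σ f) (hg : Pu false g) : Pu σ fun a => min (f a) (g a) :=
  (hg.min_r hf).of_eq fun _ => min_comm _ _
@[fun_prop] theorem Pu.pow_const (k : ℕ) (hf : Pu false f) : Pu false fun a => f a ^ k := by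
  induction k with
  | zero => exact (Pu.const 1).of_eq fun _ => (pow_zero _).symm
  | succ k ih => exact (ih.mul hf).of_eq fun _ => (pow_succ _ _).symm

theorem Pu.eq_zero (hf : Pu false f) : Pu false fun a => f a = 0 :=
  Pu.comp (g := fun n : ℕ => n = 0) (Pu.prim (.comp (.cond (.const (.leaf 0)) (.const (.leaf 1)))
    (.pair .id .id)) 0 6 fun _ _ _ n v _ _ h _ => by
      obtain rfl : v = .leaf n := h
      refine ⟨_, rfl, by rw [V.mx_leaf]; split_ifs <;> omega, ?_⟩
      by_cases e : n = 0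
      · rw [if_pos e, e]
        exact ((Ev.id _).pair (Ev.id _)).comp (Ev.cond_zero (Ev.const _ _))
      · rw [if_neg e]
        exact ((Ev.id _).pair (Ev.id _)).comp (Ev.cond_ne (by simpa using e) (Ev.const _ _))) hf

end nat

/-! ### logic -/

section logic
variable {p q : α → Prop} {b c : α → Bool} {f g : α → ℕ}

open Classical in
@[fun_prop] theorem Pu.not (hp : Pu false p) : Pu σ fun a => ¬p a :=
  (hp.ite (Pu.const False) (Pu.const True)).of_iff fun a => by split_ifs with h <;> simp [h]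
open Classical in
@[fun_prop] theorem Pu.and (hp : Pu false p) (hq : Pu false q) : Pu σ fun a => p a ∧ q a :=
  (hp.ite hq.prop (Pu.const False)).of_iff fun a => by split_ifs with h <;> simp [h]
open Classical in
@[fun_prop] theorem Pu.or (hp : Pu false p) (hq : Pu false q) : Pu σ fun a => p a ∨ q a :=
  (hp.ite (Pu.const True) hq.prop).of_iff fun a => by split_ifs with h <;> simp [h]
theorem Pu.imp (hp : Pu false p) (hq : Pu false q) : Pu σ fun a => p a → q a :=
  (hp.not.or hq).of_iff fun _ => imp_iff_not_or.symm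
@[fun_prop] theorem Pu.iff (hp : Pu false p) (hq : Pu false q) : Pu σ fun a => (p a ↔ q a) :=
  ((hp.imp hq).and (hq.imp hp)).of_iff fun _ => iff_iff_implies_and_implies.symm

@[fun_prop] theorem Pu.le (hf : Pu false f) (hg : Pu false g) : Pu σ fun a => f a ≤ g a :=
  (hf.sub hg).eq_zero.prop.of_iff fun _ => Nat.sub_eq_zero_iff_le
@[fun_prop] theorem Pu.lt (hf : Pu false f) (hg : Pu false g) : Pu σ fun a => f a < g a :=
  (hg.le hf).not.of_iff fun _ => not_le
theorem Pu.ge (hf : Pu false f) (hg : Pu false g) : Pu σ fun a => f a ≥ g a := hg.le hf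
theorem Pu.gt (hf : Pu false f) (hg : Pu false g) : Pu σ fun a => f a > g a := hg.lt hf
@[fun_prop] theorem Pu.max (hf : Pu σ f) (hg : Pu σ g) : Pu σ fun a => max (f a) (g a) :=
  ((hf.ar.le hg.ar).ite hg hf).of_eq fun _ => (max_def _ _).symm
@[fun_prop] theorem Pu.dvd (hf : Pu false f) (hg : Pu false g) : Pu σ fun a => f a ∣ g a :=
  (hg.mod hf).eq_zero.prop.of_iff fun _ => (Nat.dvd_iff_mod_eq_zero ..).symm

@[fun_prop] theorem Pu.decide [DecidablePred p] (hp : Pu false p) : Pu σ fun a => decide (p a) :=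
  ((open Classical in Pu.of_rp (σ := σ) (f := fun x : Prop => Decidable.decide x)
    fun _ _ x _ h => by
      by_cases e : x <;> simpa [e, rp] using h).comp hp.prop).of_eq fun _ => by simp
@[fun_prop] theorem Pu.eq_true (hb : Pu false b) : Pu σ fun a => b a = true :=
  (Pu.of_rp (σ := σ) (f := fun x : Bool => x = true) fun _ _ x _ h => by
    rw [show _ = V.leaf x.toNat from h]
    cases x <;> simp [rp]).comp hb.bool
@[fun_prop] theorem Pu.toNat (hb : Pu false b) : Pu σ fun a => (b a).toNat :=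
  (Pu.of_rp (σ := σ) (f := Bool.toNat) fun _ _ _ _ h => h).comp hb.bool
@[fun_prop] theorem Pu.bnot (hb : Pu false b) : Pu σ fun a => !b a :=
  hb.eq_true.not.decide.of_eq fun a => by cases b a <;> rfl
@[fun_prop] theorem Pu.band (hb : Pu false b) (hc : Pu false c) : Pu σ fun a => b a && c a :=
  (hb.eq_true.and hc.eq_true).decide.of_eq fun a => by cases b a <;> cases c a <;> rfl
@[fun_prop] theorem Pu.bor (hb : Pu false b) (hc : Pu false c) : Pu σ fun a => b a || c a :=
  (hb.eq_true.or hc.eq_true).decide.of_eq fun a => by cases b a <;> cases c a <;> rfl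
@[fun_prop] theorem Pu.bxor (hb : Pu false b) (hc : Pu false c) : Pu σ fun a => xor (b a) (c a) :=
  (hb.eq_true.iff hc.eq_true).not.decide.of_eq fun a => by cases b a <;> cases c a <;> rfl
@[fun_prop] theorem Pu.cond {x y : α → β} (hb : Pu false b) (hx : Pu σ x) (hy : Pu σ y) :
    Pu σ fun a => cond (b a) (x a) (y a) :=
  (hb.eq_true.ite hx hy).of_eq fun a => by cases b a <;> rfl
@[fun_prop] theorem Impl.cond {x y : α → R β} (hb : Pu false b) (hx : Impl x) (hy : Impl y) :
    Impl fun a => cond (b a) (x a) (y a) :=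
  (Impl.ite hb.eq_true hx hy).of_eq fun a => by cases b a <;> rfl
@[fun_prop] theorem Pu.bool_casesOn {x y : α → β} (hb : Pu false b) (hx : Pu σ x) (hy : Pu σ y) :
    Pu σ fun a => Bool.casesOn (motive := fun _ => β) (b a) (x a) (y a) :=
  (hb.cond hy hx).of_eq fun a => by cases b a <;> rfl
@[fun_prop] theorem Impl.bool_casesOn {x y : α → R β} (hb : Pu false b) (hx : Impl x)
    (hy : Impl y) : Impl fun a => Bool.casesOn (motive := fun _ => R β) (b a) (x a) (y a) :=
  (Impl.cond hb hy hx).of_eq fun a => by cases b a <;> rfl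
@[fun_prop] theorem Pu.nat_casesOn {x : α → β} {y : α → ℕ → β} (hf : Pu σ f) (hx : Pu σ x)
    (hy : Pu σ fun p : α × ℕ => y p.1 p.2) :
    Pu σ fun a => Nat.casesOn (motive := fun _ => β) (f a) (x a) (y a) :=
  (hf.ar.eq_zero.ite hx (hy.comp (Pu.id.pair (hf.sub (Pu.const 1))))).of_eq fun a => by
    cases f a <;> simp
@[fun_prop] theorem Impl.nat_casesOn {x : α → R β} {y : α → ℕ → R β} (hf : Pu true f) (hx : Impl x)
    (hy : Impl fun p : α × ℕ => y p.1 p.2) :
    Impl fun a => Nat.casesOn (motive := fun _ => R β) (f a) (x a) (y a) :=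
  (Impl.ite hf.ar.eq_zero hx (hy.comp (Pu.id.pair (hf.sub (Pu.const 1))))).of_eq fun a => by
    cases f a <;> simp

end logic

/-! ### integers -/

section int
variable {x y : α → ℤ} {f : α → ℕ}

theorem Pu.int_out : Pu σ fun z : ℤ => (z.toNat, (-z).toNat) :=
  Pu.of_rp fun _ _ _ _ h => ⟨_, _, h, rfl, rfl⟩
theorem Pu.int_in : Pu σ fun p : {p : ℕ × ℕ // p.1 = 0 ∨ p.2 = 0} => (p.1.1 : ℤ) - p.1.2 :=
  Pu.of_rp fun _ _ p _ ⟨u, v, e, hu, hv⟩ => by
    rw [e, show u = .leaf p.1.1 from hu, show v = .leaf p.1.2 from hv]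
    have := p.2
    show _ = V.node (.leaf _) (.leaf _)
    congr 2 <;> omega
@[fun_prop] theorem Pu.int_toNat (hx : Pu σ x) : Pu σ fun a => (x a).toNat :=
  (Pu.int_out.comp hx).fst
theorem Pu.int_neg_toNat (hx : Pu σ x) : Pu σ fun a => (-x a).toNat := (Pu.int_out.comp hx).snd
theorem Pu.int_sub_nat {g : α → ℕ} (hf : Pu σ f) (hg : Pu σ g) : Pu σ fun a => (f a : ℤ) - g a :=
  (Pu.int_in.comp (((hf.sub hg.ar).pair (hg.sub hf.ar)).subtype_mk fun a => by
    dsimp only; omega)).of_eq fun a => by dsimp only; omega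
@[fun_prop] theorem Pu.natCast (hf : Pu σ f) : Pu σ fun a => (f a : ℤ) :=
  (hf.int_sub_nat (Pu.const 0)).of_eq fun _ => by simp
@[fun_prop] theorem Pu.int_ofNat (hf : Pu σ f) : Pu σ fun a => Int.ofNat (f a) := hf.natCast
@[fun_prop] theorem Pu.int_neg (hx : Pu σ x) : Pu σ fun a => -x a :=
  (hx.int_neg_toNat.int_sub_nat hx.int_toNat).of_eq fun _ => by omega
@[fun_prop] theorem Pu.natAbs (hx : Pu σ x) : Pu σ fun a => (x a).natAbs :=
  (hx.int_toNat.max hx.int_neg_toNat).of_eq fun _ => by omega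
@[fun_prop] theorem Pu.abs (hx : Pu σ x) : Pu σ fun a => |x a| :=
  hx.natAbs.natCast.of_eq fun _ => Int.natCast_natAbs _
/-- an integer bounded by a `Sel` number is `Sel` -/
theorem Pu.clampZ (hx : Pu false x) (hf : Pu σ f) (h : ∀ a, (x a).natAbs ≤ f a) : Pu σ x :=
  ((hx.int_toNat.clamp hf fun a => by have := h a; omega).int_sub_nat
    (hx.int_neg_toNat.clamp hf fun a => by have := h a; omega)).of_eq fun _ => by omega
@[fun_prop] theorem Pu.int_add (hx : Pu false x) (hy : Pu false y) : Pu false fun a => x a + y a :=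
  ((hx.int_toNat.add hy.int_toNat).int_sub_nat (hx.int_neg_toNat.add hy.int_neg_toNat)).of_eq
    fun _ => by omega
@[fun_prop] theorem Pu.int_sub (hx : Pu false x) (hy : Pu false y) : Pu false fun a => x a - y a :=
  (hx.int_add hy.int_neg).of_eq fun _ => (sub_eq_add_neg _ _).symm
@[fun_prop] theorem Pu.int_add_const (c : ℤ) (hx : Pu σ x) : Pu σ fun a => x a + c :=
  (hx.ar.int_add (Pu.const c)).clampZ (hx.natAbs.add_const c.natAbs) fun _ => Int.natAbs_add_le _ _
@[fun_prop] theorem Pu.int_const_add (c : ℤ) (hx : Pu σ x) : Pu σ fun a => c + x a :=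
  (hx.int_add_const c).of_eq fun _ => add_comm _ _
@[fun_prop] theorem Pu.int_sub_const (c : ℤ) (hx : Pu σ x) : Pu σ fun a => x a - c :=
  (hx.int_add_const (-c)).of_eq fun _ => (sub_eq_add_neg _ _).symm
@[fun_prop] theorem Pu.int_const_sub (c : ℤ) (hx : Pu σ x) : Pu σ fun a => c - x a :=
  (hx.int_neg.int_const_add c).of_eq fun _ => (sub_eq_add_neg _ _).symm
@[fun_prop] theorem Pu.int_mul (hx : Pu false x) (hy : Pu false y) : Pu false fun a => x a * y a :=
  (((hx.int_toNat.mul hy.int_toNat).add (hx.int_neg_toNat.mul hy.int_neg_toNat)).int_sub_nat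
    ((hx.int_toNat.mul hy.int_neg_toNat).add (hx.int_neg_toNat.mul hy.int_toNat))).of_eq fun a => by
      have h1 := Int.toNat_sub_toNat_neg (x a)
      have h2 := Int.toNat_sub_toNat_neg (y a)
      push_cast
      conv_rhs => rw [← h1, ← h2]
      ring
@[fun_prop] theorem Pu.int_le (hx : Pu false x) (hy : Pu false y) : Pu σ fun a => x a ≤ y a :=
  (hx.int_sub hy).int_toNat.eq_zero.prop.of_iff fun _ => by omega
@[fun_prop] theorem Pu.int_lt (hx : Pu false x) (hy : Pu false y) : Pu σ fun a => x a < y a :=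
  (hy.int_le hx).not.of_iff fun _ => not_le
theorem Pu.int_ge (hx : Pu false x) (hy : Pu false y) : Pu σ fun a => x a ≥ y a :=
  hy.int_le hx
theorem Pu.int_gt (hx : Pu false x) (hy : Pu false y) : Pu σ fun a => x a > y a :=
  hy.int_lt hx
@[fun_prop] theorem Pu.int_max (hx : Pu σ x) (hy : Pu σ y) : Pu σ fun a => Max.max (x a) (y a) :=
  ((hx.ar.int_le hy.ar).ite hy hx).of_eq fun _ => (max_def _ _).symm
@[fun_prop] theorem Pu.int_min (hx : Pu σ x) (hy : Pu σ y) : Pu σ fun a => Min.min (x a) (y a) :=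
  ((hx.ar.int_le hy.ar).ite hx hy).of_eq fun _ => (min_def _ _).symm
@[fun_prop] theorem Pu.int_sign (hx : Pu false x) : Pu σ fun a => (x a).sign :=
  (((Pu.const 0).int_lt hx).ite (Pu.const (1 : ℤ))
    ((hx.int_lt (Pu.const 0)).ite (Pu.const (-1)) (Pu.const 0))).of_eq fun a => by
      rcases x a with (_ | n) | n <;> simp [Int.sign]
theorem Pu.int_div_nat (hx : Pu false x) (hf : Pu false f) : Pu false fun a => x a / (f a : ℤ) :=
  (hf.eq_zero.ite (Pu.const (0 : ℤ)) (((Pu.const 0).int_le hx).ite (hx.int_toNat.div hf).natCast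
    (((hx.int_neg_toNat.sub (Pu.const 1)).div hf).add_const 1).natCast.int_neg)).of_eq fun a => by
      rcases f a with _ | n
      · simp
      · rcases x a with k | k
        · simp
        · rw [if_neg (by omega), if_neg (by simp), Int.negSucc_ediv _ (by omega)]
          simp [Int.negSucc_eq, Int.ediv]
@[fun_prop] theorem Pu.int_div (hx : Pu σ x) (hy : Pu false y) : Pu σ fun a => x a / y a :=
  ((((Pu.const 0).int_le hy).ite (hx.ar.int_div_nat hy.natAbs)
    (hx.ar.int_div_nat hy.natAbs).int_neg).of_eq fun a => by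
      split_ifs with h
      · rw [Int.natAbs_of_nonneg h]
      · rw [← Int.ediv_neg]; congr 1; omega).clampZ hx.natAbs fun _ => Int.natAbs_ediv_le_natAbs _ _
@[fun_prop] theorem Pu.int_mod (hx : Pu false x) (hy : Pu false y) : Pu false fun a => x a % y a :=
  (hx.int_sub (hy.int_mul (hx.int_div hy))).of_eq fun _ => (Int.emod_def _ _).symm

/-- the clamp for integers -/
def clampZ (e : ℤ) (b : ℕ) : ℤ := max (-(b : ℤ)) (min e b)

theorem clampZ_eq {e : ℤ} {b : ℕ} (h : e.natAbs ≤ b) : clampZ e b = e := by unfold clampZ; omega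
theorem natAbs_clampZ (e : ℤ) (b : ℕ) : (clampZ e b).natAbs ≤ b := by unfold clampZ; omega

@[fun_prop] theorem Pu.clampZ' (hx : Pu false x) (hf : Pu σ f) :
    Pu σ fun a => N325.clampZ (x a) (f a) :=
  (hf.ar.natCast.int_neg.int_max (hx.int_min hf.ar.natCast)).clampZ hf fun _ => natAbs_clampZ _ _

end int

end Crest.Agent.N325
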