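import Crest.Agent.N325.M0.Data

/-!
# N325 / M0: lists, options, sums, products, equality tests (helper68)
-/

set_option autoImplicit false

namespace Crest.Agent.N325

variable {α β γ δ : Type} [Rp α] [Rp β] [Rp γ] [Rp δ] {σ : Bool}

/-! ### lists -/

section list
variable {l : α → List β}

theorem Pu.cons' : Pu σ fun p : α × List α => p.1 :: p.2 :=
  Pu.of_rp fun _ _ _ _ h => rp_cons.2 h

theorem Pu.uncons : Pu σ fun l : {l : List α // l ≠ []} => (l.1.head l.2, l.1.tail) :=
  Pu.of_rp fun _ _ ⟨l, hl⟩ _ h => by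
    cases l with
    | nil => exact absurd rfl hl
    | cons a l => exact rp_cons.1 h

@[fun_prop] theorem Pu.cons {x : α → β} (hx : Pu σ x) (hl : Pu σ l) : Pu σ fun a => x a :: l a :=
  Pu.cons'.comp (hx.pair hl)

theorem Pu.eq_nil' : Pu σ fun l : List α => l = [] :=
  Pu.prim (.comp (.cond (.const (.leaf 0)) (.const (.leaf 1))) (.pair .id .id)) 0 6
    fun _ _ _ l v _ _ h _ => by
      refine ⟨_, rfl, by rw [V.mx_leaf]; split_ifs <;> omega, ?_⟩
      cases l with
      | nil =>
        rw [if_pos rfl, rp_nil.1 h]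
        exact ((Ev.id _).pair (Ev.id _)).comp (Ev.cond_zero (Ev.const _ _))
      | cons a l =>
        obtain ⟨x, y, rfl, -⟩ := rp_cons.1 h
        rw [if_neg (List.cons_ne_nil a l)]
        exact ((Ev.id _).pair (Ev.id _)).comp (Ev.cond_ne (by simp) (Ev.const _ _))

@[fun_prop] theorem Pu.eq_nil (hl : Pu false l) : Pu σ fun a => l a = [] :=
  (Pu.eq_nil'.comp hl).prop
@[fun_prop] theorem Pu.ne_nil (hl : Pu false l) : Pu σ fun a => l a ≠ [] := hl.eq_nil.not
@[fun_prop] theorem Pu.isEmpty (hl : Pu false l) : Pu σ fun a => (l a).isEmpty :=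
  (open Classical in hl.eq_nil.decide).of_eq fun a => by cases l a <;> simp

theorem Pu.split (hl : Pu σ l) :
    Pu σ fun a : {a // ¬l a = []} => (a.1, (l a.1).head a.2, (l a.1).tail) :=
  Pu.id.val.pair (Pu.uncons.comp ((hl.comp Pu.id.val).subtype_mk fun a => a.2))

@[fun_prop] theorem Pu.list_casesOn {n : α → γ} {c : α → β → List β → γ} (hl : Pu σ l)
    (hn : Pu σ n) (hc : Pu σ fun p : α × β × List β => c p.1 p.2.1 p.2.2) :
    Pu σ fun a => List.casesOn (motive := fun _ => γ) (l a) (n a) (c a) :=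
  Pu.by_cases hl.ar.eq_nil ((hn.comp Pu.id.val).of_eq fun a => by rw [a.2])
    ((hc.comp hl.split).of_eq fun ⟨a, h⟩ => by
      dsimp only
      generalize_proofs h1
      generalize l a = k at *
      cases k with
      | nil => exact absurd rfl h
      | cons => rfl)

@[fun_prop] theorem Impl.list_casesOn {n : α → R γ} {c : α → β → List β → R γ} (hl : Pu true l)
    (hn : Impl n) (hc : Impl fun p : α × β × List β => c p.1 p.2.1 p.2.2) :
    Impl fun a => List.casesOn (motive := fun _ => R γ) (l a) (n a) (c a) :=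
  Impl.by_cases hl.ar.eq_nil ((hn.comp Pu.id.val).of_eq fun a => by rw [a.2])
    ((hc.comp hl.split).of_eq fun ⟨a, h⟩ => by
      dsimp only
      generalize_proofs h1
      generalize l a = k at *
      cases k with
      | nil => exact absurd rfl h
      | cons => rfl)

@[fun_prop] theorem Pu.tail (hl : Pu σ l) : Pu σ fun a => (l a).tail :=
  (hl.list_casesOn Pu.nil (c := fun _ _ t => t) Pu.snd'.snd).of_eq fun a => by cases l a <;> rfl
@[fun_prop] theorem Pu.headD {d : α → β} (hl : Pu σ l) (hd : Pu σ d) :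
    Pu σ fun a => (l a).headD (d a) :=
  (hl.list_casesOn hd (c := fun _ h _ => h) Pu.snd'.fst).of_eq fun a => by cases l a <;> rfl
@[fun_prop] theorem Pu.headI [Inhabited β] [Cst β] (hl : Pu σ l) : Pu σ fun a => (l a).headI :=
  (hl.headD (Pu.const default)).of_eq fun a => by cases l a <;> rfl
@[fun_prop] theorem Pu.head! [Inhabited β] [Cst β] (hl : Pu σ l) : Pu σ fun a => (l a).head! :=
  (hl.headD (Pu.const default)).of_eq fun a => by cases l a <;> rfl

end list

/-! ### options -/

section option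
variable {o : α → Option β}

@[fun_prop] theorem Pu.toList (ho : Pu σ o) : Pu σ fun a => (o a).toList := ho
@[fun_prop] theorem Pu.none : Pu σ fun _ : α => (none : Option β) := Pu.nil
@[fun_prop] theorem Pu.some {x : α → β} (hx : Pu σ x) : Pu σ fun a => some (x a) := hx.cons Pu.nil

@[fun_prop] theorem Pu.option_casesOn {n : α → γ} {c : α → β → γ} (ho : Pu σ o) (hn : Pu σ n)
    (hc : Pu σ fun p : α × β => c p.1 p.2) :
    Pu σ fun a => Option.casesOn (motive := fun _ => γ) (o a) (n a) (c a) :=
  (ho.toList.list_casesOn hn (c := fun a x _ => c a x)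
    (hc.comp (Pu.fst'.pair Pu.snd'.fst))).of_eq fun a => by cases o a <;> rfl

@[fun_prop] theorem Impl.option_casesOn {n : α → R γ} {c : α → β → R γ} (ho : Pu true o)
    (hn : Impl n) (hc : Impl fun p : α × β => c p.1 p.2) :
    Impl fun a => Option.casesOn (motive := fun _ => R γ) (o a) (n a) (c a) :=
  (Impl.list_casesOn ho.toList hn (c := fun a x _ => c a x)
    (hc.comp (Pu.fst'.pair Pu.snd'.fst))).of_eq fun a => by cases o a <;> rfl

@[fun_prop] theorem Pu.option_elim {n : α → γ} {c : α → β → γ} (ho : Pu σ o) (hn : Pu σ n)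
    (hc : Pu σ fun p : α × β => c p.1 p.2) : Pu σ fun a => (o a).elim (n a) (c a) :=
  (ho.option_casesOn hn hc).of_eq fun a => by cases o a <;> rfl
@[fun_prop] theorem Impl.option_elim {n : α → R γ} {c : α → β → R γ} (ho : Pu true o)
    (hn : Impl n) (hc : Impl fun p : α × β => c p.1 p.2) : Impl fun a => (o a).elim (n a) (c a) :=
  (Impl.option_casesOn ho hn hc).of_eq fun a => by cases o a <;> rfl
@[fun_prop] theorem Pu.getD {d : α → β} (ho : Pu σ o) (hd : Pu σ d) :
    Pu σ fun a => (o a).getD (d a) :=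
  (ho.option_casesOn hd (c := fun _ x => x) Pu.snd').of_eq fun a => by cases o a <;> rfl
@[fun_prop] theorem Pu.option_map {c : α → β → γ} (ho : Pu σ o)
    (hc : Pu σ fun p : α × β => c p.1 p.2) : Pu σ fun a => (o a).map (c a) :=
  (ho.option_casesOn Pu.none hc.some).of_eq fun a => by cases o a <;> rfl
@[fun_prop] theorem Pu.option_bind {c : α → β → Option γ} (ho : Pu σ o)
    (hc : Pu σ fun p : α × β => c p.1 p.2) : Pu σ fun a => (o a).bind (c a) :=
  (ho.option_casesOn Pu.none hc).of_eq fun a => by cases o a <;> rfl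
@[fun_prop] theorem Pu.eq_none (ho : Pu false o) : Pu σ fun a => o a = Option.none :=
  ho.toList.eq_nil.of_iff fun a => by cases o a <;> simp
@[fun_prop] theorem Pu.ne_none (ho : Pu false o) : Pu σ fun a => o a ≠ Option.none := ho.eq_none.not
@[fun_prop] theorem Pu.isNone (ho : Pu false o) : Pu σ fun a => (o a).isNone :=
  ho.toList.isEmpty.of_eq fun a => by cases o a <;> rfl
@[fun_prop] theorem Pu.isSome (ho : Pu false o) : Pu σ fun a => (o a).isSome :=
  ho.isNone.bnot.of_eq fun a => by cases o a <;> rfl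
@[fun_prop] theorem Pu.head? {l : α → List β} (hl : Pu σ l) : Pu σ fun a => (l a).head? :=
  (hl.list_casesOn Pu.none (c := fun _ h _ => Option.some h) Pu.snd'.fst.some).of_eq fun a => by
    cases l a <;> rfl

end option

/-! ### sums and products -/

section sum
variable {x : α → β ⊕ γ}

@[fun_prop] theorem Pu.inl {y : α → β} (h : Pu σ y) : Pu σ fun a => (Sum.inl (y a) : β ⊕ γ) :=
  h.some.pair (Pu.none (β := γ))
@[fun_prop] theorem Pu.inr {y : α → γ} (h : Pu σ y) : Pu σ fun a => (Sum.inr (y a) : β ⊕ γ) :=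
  (Pu.none (β := β)).pair h.some
@[fun_prop] theorem Pu.getLeft? (h : Pu σ x) : Pu σ fun a => (x a).getLeft? :=
  Pu.fst (f := fun a => ((x a).getLeft?, (x a).getRight?)) h
@[fun_prop] theorem Pu.getRight? (h : Pu σ x) : Pu σ fun a => (x a).getRight? :=
  Pu.snd (f := fun a => ((x a).getLeft?, (x a).getRight?)) h

theorem Pu.right_of (h : Pu σ x) : Pu σ fun a : {a // (x a).getLeft? = Option.none} =>
    (a.1, (x a.1).getRight (by have := a.2; cases e : x a.1 <;> simp_all)) :=
  Pu.id.val.pair ((Pu.uncons.comp (((h.comp Pu.id.val).getRight?.toList).subtype_mk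
    fun a : {a // (x a).getLeft? = Option.none} => by
      have := a.2; cases e : x a.1 <;> simp_all)).fst.of_eq fun ⟨a, h⟩ => by
        dsimp only
        generalize_proofs h1 h2
        generalize x a = k at *
        cases k <;> simp_all)

theorem Pu.left_of (h : Pu σ x) : Pu σ fun a : {a // ¬(x a).getLeft? = Option.none} =>
    (a.1, (x a.1).getLeft (by have := a.2; cases e : x a.1 <;> simp_all)) :=
  Pu.id.val.pair ((Pu.uncons.comp (((h.comp Pu.id.val).getLeft?.toList).subtype_mk
    fun a : {a // ¬(x a).getLeft? = Option.none} => by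
      have := a.2; cases e : x a.1 <;> simp_all)).fst.of_eq fun ⟨a, h⟩ => by
        dsimp only
        generalize_proofs h1 h2
        generalize x a = k at *
        cases k <;> simp_all)

@[fun_prop] theorem Pu.sum_casesOn {f : α → β → δ} {g : α → γ → δ} (hx : Pu σ x)
    (hf : Pu σ fun p : α × β => f p.1 p.2) (hg : Pu σ fun p : α × γ => g p.1 p.2) :
    Pu σ fun a => Sum.casesOn (motive := fun _ => δ) (x a) (f a) (g a) :=
  Pu.by_cases hx.ar.getLeft?.eq_none
    ((hg.comp hx.right_of).of_eq fun ⟨a, h⟩ => by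
      dsimp only
      generalize_proofs h1
      generalize x a = k at *
      cases k <;> simp_all)
    ((hf.comp hx.left_of).of_eq fun ⟨a, h⟩ => by
      dsimp only
      generalize_proofs h1
      generalize x a = k at *
      cases k <;> simp_all)

@[fun_prop] theorem Impl.sum_casesOn {f : α → β → R δ} {g : α → γ → R δ} (hx : Pu true x)
    (hf : Impl fun p : α × β => f p.1 p.2) (hg : Impl fun p : α × γ => g p.1 p.2) :
    Impl fun a => Sum.casesOn (motive := fun _ => R δ) (x a) (f a) (g a) :=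
  Impl.by_cases hx.ar.getLeft?.eq_none
    ((hg.comp hx.right_of).of_eq fun ⟨a, h⟩ => by
      dsimp only
      generalize_proofs h1
      generalize x a = k at *
      cases k <;> simp_all)
    ((hf.comp hx.left_of).of_eq fun ⟨a, h⟩ => by
      dsimp only
      generalize_proofs h1
      generalize x a = k at *
      cases k <;> simp_all)

theorem Pu.prod_casesOn {y : α → β × γ} {f : α → β → γ → δ} (hy : Pu σ y)
    (hf : Pu σ fun p : α × β × γ => f p.1 p.2.1 p.2.2) :
    Pu σ fun a => Prod.casesOn (motive := fun _ => δ) (y a) (f a) := hf.comp (Pu.id.pair hy)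
theorem Impl.prod_casesOn {y : α → β × γ} {f : α → β → γ → R δ} (hy : Pu true y)
    (hf : Impl fun p : α × β × γ => f p.1 p.2.1 p.2.2) :
    Impl fun a => Prod.casesOn (motive := fun _ => R δ) (y a) (f a) := hf.comp (Pu.id.pair hy)
@[fun_prop] theorem Pu.swap {y : α → β × γ} (hy : Pu σ y) : Pu σ fun a => (y a).swap :=
  hy.snd.pair hy.fst

end sum

/-! ### the same eliminators after unfolding `casesOn` -/

section recs

@[fun_prop] theorem Pu.list_rec {l : α → List β} {n : α → γ} {c : α → β → List β → γ} (hl : Pu σ l)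
    (hn : Pu σ n) (hc : Pu σ fun p : α × β × List β => c p.1 p.2.1 p.2.2) :
    Pu σ fun a => List.rec (motive := fun _ => γ) (n a) (fun h t _ => c a h t) (l a) :=
  hl.list_casesOn hn hc
@[fun_prop] theorem Impl.list_rec {l : α → List β} {n : α → R γ} {c : α → β → List β → R γ}
    (hl : Pu true l) (hn : Impl n) (hc : Impl fun p : α × β × List β => c p.1 p.2.1 p.2.2) :
    Impl fun a => List.rec (motive := fun _ => R γ) (n a) (fun h t _ => c a h t) (l a) :=
  Impl.list_casesOn hl hn hc
@[fun_prop] theorem Pu.option_rec {o : α → Option β} {n : α → γ} {c : α → β → γ} (ho : Pu σ o)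
    (hn : Pu σ n) (hc : Pu σ fun p : α × β => c p.1 p.2) :
    Pu σ fun a => Option.rec (motive := fun _ => γ) (n a) (c a) (o a) := ho.option_casesOn hn hc
@[fun_prop] theorem Impl.option_rec {o : α → Option β} {n : α → R γ} {c : α → β → R γ}
    (ho : Pu true o) (hn : Impl n) (hc : Impl fun p : α × β => c p.1 p.2) :
    Impl fun a => Option.rec (motive := fun _ => R γ) (n a) (c a) (o a) :=
  Impl.option_casesOn ho hn hc
@[fun_prop] theorem Pu.sum_rec {x : α → β ⊕ γ} {f : α → β → δ} {g : α → γ → δ} (hx : Pu σ x)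
    (hf : Pu σ fun p : α × β => f p.1 p.2) (hg : Pu σ fun p : α × γ => g p.1 p.2) :
    Pu σ fun a => Sum.rec (motive := fun _ => δ) (f a) (g a) (x a) := hx.sum_casesOn hf hg
@[fun_prop] theorem Impl.sum_rec {x : α → β ⊕ γ} {f : α → β → R δ} {g : α → γ → R δ}
    (hx : Pu true x) (hf : Impl fun p : α × β => f p.1 p.2) (hg : Impl fun p : α × γ => g p.1 p.2) :
    Impl fun a => Sum.rec (motive := fun _ => R δ) (f a) (g a) (x a) := Impl.sum_casesOn hx hf hg
@[fun_prop] theorem Pu.nat_rec {f : α → ℕ} {x : α → β} {y : α → ℕ → β} (hf : Pu σ f) (hx : Pu σ x)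
    (hy : Pu σ fun p : α × ℕ => y p.1 p.2) :
    Pu σ fun a => Nat.rec (motive := fun _ => β) (x a) (fun k _ => y a k) (f a) :=
  hf.nat_casesOn hx hy
@[fun_prop] theorem Impl.nat_rec {f : α → ℕ} {x : α → R β} {y : α → ℕ → R β} (hf : Pu true f)
    (hx : Impl x) (hy : Impl fun p : α × ℕ => y p.1 p.2) :
    Impl fun a => Nat.rec (motive := fun _ => R β) (x a) (fun k _ => y a k) (f a) :=
  Impl.nat_casesOn hf hx hy
@[fun_prop] theorem Pu.bool_rec {b : α → Bool} {x y : α → β} (hb : Pu false b) (hx : Pu σ x)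
    (hy : Pu σ y) : Pu σ fun a => Bool.rec (motive := fun _ => β) (x a) (y a) (b a) :=
  hb.bool_casesOn hx hy
@[fun_prop] theorem Impl.bool_rec {b : α → Bool} {x y : α → R β} (hb : Pu false b) (hx : Impl x)
    (hy : Impl y) : Impl fun a => Bool.rec (motive := fun _ => R β) (x a) (y a) (b a) :=
  Impl.bool_casesOn hb hx hy

end recs

/-! ### equality -/

/-- types with a straight-line equality test -/
class EqP (β : Type) [Rp β] : Prop where
  eq : Pu false fun p : β × β => p.1 = p.2

@[fun_prop] theorem Pu.eq [EqP β] {x y : α → β} (hx : Pu false x) (hy : Pu false y) :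
    Pu σ fun a => x a = y a := (EqP.eq.comp (hx.pair hy)).prop
@[fun_prop] theorem Pu.ne [EqP β] {x y : α → β} (hx : Pu false x) (hy : Pu false y) :
    Pu σ fun a => x a ≠ y a := (hx.eq hy).not
@[fun_prop] theorem Pu.beq [EqP β] [BEq β] [LawfulBEq β] {x y : α → β} (hx : Pu false x)
    (hy : Pu false y) : Pu σ fun a => x a == y a :=
  (open Classical in (hx.eq hy).decide).of_eq fun a => by
    by_cases h : x a = y a <;> simp [h]
@[fun_prop] theorem Pu.bne [EqP β] [BEq β] [LawfulBEq β] {x y : α → β} (hx : Pu false x)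
    (hy : Pu false y) : Pu σ fun a => x a != y a := (hx.beq hy).bnot

instance : EqP ℕ := ⟨((Pu.fst'.le Pu.snd').and (Pu.snd'.le Pu.fst')).of_iff
  fun _ => le_antisymm_iff.symm⟩
instance : EqP ℤ := ⟨((Pu.fst'.int_le Pu.snd').and (Pu.snd'.int_le Pu.fst')).of_iff
  fun _ => le_antisymm_iff.symm⟩
instance : EqP Bool := ⟨(Pu.fst'.eq_true.iff Pu.snd'.eq_true).of_iff fun _ => Bool.eq_iff_iff.symm⟩
instance : EqP Unit := ⟨(Pu.const True).of_iff fun _ => by simp⟩
instance [EqP α] [EqP β] : EqP (α × β) :=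
  ⟨((Pu.fst'.fst.eq Pu.snd'.fst).and (Pu.fst'.snd.eq Pu.snd'.snd)).of_iff fun _ => Prod.ext_iff.symm⟩
instance [EqP α] : EqP (Option α) :=
  ⟨(Pu.fst'.option_casesOn Pu.snd'.eq_none (c := fun p x => Option.casesOn (motive := fun _ => Prop)
    p.2 False fun y => x = y) (Pu.fst'.snd.option_casesOn (Pu.const False)
      (Pu.fst'.snd.eq Pu.snd'))).of_iff fun ⟨a, b⟩ => by cases a <;> cases b <;> simp⟩
theorem EqP.via {ρ τ : Type} [Rp τ] [EqP τ] (e : ρ → τ) (he : Function.Injective e) :
    @EqP ρ (Rp.via e) :=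
  letI := Rp.via e
  ⟨(((Pu.via_out e).comp Pu.fst').eq ((Pu.via_out e).comp Pu.snd')).of_iff fun _ => he.eq_iff⟩
instance [EqP α] {p : α → Prop} : EqP (Subtype p) := EqP.via _ Subtype.val_injective
instance {n : ℕ} : EqP (Fin n) := EqP.via _ Fin.val_injective
instance [EqP α] [EqP β] : EqP (α ⊕ β) := EqP.via _ fun a b h => by
  cases a <;> cases b <;> simp_all

end Crest.Agent.N325
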