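import Crest.Agent.N325.M0.Lang
import Crest.Agent.N325.M0.Mon

/-!
# N325 / M0: representations and implementability (helper68)

`Impl f` says that a term of the deep language computes the program `f : α → R β` (threading the
tape) in `K * cost + c` steps, and that the numbers grow by at most that much beyond the declared
ones.  `Pu σ f` says that the pure function `f` is straight-line code; `σ = true`: the numbers grow
by at most a constant (`Sel`), `σ = false`: the bit length grows by a constant factor (`Ar`).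
-/

set_option autoImplicit false

namespace Crest.Agent.N325

/-- the largest leaf -/
def V.mx : V → ℕ
  | .leaf n => n
  | .node a b => max a.mx b.mx

@[simp] theorem V.mx_leaf (n : ℕ) : (V.leaf n).mx = n := rfl
@[simp] theorem V.mx_node (a b : V) : (V.node a b).mx = max a.mx b.mx := rfl

/-- the tape as a value -/
def tp (τ : List Bool) : V := V.nats (τ.map Bool.toNat)

/-- machine parameters: unit of cost, bits of the stored numbers, word length -/
structure Par : Type where
  K : ℕ
  m : ℕ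
  w : ℕ

/-- representation of the values of a type, indexed by the remaining budget -/
class Rp (α : Type) : Type where
  rp : Par → ℕ → α → V → Prop
  anti : ∀ {P B B' a v}, rp P B a v → B' ≤ B → rp P B' a v

export Rp (rp)

/-- the overhead of straight-line code -/
def U (w c : ℕ) : ℕ := c * (w + 1) ^ c

theorem le_U (w c : ℕ) : c ≤ U w c := Nat.le_mul_of_pos_right _ (by positivity)

theorem U_add (w a b : ℕ) : U w a + U w b ≤ U w (a + b) := by
  unfold U
  have h1 : (w + 1) ^ a ≤ (w + 1) ^ (a + b) := Nat.pow_le_pow_right (by omega) (by omega)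
  have h2 : (w + 1) ^ b ≤ (w + 1) ^ (a + b) := Nat.pow_le_pow_right (by omega) (by omega)
  rw [add_mul]
  exact Nat.add_le_add (Nat.mul_le_mul_left _ h1) (Nat.mul_le_mul_left _ h2)

theorem U_mono (w : ℕ) {a b : ℕ} (h : a ≤ b) : U w a ≤ U w b := by
  obtain ⟨k, rfl⟩ := Nat.exists_eq_add_of_le h
  exact (Nat.le_add_right _ _).trans (U_add w a k)

theorem U_add2 (w a k : ℕ) : U w a + k ≤ U w (a + k) :=
  (Nat.add_le_add_left (le_U w k) _).trans (U_add w _ k)

theorem U_add3 (w a b k : ℕ) : U w a + U w b + k ≤ U w (a + b + k) :=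
  (Nat.add_le_add_right (U_add w a b) k).trans (U_add2 w _ k)

theorem U_succ (w c : ℕ) : (w + 1) * U w c ≤ U w (c + 1) := by
  unfold U
  rw [pow_succ]
  nlinarith [Nat.zero_le ((w + 1) ^ c * (w + 1))]

theorem lt_up {x s s' : ℕ} (h : x < 2 ^ s) (hs : s ≤ s') : x < 2 ^ s' :=
  h.trans_le (Nat.pow_le_pow_right two_pos hs)

theorem lt_grow {x s : ℕ} (c : ℕ) (hs : 1 ≤ s) (h : x < 2 ^ s) : x + c < 2 ^ ((c + 1) * s) := by
  have h1 : c + 1 ≤ 2 ^ (c * s) :=
    (Nat.lt_two_pow_self (n := c)).trans_le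
      (Nat.pow_le_pow_right two_pos (Nat.le_mul_of_pos_right _ hs))
  rw [add_mul, one_mul, pow_add]
  nlinarith

variable {α β γ δ : Type} [Rp α] [Rp β] [Rp γ] [Rp δ]

/-- the term `t` computes the pure function `f` -/
def RealP (σ : Bool) (t : Tm) (d c : ℕ) (f : α → β) : Prop :=
  ∀ (P : Par) (s B : ℕ) (a : α) (v : V), 1 ≤ P.m → P.m ≤ s → d * s ≤ P.w → U P.w c ≤ P.K →
    rp P B a v → v.mx < 2 ^ s →
    ∃ r, rp P B (f a) r ∧ r.mx < 2 ^ (d * s) ∧ (σ = true → r.mx ≤ v.mx + c) ∧
      Ev (2 ^ P.w) t v r (U P.w c)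

/-- **straight-line functions** (`σ = true`: the numbers grow only by a constant) -/
@[fun_prop] def Pu (σ : Bool) (f : α → β) : Prop := ∃ t d c, 1 ≤ d ∧ RealP σ t d c f

/-- the term `t` runs the computation `m` from the value `v`, with overhead `k` -/
def Res (P : Par) (B M : ℕ) (t : Tm) (v : V) (m : R β) (τ : List Bool) (k : ℕ) : Prop :=
  (m.run τ).pk ≤ M → (m.run τ).cost ≤ B → M + (P.K * (m.run τ).cost + k) < 2 ^ P.m →
    ∃ r, rp P (B - (m.run τ).cost) (m.run τ).val r ∧ r.mx ≤ M + (P.K * (m.run τ).cost + k) ∧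
      Ev (2 ^ P.w) t (.node v (tp τ)) (.node r (tp (m.run τ).tape)) (P.K * (m.run τ).cost + k)

/-- the term `t` computes the program `f` -/
def Real (t : Tm) (d c : ℕ) (f : α → R β) : Prop :=
  ∀ (P : Par) (B M : ℕ) (a : α) (v : V) (τ : List Bool), 1 ≤ P.m → d * P.m ≤ P.w → U P.w c ≤ P.K →
    rp P B a v → v.mx ≤ M → Res P B M t v (f a) τ (U P.w c)

/-- **implementable programs** -/
@[fun_prop] def Impl (f : α → R β) : Prop := ∃ t d c, Real t d c f

/-! ### instances -/

instance : Rp ℕ where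
  rp _ _ n v := v = .leaf n
  anti h _ := h

instance : Rp Unit where
  rp _ _ _ _ := True
  anti h _ := h

open Classical in
instance : Rp Prop where
  rp _ _ p v := v = .leaf (if p then 1 else 0)
  anti h _ := h

instance : Rp Bool where
  rp _ _ b v := v = .leaf b.toNat
  anti h _ := h

instance : Rp V where
  rp _ _ x v := v = x
  anti h _ := h

instance : Rp ℤ where
  rp _ _ z v := v = .node (.leaf z.toNat) (.leaf (-z).toNat)
  anti h _ := h

instance : Rp (α × β) where
  rp P B p v := ∃ x y, v = .node x y ∧ rp P B p.1 x ∧ rp P B p.2 y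
  anti := fun ⟨x, y, e, h1, h2⟩ h => ⟨x, y, e, Rp.anti h1 h, Rp.anti h2 h⟩

instance : Rp (List α) where
  rp P B l v := ∃ vs, v = V.ofList vs ∧ List.Forall₂ (rp P B) l vs
  anti := fun ⟨vs, e, h1⟩ h => ⟨vs, e, h1.imp fun _ _ k => Rp.anti k h⟩

/-- representation through a map -/
@[reducible] def Rp.via {σ τ : Type} [Rp τ] (e : σ → τ) : Rp σ where
  rp P B a v := rp P B (e a) v
  anti := Rp.anti

instance : Rp (Option α) := Rp.via Option.toList
instance : Rp (α ⊕ β) := Rp.via fun x => (x.getLeft?, x.getRight?)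
instance {p : α → Prop} : Rp (Subtype p) := Rp.via Subtype.val
instance {n : ℕ} : Rp (Fin n) := Rp.via Fin.val

/-- ghost data: not stored -/
structure Gh (σ : Type) : Type where
  out : σ

instance {σ : Type} : Rp (Gh σ) := Rp.via fun _ => ()

/-- closures -/
instance : Rp (γ → R δ) where
  rp P B g v := ∃ (t : Tm) (e : V), v = .node t.enc e ∧ ∀ B' < B, ∀ M c x τ, rp P B' c x →
    v.mx ≤ M → x.mx ≤ M → Res P B' M t (.node v x) (g c) τ P.K
  anti := fun ⟨t, e, h1, h2⟩ h => ⟨t, e, h1, fun B' k => h2 B' (k.trans_le h)⟩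

theorem rp_nil {P : Par} {B : ℕ} {v : V} : rp P B ([] : List α) v ↔ v = .leaf 0 :=
  ⟨fun ⟨_, e, h⟩ => by cases h; exact e, fun e => ⟨[], e, .nil⟩⟩

theorem rp_cons {P : Par} {B : ℕ} {v : V} {a : α} {l : List α} :
    rp P B (a :: l) v ↔ ∃ x y, v = .node x y ∧ rp P B a x ∧ rp P B l y :=
  ⟨fun ⟨_, e, h⟩ => by cases h with | cons h1 h2 => exact ⟨_, _, e, h1, _, rfl, h2⟩,
    fun ⟨x, _, e, h1, vs, e', h2⟩ => ⟨x :: vs, by rw [e, e']; rfl, .cons h1 h2⟩⟩

theorem rp_nats {P : Par} {B : ℕ} {v : V} {l : List ℕ} : rp P B l v ↔ v = V.nats l := by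
  induction l generalizing v with
  | nil => exact rp_nil
  | cons a l ih =>
    rw [rp_cons, V.nats_cons]
    exact ⟨fun ⟨x, y, e, h1, h2⟩ => by rw [e, show x = .leaf a from h1, ih.1 h2],
      fun e => ⟨_, _, e, rfl, ih.2 rfl⟩⟩

theorem rp_tp {P : Par} {B : ℕ} (l : List Bool) : rp P B l (tp l) := by
  induction l with
  | nil => exact rp_nil.2 rfl
  | cons a l ih => exact rp_cons.2 ⟨_, _, rfl, rfl, ih⟩

theorem mx_tp (l : List Bool) : (tp l).mx ≤ 1 := by
  induction l with
  | nil => exact Nat.zero_le _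
  | cons a l ih => exact max_le (Bool.toNat_le a) ih

theorem mx_nats {l : List ℕ} {X : ℕ} : (V.nats l).mx ≤ X ↔ ∀ a ∈ l, a ≤ X := by
  induction l with
  | nil => simp
  | cons a l ih => simp [ih]

end Crest.Agent.N325
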