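import Crest.Agent.R309.RAMCmd
import Crest.Agent.N325.M0.Lang

/-!
# N325 / M0: the interpreter, one step

`den` is the denotation of loop-free structured programs; `core` is one step of the abstract
machine (registers: 2 code pointer, 3 value pointer, 4 continuation, 5 heap top, 8/9/10 the
constants 0/1/2, 14–18 scratch).
-/

set_option autoImplicit false

namespace Crest.Agent.N325.Mach

open Crest.Agent.R309.RAM

/-- loop-free programs -/
def lf : Prog → Prop
  | .blk _ => True
  | .seq p q => lf p ∧ lf q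
  | .ite _ p q => lf p ∧ lf q
  | .loop _ _ => False

/-- denotation of loop-free programs -/
def den (w : ℕ) (ρ : ℕ → ℕ) : Prog → St → St
  | .blk l, σ => effs w ρ l σ
  | .seq p q, σ => den w ρ q (den w ρ p σ)
  | .ite c p q, σ => if c.eval σ then den w ρ p σ else den w ρ q σ
  | .loop _ _, σ => σ

theorem runs_den (w : ℕ) (ρ : ℕ → ℕ) {p : Prog} (h : lf p) :
    ∀ σ, Runs w ρ p σ p.len fun σ' => σ' = den w ρ p σ := by
  induction p with
  | blk l => intro σ; exact Runs.blk l rfl
  | seq p q ihp ihq =>
    intro σ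
    refine (ihp h.1 σ).seq fun σ' hσ' => ?_
    subst hσ'
    exact ihq h.2 _
  | ite c p q ihp ihq =>
    intro σ
    refine (Runs.ite (n := p.len + q.len) (fun hc => ?_) (fun hc => ?_)).mono
      (by simp only [Prog.len]; omega) fun _ h => h
    · exact (ihp h.1 σ).mono (by omega) fun σ' h' => by rw [h']; simp only [den, if_pos hc]
    · exact (ihq h.2 σ).mono (by omega) fun σ' h' => by rw [h']; simp only [den, if_neg hc]
  | loop c p _ => exact h.elim

/-- the instruction does not write register `r` -/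
def opKeep (r : ℕ) : Op → Prop
  | .const d _ => d ≠ r
  | .copy d _ => d ≠ r
  | .add d _ _ => d ≠ r
  | .sub d _ _ => d ≠ r
  | .mul d _ _ => d ≠ r
  | .quot d _ _ => d ≠ r
  | .rem d _ _ => d ≠ r
  | .load d _ => d ≠ r
  | .store _ _ => True
  | .rand d => d ≠ r

instance (r : ℕ) (i : Op) : Decidable (opKeep r i) := by
  cases i <;> unfold opKeep <;> infer_instance

/-- the program does not write register `r` -/
def keep (r : ℕ) : Prog → Prop
  | .blk l => ∀ i ∈ l, opKeep r i
  | .seq p q => keep r p ∧ keep r q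
  | .ite _ p q => keep r p ∧ keep r q
  | .loop _ p => keep r p

instance keepDec (r : ℕ) : (p : Prog) → Decidable (keep r p)
  | .blk l => by unfold keep; infer_instance
  | .seq p q => by unfold keep; exact @instDecidableAnd _ _ (keepDec r p) (keepDec r q)
  | .ite _ p q => by unfold keep; exact @instDecidableAnd _ _ (keepDec r p) (keepDec r q)
  | .loop _ p => by unfold keep; exact keepDec r p

instance okDec (r : ℕ) : (p : Prog) → Decidable (p.ok r)
  | .blk l => by unfold Prog.ok; infer_instance
  | .seq p q => by unfold Prog.ok; exact @instDecidableAnd _ _ (okDec r p) (okDec r q)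
  | .ite _ p q => by
      unfold Prog.ok
      exact @instDecidableAnd _ _ inferInstance (@instDecidableAnd _ _ (okDec r p) (okDec r q))
  | .loop _ p => by unfold Prog.ok; exact @instDecidableAnd _ _ inferInstance (okDec r p)

theorem eff_keep {w : ℕ} {ρ : ℕ → ℕ} {r : ℕ} {i : Op} (h : opKeep r i) (σ : St) :
    (i.eff w ρ σ).regs r = σ.regs r := by
  cases i <;> simp only [Op.eff] <;>
    first
      | rfl
      | exact Function.update_of_ne (Ne.symm h) _ _

theorem effs_keep {w : ℕ} {ρ : ℕ → ℕ} {r : ℕ} {l : List Op} (h : ∀ i ∈ l, opKeep r i) :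
    ∀ σ : St, (effs w ρ l σ).regs r = σ.regs r := by
  induction l with
  | nil => intro σ; rfl
  | cons i l ih =>
    intro σ
    rw [effs_cons, ih fun j hj => h j (List.mem_cons_of_mem _ hj), eff_keep (h i List.mem_cons_self)]

theorem Ex_keep {w : ℕ} {ρ : ℕ → ℕ} {r : ℕ} {p : Prog} {σ σ' : St} {t : ℕ} (h : Ex w ρ p σ σ' t) :
    keep r p → σ'.regs r = σ.regs r := by
  induction h with
  | blk l s => exact fun hk => effs_keep hk s
  | seq _ _ ih1 ih2 => exact fun hk => (ih2 hk.2).trans (ih1 hk.1)
  | ite_true _ _ ih => exact fun hk => ih hk.1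
  | ite_false _ _ ih => exact fun hk => ih hk.2
  | loop_done _ => exact fun _ => rfl
  | loop_step _ _ _ ih1 ih2 => exact fun hk => (ih2 hk).trans (ih1 hk)

theorem den_keep {w : ℕ} {ρ : ℕ → ℕ} {r : ℕ} {p : Prog} (hl : lf p) (hk : keep r p) (σ : St) :
    (den w ρ p σ).regs r = σ.regs r := by
  obtain ⟨σ', t, h, _, rfl⟩ := runs_den w ρ hl σ
  exact Ex_keep h hk

theorem Runs.keep {w : ℕ} {ρ : ℕ → ℕ} {p : Prog} {σ : St} {n : ℕ} {Q : St → Prop}
    (h : Runs w ρ p σ n Q) :
    Runs w ρ p σ n fun σ' => Q σ' ∧ ∀ r, keep r p → σ'.regs r = σ.regs r := by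
  obtain ⟨σ', t, h1, h2, h3⟩ := h
  exact ⟨σ', t, h1, h2, h3, fun r hr => Ex_keep h1 hr⟩

/-- return mode: pop a frame -/
def retP : Prog :=
  .seq (.blk [.load 14 4, .add 15 4 9, .load 16 15, .add 15 15 9, .load 17 15, .add 15 15 9,
      .load 18 15])
    (.ite (.zero 14) (.blk [.copy 2 16, .copy 4 18])
      (.ite (.eq 14 9)
        (.blk [.store 10 5, .add 15 5 9, .store 3 15, .add 15 15 9, .add 15 15 9, .store 18 15,
          .copy 4 5, .add 5 15 9, .copy 2 16, .copy 3 17])
        (.blk [.store 16 5, .add 15 5 9, .store 3 15, .copy 3 5, .add 5 15 9, .copy 4 18])))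

/-- decrement the tag and go on -/
def dsp (p q : Prog) : Prog := .ite (.zero 14) p (.seq (.blk [.sub 14 14 9]) q)

/-- arithmetic -/
def opP : Prog :=
  .seq (.blk [.add 16 16 9, .load 16 16, .add 17 17 9, .load 17 17])
    (.seq (dsp (.blk [.add 16 16 17]) (dsp (.blk [.sub 16 16 17]) (dsp (.blk [.mul 16 16 17])
        (dsp (.blk [.quot 16 16 17]) (.blk [.rem 16 16 17])))))
      (.blk [.store 8 5, .add 17 5 9, .store 16 17, .copy 3 5, .add 5 17 9, .copy 2 8]))

/-- the conditional -/
def condP : Prog :=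
  .seq (.blk [.copy 3 17, .load 17 16, .add 16 16 9, .load 16 16])
    (.ite (.zero 17) (.ite (.zero 16) (.blk [.add 15 15 9, .load 2 15]) (.blk [.load 2 15]))
      (.blk [.load 2 15]))

/-- evaluation mode -/
def evP : Prog :=
  .seq (.blk [.load 14 2, .add 14 14 9, .load 14 14, .add 15 2 9, .load 15 15, .load 16 3,
      .add 17 3 9, .load 17 17])
    (dsp (.blk [.copy 2 8])
    (dsp (.blk [.copy 2 8, .copy 3 16])
    (dsp (.blk [.copy 2 8, .copy 3 17])
    (dsp (.blk [.copy 2 8, .copy 3 15])
    (dsp (.blk [.load 16 15, .add 15 15 9, .load 15 15, .store 9 5, .add 17 5 9, .store 15 17,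
        .add 17 17 9, .store 3 17, .add 17 17 9, .store 4 17, .copy 4 5, .add 5 17 9, .copy 2 16])
    (dsp (.blk [.load 16 15, .add 15 15 9, .load 15 15, .store 8 5, .add 17 5 9, .store 16 17,
        .add 17 17 9, .add 17 17 9, .store 4 17, .copy 4 5, .add 5 17 9, .copy 2 15])
    (dsp condP
    (dsp (.blk [.copy 2 16, .copy 3 17]) opP))))))))

/-- pay one unit of fuel (register 6, by register 7) -/
def decP : Prog := .blk [.sub 6 6 7]

/-- one step of the abstract machine; a finished machine clears the fuel -/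
def core : Prog :=
  .ite (.zero 2) (.ite (.zero 4) (.blk [.copy 6 8]) (.seq retP decP)) (.seq evP decP)

theorem lf_retP : lf retP := by
  simp only [retP, lf, and_self]

theorem lf_evP : lf evP := by
  simp only [evP, dsp, condP, opP, lf, and_self]

theorem lf_core : lf core := by
  simp only [core, decP, lf, lf_retP, lf_evP, and_self]

/-- the constant registers -/
structure Good (σ : St) : Prop where
  zero : σ.regs 8 = 0
  one : σ.regs 9 = 1
  two : σ.regs 10 = 2

/-- the abstract part of a state -/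
structure Is (σ : St) (c x k h : ℕ) (m : ℕ → ℕ) : Prop where
  c : σ.regs 2 = c
  x : σ.regs 3 = x
  k : σ.regs 4 = k
  h : σ.regs 5 = h
  m : σ.mem = m

end Crest.Agent.N325.Mach
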