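import Crest.Agent.N325.M0.Interp1

/-!
# N325 / M0: the interpreter, the cases of one step
-/

set_option autoImplicit false

namespace Crest.Agent.N325.Mach

open Crest.Agent.R309.RAM

section steps

variable {w : ℕ} {ρ : ℕ → ℕ} {σ : St} {c x k h : ℕ} {m : ℕ → ℕ}

set_option hygiene false in
/-- unfold one step -/
local macro "stp" "[" l:Lean.Parser.Tactic.simpLemma,* "]" : tactic => `(tactic| (
  obtain ⟨regs, mem, dr⟩ := σ
  obtain ⟨g0, g1, g2⟩ := hG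
  obtain ⟨e1, e2, e3, e4, e5⟩ := hI
  simp only at g0 g1 g2 e1 e2 e3 e4 e5
  subst e5
  simp (disch := omega) only [core, decP, retP, evP, dsp, condP, opP, den, Cond.eval, effs_cons,
      effs_nil, Op.eff, Function.update_apply, g0, g1, g2, e1, e2, e3, e4,
      Nat.mod_eq_of_lt, Nat.reduceSub, Nat.reduceEqDiff, ↓reduceIte, $l,*]
  constructor <;>
    simp only [Function.update_apply, Nat.reduceEqDiff, ↓reduceIte, e1, e2, e3, e4]))

theorem step_done (hG : Good σ) (hI : Is σ 0 x 0 h m) : Is (den w ρ core σ) 0 x 0 h m := by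
  stp []

theorem step_cmp (hG : Good σ) (hI : Is σ 0 x k h m) (hk0 : k ≠ 0) (hk : k + 3 < 2 ^ w)
    (ht : m k = 0) :
    Is (den w ρ core σ) (m (k + 1)) x (m (k + 1 + 1 + 1)) h m := by
  stp [ht, hk0]

theorem step_p1 (hG : Good σ) (hI : Is σ 0 x k h m) (hk0 : k ≠ 0) (hk : k + 3 < 2 ^ w)
    (hh : h + 4 < 2 ^ w) (ht : m k = 1) :
    Is (den w ρ core σ) (m (k + 1)) (m (k + 1 + 1)) h (h + 1 + 1 + 1 + 1)
      (Function.update (Function.update (Function.update m h 2) (h + 1) x) (h + 1 + 1 + 1)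
        (m (k + 1 + 1 + 1))) := by
  stp [ht, hk0]

theorem step_p2 (hG : Good σ) (hI : Is σ 0 x k h m) (hk0 : k ≠ 0) (hk : k + 3 < 2 ^ w)
    (hh : h + 4 < 2 ^ w) (ht : m k = 2) :
    Is (den w ρ core σ) 0 h (m (k + 1 + 1 + 1)) (h + 1 + 1)
      (Function.update (Function.update m h (m (k + 1))) (h + 1) x) := by
  stp [ht, hk0]

theorem step_id (hG : Good σ) (hI : Is σ c x k h m) (hc0 : c ≠ 0) (hc : c + 1 < 2 ^ w)
    (hc' : m c + 1 < 2 ^ w) (ht : m (m c + 1) = 0) :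
    Is (den w ρ core σ) 0 x k h m := by
  stp [ht, hc0]

theorem step_fst (hG : Good σ) (hI : Is σ c x k h m) (hc0 : c ≠ 0) (hc : c + 1 < 2 ^ w)
    (hc' : m c + 1 < 2 ^ w) (ht : m (m c + 1) = 1) :
    Is (den w ρ core σ) 0 (m x) k h m := by
  stp [ht, hc0]

theorem step_snd (hG : Good σ) (hI : Is σ c x k h m) (hc0 : c ≠ 0) (hc : c + 1 < 2 ^ w)
    (hc' : m c + 1 < 2 ^ w) (hx : x + 1 < 2 ^ w) (ht : m (m c + 1) = 2) :
    Is (den w ρ core σ) 0 (m (x + 1)) k h m := by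
  stp [ht, hc0]

theorem step_const (hG : Good σ) (hI : Is σ c x k h m) (hc0 : c ≠ 0) (hc : c + 1 < 2 ^ w)
    (hc' : m c + 1 < 2 ^ w) (ht : m (m c + 1) = 3) :
    Is (den w ρ core σ) 0 (m (c + 1)) k h m := by
  stp [ht, hc0]

theorem step_pair (hG : Good σ) (hI : Is σ c x k h m) (hc0 : c ≠ 0) (hc : c + 1 < 2 ^ w)
    (hc' : m c + 1 < 2 ^ w) (hp : m (c + 1) + 1 < 2 ^ w) (hh : h + 4 < 2 ^ w)
    (ht : m (m c + 1) = 4) :
    Is (den w ρ core σ) (m (m (c + 1))) x h (h + 1 + 1 + 1 + 1)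
      (Function.update (Function.update (Function.update (Function.update m h 1) (h + 1)
        (m (m (c + 1) + 1))) (h + 1 + 1) x) (h + 1 + 1 + 1) k) := by
  stp [ht, hc0]

theorem step_comp (hG : Good σ) (hI : Is σ c x k h m) (hc0 : c ≠ 0) (hc : c + 1 < 2 ^ w)
    (hc' : m c + 1 < 2 ^ w) (hp : m (c + 1) + 1 < 2 ^ w) (hh : h + 4 < 2 ^ w)
    (ht : m (m c + 1) = 5) :
    Is (den w ρ core σ) (m (m (c + 1) + 1)) x h (h + 1 + 1 + 1 + 1)
      (Function.update (Function.update (Function.update m h 0) (h + 1)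
        (m (m (c + 1)))) (h + 1 + 1 + 1) k) := by
  stp [ht, hc0]

theorem step_cond0 (hG : Good σ) (hI : Is σ c x k h m) (hc0 : c ≠ 0) (hc : c + 1 < 2 ^ w)
    (hc' : m c + 1 < 2 ^ w) (hp : m (c + 1) + 1 < 2 ^ w) (hx : x + 1 < 2 ^ w)
    (hb : m x + 1 < 2 ^ w) (ht : m (m c + 1) = 6) (h1 : m (m x) = 0) (h2 : m (m x + 1) = 0) :
    Is (den w ρ core σ) (m (m (c + 1) + 1)) (m (x + 1)) k h m := by
  stp [ht, hc0, h1, h2]

theorem step_cond1 (hG : Good σ) (hI : Is σ c x k h m) (hc0 : c ≠ 0) (hc : c + 1 < 2 ^ w)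
    (hc' : m c + 1 < 2 ^ w) (hx : x + 1 < 2 ^ w)
    (hb : m x + 1 < 2 ^ w) (ht : m (m c + 1) = 6) (h1 : m (m x) = 0) (h2 : m (m x + 1) ≠ 0) :
    Is (den w ρ core σ) (m (m (c + 1))) (m (x + 1)) k h m := by
  stp [ht, hc0, h1, h2]

theorem step_cond2 (hG : Good σ) (hI : Is σ c x k h m) (hc0 : c ≠ 0) (hc : c + 1 < 2 ^ w)
    (hc' : m c + 1 < 2 ^ w) (hx : x + 1 < 2 ^ w)
    (ht : m (m c + 1) = 6) (h1 : m (m x) ≠ 0) :
    Is (den w ρ core σ) (m (m (c + 1))) (m (x + 1)) k h m := by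
  stp [ht, hc0, h1]

theorem step_app (hG : Good σ) (hI : Is σ c x k h m) (hc0 : c ≠ 0) (hc : c + 1 < 2 ^ w)
    (hc' : m c + 1 < 2 ^ w) (hx : x + 1 < 2 ^ w) (ht : m (m c + 1) = 7) :
    Is (den w ρ core σ) (m x) (m (x + 1)) k h m := by
  stp [ht, hc0]

theorem step_op (o : BOp) (hG : Good σ) (hI : Is σ c x k h m) (hc0 : c ≠ 0) (hc : c + 1 < 2 ^ w)
    (hc' : m c + 1 < 2 ^ w) (hx : x + 1 < 2 ^ w) (ha : m x + 1 < 2 ^ w)
    (hb : m (x + 1) + 1 < 2 ^ w) (hh : h + 4 < 2 ^ w) (ht : m (m c + 1) = o.tag)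
    (hv : o.ap (m (m x + 1)) (m (m (x + 1) + 1)) < 2 ^ w) :
    Is (den w ρ core σ) 0 h k (h + 1 + 1)
      (Function.update (Function.update m h 0) (h + 1)
        (o.ap (m (m x + 1)) (m (m (x + 1) + 1)))) := by
  cases o <;> simp only [BOp.tag, BOp.ap] at ht hv ⊢
  · stp [ht, hc0]
  · stp [ht, hc0]
  · stp [ht, hc0, Nat.mod_eq_of_lt hv]
  · stp [ht, hc0]
  · stp [ht, hc0]

theorem fuel_done (hG : Good σ) (h2 : σ.regs 2 = 0) (h4 : σ.regs 4 = 0) :
    (den w ρ core σ).regs 6 = 0 := by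
  simp only [core, den, Cond.eval, h2, h4, ↓reduceIte, effs_cons, effs_nil, Op.eff,
    Function.update_self, hG.zero]

theorem fuel_dec {p : Prog} (hl : lf p) (h6 : keep 6 p) (h7 : keep 7 p) :
    (den w ρ (.seq p decP) σ).regs 6 = σ.regs 6 - σ.regs 7 := by
  simp only [decP, den, effs_cons, effs_nil, Op.eff, Function.update_self, den_keep hl h6,
    den_keep hl h7]

theorem fuel_run (h : ¬(σ.regs 2 = 0 ∧ σ.regs 4 = 0)) :
    (den w ρ core σ).regs 6 = σ.regs 6 - σ.regs 7 := by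
  by_cases h2 : σ.regs 2 = 0
  · have h4 : ¬σ.regs 4 = 0 := fun h4 => h ⟨h2, h4⟩
    rw [← fuel_dec (w := w) (ρ := ρ) lf_retP (by decide) (by decide)]
    simp only [core, den, Cond.eval, h2, h4, ↓reduceIte]
  · rw [← fuel_dec (w := w) (ρ := ρ) lf_evP (by decide) (by decide)]
    simp only [core, den, Cond.eval, h2, ↓reduceIte]

theorem Good.step (hG : Good σ) : Good (den w ρ core σ) :=
  ⟨(den_keep lf_core (by decide) σ).trans hG.zero, (den_keep lf_core (by decide) σ).trans hG.one,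
    (den_keep lf_core (by decide) σ).trans hG.two⟩

end steps

end Crest.Agent.N325.Mach
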