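import Crest.Agent.N325.M0.Interp2

/-!
# N325 / M0: heap representation and the simulation of `Eval`
-/

set_option autoImplicit false

namespace Crest.Agent.N325.Mach

open Crest.Agent.R309.RAM

/-- the address `p` represents the value in the memory `m` below `h` -/
def RV (m : ℕ → ℕ) (h : ℕ) : V → ℕ → Prop
  | .leaf n, p => 0 < p ∧ p + 2 ≤ h ∧ m p = 0 ∧ m (p + 1) = n
  | .node a b, p => 0 < p ∧ p + 2 ≤ h ∧ RV m h a (m p) ∧ RV m h b (m (p + 1))

/-- heap extension -/
def Ext (m : ℕ → ℕ) (h : ℕ) (m' : ℕ → ℕ) (h' : ℕ) : Prop := h ≤ h' ∧ ∀ i < h, m' i = m i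

theorem Ext.refl (m : ℕ → ℕ) (h : ℕ) : Ext m h m h := ⟨le_rfl, fun _ _ => rfl⟩

theorem Ext.trans {m m' m'' : ℕ → ℕ} {h h' h'' : ℕ} (a : Ext m h m' h') (b : Ext m' h' m'' h'') :
    Ext m h m'' h'' :=
  ⟨a.1.trans b.1, fun i hi => (b.2 i (hi.trans_le a.1)).trans (a.2 i hi)⟩

theorem RV.pos {m : ℕ → ℕ} {h : ℕ} {v : V} {p : ℕ} (r : RV m h v p) : 0 < p := by
  cases v <;> exact r.1

theorem RV.lt {m : ℕ → ℕ} {h : ℕ} {v : V} {p : ℕ} (r : RV m h v p) : p + 2 ≤ h := by
  cases v <;> exact r.2.1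

theorem RV.ext {m m' : ℕ → ℕ} {h h' : ℕ} (e : Ext m h m' h') :
    ∀ {v : V} {p : ℕ}, RV m h v p → RV m' h' v p := by
  intro v
  induction v with
  | leaf n =>
    intro p ⟨h1, h2, h3, h4⟩
    exact ⟨h1, h2.trans e.1, (e.2 p (by omega)).trans h3, (e.2 _ (by omega)).trans h4⟩
  | node a b iha ihb =>
    intro p ⟨h1, h2, h3, h4⟩
    refine ⟨h1, h2.trans e.1, ?_, ?_⟩
    · rw [e.2 p (by omega)]; exact iha h3
    · rw [e.2 _ (by omega)]; exact ihb h4

theorem Good.iter {w : ℕ} {ρ : ℕ → ℕ} {σ : St} (hG : Good σ) (j : ℕ) :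
    Good ((den w ρ core)^[j] σ) := by
  induction j with
  | zero => exact hG
  | succ j ih => rw [Function.iterate_succ_apply']; exact ih.step

/-- what a finished evaluation leaves -/
def Done (w : ℕ) (ρ : ℕ → ℕ) (σ : St) (k hp : ℕ) (m : ℕ → ℕ) (yv : V) (n : ℕ) : Prop :=
  ∃ j ≤ 3 * n, ∃ y hp' m', Is ((den w ρ core)^[j] σ) 0 y k hp' m' ∧ RV m' hp' yv y ∧
    hp' ≤ hp + 4 * j ∧ Ext m hp m' hp'

theorem Done.one {w : ℕ} {ρ : ℕ → ℕ} {σ : St} {k hp : ℕ} {m : ℕ → ℕ} {yv : V} {y hp' : ℕ}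
    {m' : ℕ → ℕ} (h : Is (den w ρ core σ) 0 y k hp' m') (r : RV m' hp' yv y) (h1 : hp' ≤ hp + 4)
    (e : Ext m hp m' hp') : Done w ρ σ k hp m yv 1 :=
  ⟨1, by omega, y, hp', m', h, r, by omega, e⟩

theorem Done.tail {w : ℕ} {ρ : ℕ → ℕ} {σ : St} {k hp : ℕ} {m : ℕ → ℕ} {yv : V} {n : ℕ}
    (h : Done w ρ (den w ρ core σ) k hp m yv n) : Done w ρ σ k hp m yv (n + 1) := by
  obtain ⟨j, hj, y, hp', m', h1, h2, h3, h4⟩ := h
  exact ⟨j + 1, by omega, y, hp', m', by rw [Function.iterate_succ_apply]; exact h1, h2,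
    by omega, h4⟩

theorem sim {w : ℕ} {ρ : ℕ → ℕ} {t : Tm} {xv yv : V} {n : ℕ} (h : Eval (2 ^ w) t xv yv n) :
    ∀ (σ : St) (c x k hp : ℕ) (m : ℕ → ℕ), Good σ → Is σ c x k hp m → RV m hp t.enc c →
      RV m hp xv x → hp + 12 * n < 2 ^ w → Done w ρ σ k hp m yv n := by
  induction h with
  | id xv =>
    intro σ c x k hp m hG hI ⟨c1, c2, ⟨c3, c4, c5, c6⟩, _⟩ hx hw
    exact Done.one (step_id hG hI (by omega) (by omega) (by omega) c6) hx (by omega) (Ext.refl _ _)
  | fst a b =>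
    intro σ c x k hp m hG hI ⟨c1, c2, ⟨c3, c4, c5, c6⟩, _⟩ ⟨_, _, hx, _⟩ hw
    exact Done.one (step_fst hG hI (by omega) (by omega) (by omega) c6) hx (by omega)
      (Ext.refl _ _)
  | snd a b =>
    intro σ c x k hp m hG hI ⟨c1, c2, ⟨c3, c4, c5, c6⟩, _⟩ ⟨_, _, _, hx⟩ hw
    exact Done.one (step_snd hG hI (by omega) (by omega) (by omega) (by omega) c6) hx (by omega)
      (Ext.refl _ _)
  | const v xv =>
    intro σ c x k hp m hG hI ⟨c1, c2, ⟨c3, c4, c5, c6⟩, c7⟩ hx hw
    exact Done.one (step_const hG hI (by omega) (by omega) (by omega) c6) c7 (by omega)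
      (Ext.refl _ _)
  | @pair s t xv yv zv n1 n2 _ _ ih1 ih2 =>
    intro σ c x k hp m hG hI ⟨c1, c2, ⟨c3, c4, c5, c6⟩, p1, p2, ps, pt⟩ hx hw
    have I1 := step_pair (w := w) (ρ := ρ) hG hI (by omega) (by omega) (by omega) (by omega)
      (by omega) c6
    generalize hm1 : Function.update (Function.update (Function.update (Function.update m hp 1)
      (hp + 1) (m (m (c + 1) + 1))) (hp + 1 + 1) x) (hp + 1 + 1 + 1) k = m1 at I1
    have f0 : m1 hp = 1 := by
      subst hm1; simp (disch := omega) only [Function.update_of_ne, Function.update_self]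
    have f1 : m1 (hp + 1) = m (m (c + 1) + 1) := by
      subst hm1; simp (disch := omega) only [Function.update_of_ne, Function.update_self]
    have f2 : m1 (hp + 1 + 1) = x := by
      subst hm1; simp (disch := omega) only [Function.update_of_ne, Function.update_self]
    have f3 : m1 (hp + 1 + 1 + 1) = k := by subst hm1; simp
    have E1 : Ext m hp m1 (hp + 1 + 1 + 1 + 1) := by
      subst hm1
      refine ⟨by omega, fun i hi => ?_⟩
      simp (disch := omega) only [Function.update_of_ne]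
    obtain ⟨j1, hj1, y, hp2, m2, I2, ry, b2, E2⟩ := ih1 _ _ _ _ _ _ hG.step I1 (RV.ext E1 ps)
      (RV.ext E1 hx) (by omega)
    have G2 := (hG.step (w := w) (ρ := ρ)).iter (w := w) (ρ := ρ) j1
    have := E2.1
    have I3 := step_p1 (w := w) (ρ := ρ) G2 I2 (by omega) (by omega) (by omega)
      ((E2.2 _ (by omega)).trans f0)
    rw [E2.2 (hp + 1) (by omega), E2.2 (hp + 1 + 1) (by omega), E2.2 (hp + 1 + 1 + 1) (by omega),
      f1, f2, f3] at I3
    generalize hm3 : Function.update (Function.update (Function.update m2 hp2 2) (hp2 + 1) y)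
      (hp2 + 1 + 1 + 1) k = m3 at I3
    have g0 : m3 hp2 = 2 := by
      subst hm3; simp (disch := omega) only [Function.update_of_ne, Function.update_self]
    have g1 : m3 (hp2 + 1) = y := by
      subst hm3; simp (disch := omega) only [Function.update_of_ne, Function.update_self]
    have g3 : m3 (hp2 + 1 + 1 + 1) = k := by subst hm3; simp
    have E3 : Ext m2 hp2 m3 (hp2 + 1 + 1 + 1 + 1) := by
      subst hm3
      refine ⟨by omega, fun i hi => ?_⟩
      simp (disch := omega) only [Function.update_of_ne]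
    have E13 := (E1.trans E2).trans E3
    obtain ⟨j2, hj2, z, hp4, m4, I4, rz, b4, E4⟩ := ih2 _ _ _ _ _ _ G2.step I3 (RV.ext E13 pt)
      (RV.ext E13 hx) (by omega)
    have G4 := (G2.step (w := w) (ρ := ρ)).iter (w := w) (ρ := ρ) j2
    have := E4.1
    have I5 := step_p2 (w := w) (ρ := ρ) G4 I4 (by omega) (by omega) (by omega)
      ((E4.2 _ (by omega)).trans g0)
    rw [E4.2 (hp2 + 1) (by omega), E4.2 (hp2 + 1 + 1 + 1) (by omega), g1, g3] at I5
    generalize hm5 : Function.update (Function.update m4 hp4 y) (hp4 + 1) z = m5 at I5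
    have k0 : m5 hp4 = y := by
      subst hm5; simp (disch := omega) only [Function.update_of_ne, Function.update_self]
    have k1 : m5 (hp4 + 1) = z := by subst hm5; simp
    have E5 : Ext m4 hp4 m5 (hp4 + 1 + 1) := by
      subst hm5
      refine ⟨by omega, fun i hi => ?_⟩
      simp (disch := omega) only [Function.update_of_ne]
    refine ⟨1 + (j2 + (1 + (j1 + 1))), by omega, hp4, hp4 + 1 + 1, m5, ?_, ⟨by omega, by omega, ?_, ?_⟩,
      by omega, (E13.trans E4).trans E5⟩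
    · simp only [Function.iterate_add_apply, Function.iterate_one]
      exact I5
    · rw [k0]; exact RV.ext ((E3.trans E4).trans E5) ry
    · rw [k1]; exact RV.ext E5 rz
  | @comp s t xv yv zv n1 n2 _ _ ih1 ih2 =>
    intro σ c x k hp m hG hI ⟨c1, c2, ⟨c3, c4, c5, c6⟩, p1, p2, ps, pt⟩ hx hw
    have I1 := step_comp (w := w) (ρ := ρ) hG hI (by omega) (by omega) (by omega) (by omega)
      (by omega) c6
    generalize hm1 : Function.update (Function.update (Function.update m hp 0)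
      (hp + 1) (m (m (c + 1)))) (hp + 1 + 1 + 1) k = m1 at I1
    have f0 : m1 hp = 0 := by
      subst hm1; simp (disch := omega) only [Function.update_of_ne, Function.update_self]
    have f1 : m1 (hp + 1) = m (m (c + 1)) := by
      subst hm1; simp (disch := omega) only [Function.update_of_ne, Function.update_self]
    have f3 : m1 (hp + 1 + 1 + 1) = k := by subst hm1; simp
    have E1 : Ext m hp m1 (hp + 1 + 1 + 1 + 1) := by
      subst hm1
      refine ⟨by omega, fun i hi => ?_⟩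
      simp (disch := omega) only [Function.update_of_ne]
    obtain ⟨j1, hj1, y, hp2, m2, I2, ry, b2, E2⟩ := ih1 _ _ _ _ _ _ hG.step I1 (RV.ext E1 pt)
      (RV.ext E1 hx) (by omega)
    have G2 := (hG.step (w := w) (ρ := ρ)).iter (w := w) (ρ := ρ) j1
    have := E2.1
    have I3 := step_cmp (w := w) (ρ := ρ) G2 I2 (by omega) (by omega) ((E2.2 _ (by omega)).trans f0)
    rw [E2.2 (hp + 1) (by omega), E2.2 (hp + 1 + 1 + 1) (by omega), f1, f3] at I3
    have E12 := E1.trans E2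
    obtain ⟨j2, hj2, z, hp4, m4, I4, rz, b4, E4⟩ := ih2 _ _ _ _ _ _ G2.step I3 (RV.ext E12 ps)
      ry (by omega)
    refine ⟨j2 + (1 + (j1 + 1)), by omega, z, hp4, m4, ?_, rz, by omega, E12.trans E4⟩
    simp only [Function.iterate_add_apply, Function.iterate_one]
    exact I4
  | @cond_zero s t xv yv n _ ih =>
    intro σ c x k hp m hG hI ⟨c1, c2, ⟨c3, c4, c5, c6⟩, p1, p2, ps, pt⟩
      ⟨x1, x2, ⟨b1, b2, b3, b4⟩, hx⟩ hw
    have I1 := step_cond0 (w := w) (ρ := ρ) hG hI (by omega) (by omega) (by omega) (by omega)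
      (by omega) (by omega) c6 b3 b4
    exact Done.tail (ih _ _ _ _ _ _ hG.step I1 pt hx (by omega))
  | @cond_ne s t b xv yv n hb _ ih =>
    intro σ c x k hp m hG hI ⟨c1, c2, ⟨c3, c4, c5, c6⟩, p1, p2, ps, pt⟩ ⟨x1, x2, rb, hx⟩ hw
    have I1 : Is (den w ρ core σ) (m (m (c + 1))) (m (x + 1)) k hp m := by
      cases b with
      | leaf q =>
        obtain ⟨b1, b2, b3, b4⟩ := rb
        refine step_cond1 hG hI (by omega) (by omega) (by omega) (by omega) (by omega) c6 b3 ?_
        rw [b4]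
        rintro rfl
        exact hb rfl
      | node b1 b2 =>
        exact step_cond2 hG hI (by omega) (by omega) (by omega) (by omega) c6 rb.2.2.1.pos.ne'
    exact Done.tail (ih _ _ _ _ _ _ hG.step I1 ps hx (by omega))
  | @app t xv yv n _ ih =>
    intro σ c x k hp m hG hI ⟨c1, c2, ⟨c3, c4, c5, c6⟩, _⟩ ⟨x1, x2, rt, hx⟩ hw
    have I1 := step_app (w := w) (ρ := ρ) hG hI (by omega) (by omega) (by omega) (by omega) c6
    exact Done.tail (ih _ _ _ _ _ _ hG.step I1 rt hx (by omega))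
  | op o a b hv =>
    intro σ c x k hp m hG hI ⟨c1, c2, ⟨c3, c4, c5, c6⟩, _⟩
      ⟨x1, x2, ⟨a1, a2, a3, a4⟩, ⟨b1, b2, b3, b4⟩⟩ hw
    have I1 := step_op (w := w) (ρ := ρ) o hG hI (by omega) (by omega) (by omega) (by omega)
      (by omega) (by omega) (by omega) c6 (by rw [a4, b4]; exact hv)
    rw [a4, b4] at I1
    refine Done.one I1 ⟨by omega, by omega, ?_, ?_⟩ (by omega) ⟨by omega, fun i hi => ?_⟩
    · simp
    · simp
    · simp (disch := omega) only [Function.update_of_ne]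

end Crest.Agent.N325.Mach
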