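import Crest.Agent.N325.M0.Interp3

/-!
# N325 / M0: the interpreter loop, building values on the heap
-/

set_option autoImplicit false

namespace Crest.Agent.N325.Mach

open Crest.Agent.R309.RAM

variable {w : ℕ} {ρ : ℕ → ℕ}

theorem loop_exit {c : Cond} {p : Prog} {σ : St} {Q : St → Prop} (hc : c.eval σ) (hQ : Q σ) :
    Runs w ρ (.loop c p) σ 1 Q :=
  ⟨σ, 1, Ex.loop_done hc, le_rfl, hQ⟩

theorem loop_den {c : Cond} {p : Prog} {σ : St} {Q : St → Prop} {n : ℕ} (hl : lf p)
    (hc : ¬c.eval σ) (h : Runs w ρ (.loop c p) (den w ρ p σ) n Q) :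
    Runs w ρ (.loop c p) σ (n + (p.len + 2)) Q := by
  obtain ⟨σ1, t1, e1, b1, rfl⟩ := runs_den w ρ hl σ
  obtain ⟨σ2, t2, e2, b2, hQ⟩ := h
  exact ⟨σ2, _, Ex.loop_step hc e1 e2, by omega, hQ⟩

/-- the interpreter -/
def interp : Prog := .loop (.zero 6) core

/-- the cost of one round -/
def cL : ℕ := core.len + 2

theorem Is.self (σ : St) : Is σ (σ.regs 2) (σ.regs 3) (σ.regs 4) (σ.regs 5) σ.mem :=
  ⟨rfl, rfl, rfl, rfl, rfl⟩

theorem iter_done {σ : St} {x h : ℕ} {m : ℕ → ℕ} (hG : Good σ) (hI : Is σ 0 x 0 h m) (j : ℕ) :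
    Is ((den w ρ core)^[j] σ) 0 x 0 h m := by
  induction j with
  | zero => exact hI
  | succ j ih =>
    rw [Function.iterate_succ_apply']
    exact step_done (hG.iter j) ih

theorem interp_good {y h : ℕ} {m : ℕ → ℕ} : ∀ (j : ℕ) (σ : St), Good σ →
    Is ((den w ρ core)^[j] σ) 0 y 0 h m → j * σ.regs 7 < σ.regs 6 →
    Runs w ρ interp σ (cL * (j + 1) + 1) fun σ' => Is σ' 0 y 0 h m := by
  have fin : ∀ (j : ℕ) (σ : St), Good σ → Is ((den w ρ core)^[j] σ) 0 y 0 h m → 0 < σ.regs 6 →
      σ.regs 2 = 0 → σ.regs 4 = 0 →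
      Runs w ρ interp σ (cL * (j + 1) + 1) fun σ' => Is σ' 0 y 0 h m := by
    intro j σ hG hI h6 h2 h4
    have I0 : Is σ 0 (σ.regs 3) 0 (σ.regs 5) σ.mem := ⟨h2, rfl, h4, rfl, rfl⟩
    have I1 := iter_done (w := w) (ρ := ρ) hG I0 j
    have I2 := step_done (w := w) (ρ := ρ) hG I0
    rw [← I1.x, ← I1.h, ← I1.m, hI.x, hI.h, hI.m] at I2
    refine (loop_den (c := .zero 6) (σ := σ) lf_core (show ¬σ.regs 6 = 0 by omega)
      (loop_exit (c := .zero 6) (σ := den w ρ core σ) (fuel_done hG h2 h4) I2)).mono ?_ fun _ h => h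
    unfold cL
    rw [Nat.mul_succ]
    omega
  intro j
  induction j with
  | zero => exact fun σ hG hI h6 => fin 0 σ hG hI (by omega) hI.c hI.k
  | succ j ih =>
    intro σ hG hI h6
    by_cases hd : σ.regs 2 = 0 ∧ σ.regs 4 = 0
    · exact fin _ σ hG hI (by omega) hd.1 hd.2
    · rw [Function.iterate_succ_apply] at hI
      have e7 : (den w ρ core σ).regs 7 = σ.regs 7 := den_keep lf_core (by decide) σ
      have := ih _ hG.step hI (by
        rw [fuel_run hd, e7]
        rw [Nat.succ_mul] at h6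
        omega)
      refine (loop_den (c := .zero 6) (σ := σ) lf_core (show ¬σ.regs 6 = 0 by omega) this).mono ?_
        fun _ h => h
      unfold cL
      rw [Nat.mul_succ _ (j + 1)]
      omega

theorem interp_any : ∀ (F : ℕ) (σ : St), Good σ → σ.regs 7 = 1 → σ.regs 6 ≤ F →
    Runs w ρ interp σ (cL * F + 1) fun _ => True := by
  intro F
  induction F with
  | zero => exact fun σ _ _ h6 => loop_exit (show σ.regs 6 = 0 by omega) trivial
  | succ F ih =>
    intro σ hG h7 h6
    by_cases h0 : σ.regs 6 = 0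
    · exact (loop_exit (c := .zero 6) (σ := σ) h0 trivial).mono (by omega) fun _ h => h
    · have e7 : (den w ρ core σ).regs 7 = σ.regs 7 := den_keep lf_core (by decide) σ
      have := ih _ (hG.step (w := w) (ρ := ρ)) (e7.trans h7) (by
        by_cases hd : σ.regs 2 = 0 ∧ σ.regs 4 = 0
        · rw [fuel_done hG hd.1 hd.2]; omega
        · rw [fuel_run hd]; omega)
      refine (loop_den (c := .zero 6) (σ := σ) lf_core h0 this).mono ?_ fun _ h => h
      unfold cL
      rw [Nat.mul_succ]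
      omega

/-- evaluation of a term by the interpreter, from an empty continuation -/
theorem interp_ev {t : Tm} {xv yv : V} {n : ℕ} (h : Ev (2 ^ w) t xv yv n) {σ : St}
    {c x hp : ℕ} {m : ℕ → ℕ} (hG : Good σ) (hI : Is σ c x 0 hp m) (hc : RV m hp t.enc c)
    (hx : RV m hp xv x) (hw : hp + 12 * n < 2 ^ w) (hf : 3 * n * σ.regs 7 < σ.regs 6) :
    Runs w ρ interp σ (cL * (3 * n + 1) + 1) fun σ' => ∃ y hp' m', Is σ' 0 y 0 hp' m' ∧
      RV m' hp' yv y ∧ hp' ≤ hp + 12 * n ∧ Ext m hp m' hp' := by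
  obtain ⟨k, hk, h⟩ := h
  obtain ⟨j, hj, y, hp', m', I, r, b, E⟩ := sim (ρ := ρ) h σ c x 0 hp m hG hI hc hx (by omega)
  have h1 : j * σ.regs 7 ≤ 3 * n * σ.regs 7 := Nat.mul_le_mul_right _ (by omega)
  refine (interp_good j σ hG I (by omega)).mono ?_ fun σ' h' => ⟨y, hp', m', h', r, by omega, E⟩
  exact Nat.succ_le_succ (Nat.mul_le_mul_left _ (by omega))

/-- number of cells of a value -/
def sz : V → ℕ
  | .leaf _ => 2
  | .node a b => 2 + sz a + sz b

/-- largest leaf -/
def mx : V → ℕ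
  | .leaf n => n
  | .node a b => max (mx a) (mx b)

/-- code that writes a value at the top of the heap -/
def bld : V → List Op
  | .leaf n => [.store 8 5, .add 15 5 9, .const 14 n, .store 14 15, .add 5 15 9]
  | .node a b => [.add 14 5 10, .store 14 5, .add 15 5 9, .const 14 (2 + sz a), .add 14 5 14,
      .store 14 15, .add 5 15 9] ++ (bld a ++ bld b)

theorem bld_keep {r : ℕ} (h5 : r ≠ 5) (h14 : r ≠ 14) (h15 : r ≠ 15) (v : V) :
    ∀ i ∈ bld v, opKeep r i := by
  induction v with
  | leaf n => simp [bld, opKeep, h5.symm, h14.symm, h15.symm]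
  | node a b iha ihb =>
    intro i hi
    simp only [bld, List.mem_append] at hi
    rcases hi with hi | hi | hi
    · revert i; simp [opKeep, h5.symm, h14.symm, h15.symm]
    · exact iha i hi
    · exact ihb i hi

theorem bld_ok (v : V) : ∀ i ∈ bld v, i.ok 20 := by
  induction v with
  | leaf n => simp [bld, Op.ok]
  | node a b iha ihb =>
    intro i hi
    simp only [bld, List.mem_append] at hi
    rcases hi with hi | hi | hi
    · revert i; simp [Op.ok]
    · exact iha i hi
    · exact ihb i hi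

theorem effs_append (l l' : List Op) (σ : St) :
    effs w ρ (l ++ l') σ = effs w ρ l' (effs w ρ l σ) := List.foldl_append ..

theorem Good.effs {l : List Op} {σ : St} (hG : Good σ) (h8 : ∀ i ∈ l, opKeep 8 i)
    (h9 : ∀ i ∈ l, opKeep 9 i) (h10 : ∀ i ∈ l, opKeep 10 i) : Good (effs w ρ l σ) :=
  ⟨(effs_keep h8 σ).trans hG.zero, (effs_keep h9 σ).trans hG.one, (effs_keep h10 σ).trans hG.two⟩

theorem Good.bld {σ : St} (hG : Good σ) (v : V) : Good (R309.RAM.effs w ρ (bld v) σ) :=
  hG.effs (bld_keep (by omega) (by omega) (by omega) v) (bld_keep (by omega) (by omega) (by omega) v)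
    (bld_keep (by omega) (by omega) (by omega) v)

theorem sz_pos (v : V) : 2 ≤ sz v := by
  cases v <;> simp only [sz] <;> omega

theorem bld_spec (v : V) : ∀ (σ : St) (h : ℕ), Good σ → σ.regs 5 = h → 0 < h →
    h + sz v < 2 ^ w → mx v < 2 ^ w →
    (effs w ρ (bld v) σ).regs 5 = h + sz v ∧ RV (effs w ρ (bld v) σ).mem (h + sz v) v h ∧
      Ext σ.mem h (effs w ρ (bld v) σ).mem (h + sz v) ∧ (effs w ρ (bld v) σ).drawn = σ.drawn := by
  induction v with
  | leaf n =>
    intro σ h hG h5 h0 hs hm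
    simp only [sz, mx] at hs hm
    simp (disch := omega) only [bld, sz, effs_cons, effs_nil, Op.eff, Function.update_apply,
      Nat.reduceEqDiff, ↓reduceIte, h5, hG.zero, hG.one, Nat.mod_eq_of_lt, RV, Ext, true_and,
      and_true]
    refine ⟨⟨h0, by omega, ?_⟩, by omega, fun i hi => ?_⟩
    · rw [if_neg (by omega)]
    · rw [if_neg (by omega), if_neg (by omega)]
  | node a b iha ihb =>
    intro σ h hG h5 h0 hs hm
    simp only [sz, mx, max_lt_iff] at hs hm
    have ha := sz_pos a
    have hb := sz_pos b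
    rw [bld, effs_append, effs_append]
    generalize hσ1 : effs w ρ [.add 14 5 10, .store 14 5, .add 15 5 9, .const 14 (2 + sz a),
      .add 14 5 14, .store 14 15, .add 5 15 9] σ = σ1
    have G1 : Good σ1 := by
      subst hσ1
      exact hG.effs (by simp [opKeep]) (by simp [opKeep]) (by simp [opKeep])
    have k1 : σ1.regs 5 = h + 2 ∧ σ1.mem = Function.update (Function.update σ.mem h (h + 2)) (h + 1)
        (h + (2 + sz a)) ∧ σ1.drawn = σ.drawn := by
      subst hσ1
      simp (disch := omega) only [effs_cons, effs_nil, Op.eff, Function.update_apply,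
        Nat.reduceEqDiff, ↓reduceIte, h5, hG.one, hG.two, Nat.mod_eq_of_lt, and_self]
    obtain ⟨a1, a2, a3, a4⟩ := iha σ1 (h + 2) G1 k1.1 (by omega) (by omega) hm.1
    obtain ⟨b1, b2, b3, b4⟩ := ihb _ _ (G1.bld a) a1 (by omega) (by omega) hm.2
    have E1 : Ext σ.mem h σ1.mem (h + 2) := by
      rw [k1.2.1]
      refine ⟨by omega, fun i hi => ?_⟩
      simp (disch := omega) only [Function.update_of_ne]
    have e : h + sz (.node a b) = h + 2 + sz a + sz b := by simp only [sz]; omega
    rw [e]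
    refine ⟨b1, ⟨h0, by omega, ?_, ?_⟩, (E1.trans a3).trans b3, by rw [b4, a4, k1.2.2]⟩
    · rw [(a3.trans b3).2 h (by omega), k1.2.1, Function.update_of_ne (by omega),
        Function.update_self]
      exact RV.ext b3 a2
    · rw [(a3.trans b3).2 (h + 1) (by omega), k1.2.1, Function.update_self,
        show h + (2 + sz a) = h + 2 + sz a by omega]
      exact b2

end Crest.Agent.N325.Mach
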