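import Crest.Agent.N325.M0.Interp4

/-!
# N325 / M0: reading a list of words onto the heap, writing a list out
-/

set_option autoImplicit false

namespace Crest.Agent.N325.Mach

open Crest.Agent.R309.RAM

variable {w : ℕ} {ρ : ℕ → ℕ}

theorem RV_nats {m : ℕ → ℕ} {h : ℕ} : ∀ (l : List ℕ) (b : ℕ), 0 < b → b + 4 * l.length + 2 ≤ h →
    (∀ j (hj : j < l.length), m (b + 4 * j) = b + 4 * j + 2 ∧ m (b + 4 * j + 1) = b + 4 * j + 4 ∧
      m (b + 4 * j + 2) = 0 ∧ m (b + 4 * j + 3) = l[j]) →
    m (b + 4 * l.length) = 0 → m (b + 4 * l.length + 1) = 0 → RV m h (V.nats l) b := by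
  intro l
  induction l with
  | nil => exact fun b h0 h1 _ h2 h3 => ⟨h0, by simpa using h1, by simpa using h2, by simpa using h3⟩
  | cons a l ih =>
    intro b h0 h1 hd h2 h3
    rw [List.length_cons] at h1 h2 h3
    obtain ⟨d1, d2, d3, d4⟩ := hd 0 (by simp)
    simp only [Nat.mul_zero, Nat.add_zero, List.getElem_cons_zero] at d1 d2 d3 d4
    refine ⟨h0, by omega, ?_, ?_⟩
    · rw [d1]
      exact ⟨by omega, by omega, d3, d4⟩
    · rw [d2]
      refine ih (b + 4) (by omega) (by omega) (fun j hj => ?_) ?_ ?_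
      · have := hd (j + 1) (by simpa using hj)
        rw [List.getElem_cons_succ, show b + 4 * (j + 1) = b + 4 + 4 * j by omega] at this
        exact this
      · rw [← h2]; congr 1; omega
      · rw [← h3]; congr 1; omega

/-- one cell of a list; the entry is in register 14 -/
def cell : List Op :=
  [.add 15 5 10, .store 15 5, .add 18 15 10, .add 19 5 9, .store 18 19, .store 8 15, .add 15 15 9,
    .store 14 15, .copy 5 18, .add 16 16 9]

/-- build the list of the values produced by `src`; the length is in register 17 -/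
def mkList (src : List Op) : Prog :=
  .seq (.blk [.copy 16 8]) (.seq (.loop (.eq 16 17) (.blk (src ++ cell))) (.blk (bld (.leaf 0))))

theorem mkList_spec {src : List Op} {val d : ℕ → ℕ} {m0 : ℕ → ℕ} {b L : ℕ}
    (hsrc : ∀ (σ : St) (i : ℕ), i < L → Good σ → σ.regs 16 = i → (∀ a < b, σ.mem a = m0 a) →
      σ.drawn = d i → effs w ρ src σ = ⟨Function.update σ.regs 14 (val i), σ.mem, d (i + 1)⟩)
    {σ : St} (hG : Good σ) (h5 : σ.regs 5 = b) (h17 : σ.regs 17 = L) (hm : σ.mem = m0)
    (hd : σ.drawn = d 0) (h0 : 0 < b) (hw : b + 4 * L + 4 < 2 ^ w) :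
    Runs w ρ (mkList src) σ (7 + L * (src.length + 12)) fun σ' => Good σ' ∧
      σ'.regs 5 = b + 4 * L + 2 ∧ RV σ'.mem (b + 4 * L + 2) (V.nats ((List.range L).map val)) b ∧
      Ext m0 b σ'.mem (b + 4 * L + 2) ∧ σ'.drawn = d L := by
  let I : ℕ → St → Prop := fun k τ => ∃ i, i + k = L ∧ Good τ ∧ τ.regs 5 = b + 4 * i ∧
    τ.regs 16 = i ∧ τ.regs 17 = L ∧ (∀ a < b, τ.mem a = m0 a) ∧ τ.drawn = d i ∧
    ∀ j < i, τ.mem (b + 4 * j) = b + 4 * j + 2 ∧ τ.mem (b + 4 * j + 1) = b + 4 * j + 4 ∧
      τ.mem (b + 4 * j + 2) = 0 ∧ τ.mem (b + 4 * j + 3) = val j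
  have hloop := Runs.loop (w := w) (ρ := ρ) (c := .eq 16 17) (p := .blk (src ++ cell))
    (m := src.length + 10) (I := I) (fun τ ⟨i, h1, _, _, h3, h4, _⟩ => by
      show τ.regs 16 = τ.regs 17
      omega) (fun k τ ⟨i, h1, G, h2, h3, h4, h6, h7, h8⟩ => by
      refine ⟨by show ¬τ.regs 16 = τ.regs 17; omega, ?_⟩
      refine (Runs.blk _ ?_).mono (by simp [cell]) fun _ h => h
      rw [effs_append, hsrc τ i (by omega) G h3 h6 h7]
      obtain ⟨g0, g1, g2⟩ := G
      refine ⟨i + 1, by omega, ?_⟩
      simp (disch := omega) only [cell, effs_cons, effs_nil, Op.eff, Function.update_apply,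
        Nat.reduceEqDiff, ↓reduceIte, h2, h3, h4, g0, g1, g2, Nat.mod_eq_of_lt, true_and]
      refine ⟨⟨?_, ?_, ?_⟩, by omega, fun a ha => ?_, fun j hj => ?_⟩
      · simp only [Function.update_apply, Nat.reduceEqDiff, ↓reduceIte, g0]
      · simp only [Function.update_apply, Nat.reduceEqDiff, ↓reduceIte, g1]
      · simp only [Function.update_apply, Nat.reduceEqDiff, ↓reduceIte, g2]
      · simp (disch := omega) only [if_neg, h6 a ha]
      · by_cases hji : j = i
        · subst hji
          simp (disch := omega) only [if_neg, if_pos, ↓reduceIte, and_self, true_and]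
        · simp (disch := omega) only [if_neg]
          exact h8 j (by omega))
  have s1 : Runs w ρ (.blk [.copy 16 8]) σ 1 (I L) := by
    refine Runs.blk _ ⟨0, by omega, hG.effs (by simp [opKeep]) (by simp [opKeep]) (by simp [opKeep]),
      ?_⟩
    simp only [effs_cons, effs_nil, Op.eff, Function.update_apply, Nat.reduceEqDiff, ↓reduceIte,
      h5, h17, hG.zero, hm, hd, Nat.mul_zero, Nat.add_zero, implies_true, true_and]
    exact fun j hj => absurd hj (by omega)
  refine (s1.seq fun τ hτ => (hloop L τ hτ).seq (m := 5) fun τ' ⟨i, h1, G, h2, h3, h4, h6, h7, h8⟩ =>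
    Runs.blk _ ?_).mono (by rw [show src.length + 10 + 2 = src.length + 12 by omega]; omega)
    fun _ h => h
  obtain rfl : i = L := by omega
  obtain ⟨a1, a2, a3, a4⟩ := bld_spec (w := w) (ρ := ρ) (.leaf 0) τ' (b + 4 * i) G h2 (by omega)
    (by simp only [sz]; omega) (by simp only [mx]; omega)
  simp only [sz] at a1 a2 a3
  refine ⟨G.bld _, a1, RV_nats _ b h0 (by simp) (fun j hj => ?_) ?_ ?_,
    ⟨by omega, fun a ha => (a3.2 a (by omega)).trans (h6 a ha)⟩, a4.trans h7⟩
  · simp only [List.length_map, List.length_range] at hj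
    rw [a3.2 _ (by omega), a3.2 _ (by omega), a3.2 _ (by omega), a3.2 _ (by omega),
      List.getElem_map, List.getElem_range]
    exact h8 j hj
  · simpa using a2.2.2.1
  · simpa using a2.2.2.2

/-- one round of the output loop -/
def outB : Prog :=
  .seq (.blk [.load 14 3]) (.ite (.zero 14) (.blk [.copy 6 8])
    (.blk [.add 14 14 9, .load 14 14, .store 14 5, .add 5 5 9, .add 0 0 9, .add 3 3 9, .load 3 3,
      .sub 6 6 9]))

theorem lf_outB : lf outB := by simp only [outB, lf, and_self]

theorem len_outB : outB.len = 12 := rfl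

theorem out_any : ∀ (F : ℕ) (σ : St), Good σ → σ.regs 6 ≤ F →
    Runs w ρ (.loop (.zero 6) outB) σ (14 * F + 1) fun _ => True := by
  intro F
  induction F with
  | zero => exact fun σ _ h6 => loop_exit (show σ.regs 6 = 0 by omega) trivial
  | succ F ih =>
    intro σ hG h6
    by_cases h0 : σ.regs 6 = 0
    · exact (loop_exit (c := .zero 6) (σ := σ) h0 trivial).mono (by omega) fun _ h => h
    · have G : Good (den w ρ outB σ) :=
        ⟨(den_keep lf_outB (by decide) σ).trans hG.zero, (den_keep lf_outB (by decide) σ).trans hG.one,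
          (den_keep lf_outB (by decide) σ).trans hG.two⟩
      have := ih _ G (by
        by_cases hz : σ.mem (σ.regs 3) = 0 <;>
          simp only [outB, den, Cond.eval, effs_cons, effs_nil, Op.eff, Function.update_apply,
            Nat.reduceEqDiff, ↓reduceIte, hz, hG.zero, hG.one] <;> omega)
      refine (loop_den (c := .zero 6) (σ := σ) lf_outB h0 this).mono ?_ fun _ h => h
      rw [len_outB]
      omega

theorem out_good {h0 : ℕ} : ∀ (l2 l1 : List ℕ) (σ : St), Good σ → RV σ.mem h0 (V.nats l2) (σ.regs 3) →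
    σ.regs 0 = l1.length → σ.regs 5 = h0 + l1.length → l2.length ≤ σ.regs 6 →
    (∀ i (hi : i < l1.length), σ.mem (h0 + i) = l1[i]) → h0 + l1.length + l2.length < 2 ^ w →
    Runs w ρ (.loop (.zero 6) outB) σ (14 * (l2.length + 1) + 1) fun σ' =>
      σ'.regs 0 = (l1 ++ l2).length ∧ ∀ i (hi : i < (l1 ++ l2).length), σ'.mem (h0 + i) = (l1 ++ l2)[i] := by
  intro l2
  induction l2 with
  | nil =>
    intro l1 σ hG r e0 e5 e6 hm hw
    simp only [List.append_nil]
    by_cases h6 : σ.regs 6 = 0
    · exact (loop_exit (c := .zero 6) (σ := σ) h6 ⟨e0, hm⟩).mono (by omega) fun _ h => h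
    · have hz : σ.mem (σ.regs 3) = 0 := r.2.2.1
      refine (loop_den (c := .zero 6) (σ := σ) lf_outB h6 (loop_exit ?_ ?_)).mono
        (by rw [len_outB]; simp) fun _ h => h
      · simp only [outB, den, Cond.eval, effs_cons, effs_nil, Op.eff, Function.update_apply,
          Nat.reduceEqDiff, ↓reduceIte, hz, hG.zero]
      · simp only [outB, den, Cond.eval, effs_cons, effs_nil, Op.eff, Function.update_apply,
          Nat.reduceEqDiff, ↓reduceIte, hz, hG.zero]
        exact ⟨e0, hm⟩
  | cons a l2 ih =>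
    intro l1 σ hG ⟨r1, r2, ⟨r3, r4, r5, r6⟩, r7⟩ e0 e5 e6 hm hw
    rw [List.length_cons] at e6 hw
    have hz : ¬σ.mem (σ.regs 3) = 0 := by omega
    have G : Good (den w ρ outB σ) :=
      ⟨(den_keep lf_outB (by decide) σ).trans hG.zero, (den_keep lf_outB (by decide) σ).trans hG.one,
        (den_keep lf_outB (by decide) σ).trans hG.two⟩
    have k : (den w ρ outB σ).mem = Function.update σ.mem (h0 + l1.length) a ∧
        (den w ρ outB σ).regs 3 = σ.mem (σ.regs 3 + 1) ∧
        (den w ρ outB σ).regs 0 = l1.length + 1 ∧ (den w ρ outB σ).regs 5 = h0 + l1.length + 1 ∧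
        (den w ρ outB σ).regs 6 = σ.regs 6 - 1 := by
      simp (disch := omega) only [outB, den, Cond.eval, effs_cons, effs_nil, Op.eff,
        Function.update_apply, Nat.reduceEqDiff, ↓reduceIte, hz, hG.one, e0, e5, r6,
        Nat.mod_eq_of_lt, if_neg, and_self]
    obtain ⟨k1, k2, k3, k4, k5⟩ := k
    have := ih (l1 ++ [a]) _ G (by
        rw [k1, k2]
        exact RV.ext ⟨le_rfl, fun i hi => Function.update_of_ne (by omega) _ _⟩ r7)
      (by rw [k3]; simp) (by rw [k4]; simp; omega) (by omega) (by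
        intro i hi
        rw [k1]
        simp only [List.length_append, List.length_singleton] at hi
        by_cases hi' : i < l1.length
        · rw [Function.update_of_ne (by omega), List.getElem_append_left hi', hm i hi']
        · obtain rfl : i = l1.length := by omega
          simp) (by simp; omega)
    simp only [List.append_assoc, List.singleton_append] at this
    refine (loop_den (c := .zero 6) (σ := σ) lf_outB (show ¬σ.regs 6 = 0 by omega) this).mono ?_
      fun _ h => h
    rw [len_outB, List.length_cons]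
    omega

end Crest.Agent.N325.Mach
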