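import Crest.Agent.N325.M0.Eta

/-!
# N325 / M0 (helper34): slowly growing parameters

`lev N → ∞` so slowly that `(log N) ^ 2 ^ 2 ^ (c * lev N) = N ^ o(1)`; `rt L N ≈ N ^ (1 / L)`.
-/

set_option autoImplicit false

namespace Crest.Agent.N325

open Filter

/-- `a = o(b)` -/
def Neg (a b : ℕ → ℕ) : Prop := ∀ k : ℕ, ∀ᶠ N in atTop, k * a N ≤ b N

theorem Neg.mono {a a' b b' : ℕ → ℕ} (h : Neg a b) (ha : ∀ᶠ N in atTop, a' N ≤ a N)
    (hb : ∀ᶠ N in atTop, b N ≤ b' N) : Neg a' b' := fun k => by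
  filter_upwards [h k, ha, hb] with N h1 h2 h3
  exact ((Nat.mul_le_mul_left k h2).trans h1).trans h3

theorem Neg.le {a a' b : ℕ → ℕ} (h : Neg a b) (ha : ∀ N, a' N ≤ a N) : Neg a' b :=
  h.mono (.of_forall ha) (.of_forall fun _ => le_rfl)

theorem Neg.add {a a' b : ℕ → ℕ} (h : Neg a b) (h' : Neg a' b) : Neg (fun N => a N + a' N) b :=
  fun k => by
    filter_upwards [h (2 * k), h' (2 * k)] with N h1 h2
    rw [mul_assoc] at h1 h2
    rw [mul_add]; omega

theorem Neg.const_mul {a b : ℕ → ℕ} (h : Neg a b) (c : ℕ) : Neg (fun N => c * a N) b :=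
  fun k => (h (k * c)).mono fun N h => by rwa [mul_assoc] at h

theorem Neg.const {b : ℕ → ℕ} (h : Tendsto b atTop atTop) (c : ℕ) : Neg (fun _ => c) b :=
  fun k => h.eventually_ge_atTop (k * c)

theorem Neg.mul_right {a b : ℕ → ℕ} (h : Neg a b) (c : ℕ → ℕ) :
    Neg (fun N => a N * c N) fun N => b N * c N := fun k => (h k).mono fun N h => by
  rw [← mul_assoc]; exact Nat.mul_le_mul_right _ h

theorem Neg.comp {a b f : ℕ → ℕ} (h : Neg a b) (hf : Tendsto f atTop atTop) :
    Neg (fun N => a (f N)) fun N => b (f N) := fun k => hf.eventually (h k)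

theorem Neg.pow_lt {L : ℕ → ℕ} (h : Tendsto L atTop atTop) {i j : ℕ} (hij : i < j) :
    Neg (fun N => L N ^ i) fun N => L N ^ j := fun k => by
  filter_upwards [h.eventually_ge_atTop (k + 1)] with N hN
  calc k * L N ^ i ≤ L N * L N ^ i := Nat.mul_le_mul_right _ (by omega)
    _ = L N ^ (i + 1) := by ring
    _ ≤ _ := Nat.pow_le_pow_right (by omega) hij

theorem tendsto_log2 : Tendsto (Nat.log 2) atTop atTop :=
  tendsto_atTop.2 fun b => (eventually_ge_atTop (2 ^ b)).mono fun _ h =>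
    Nat.le_log_of_pow_le one_lt_two h

/-- a function that is eventually below a subpolynomial one -/
theorem SubP.of_eventually {G H : ℕ → ℕ} (h : SubP H) (k : ∀ᶠ N in atTop, G N ≤ H N) : SubP G := by
  obtain ⟨M, hM⟩ := eventually_atTop.1 k
  refine (h.add (SubP.const (∑ N ∈ Finset.range M, G N))).mono fun N _ => ?_
  by_cases e : N < M
  · exact (Finset.single_le_sum (f := G) (fun _ _ => Nat.zero_le _) (Finset.mem_range.2 e)).trans
      (Nat.le_add_left _ _)
  · exact (hM N (by omega)).trans (Nat.le_add_right _ _)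

/-- **`2 ^ o(log N) = N ^ o(1)`** -/
theorem SubP.two_pow {E : ℕ → ℕ} (h : Neg E (Nat.log 2)) : SubP fun N => 2 ^ E N := by
  intro ε e
  obtain ⟨M, hM⟩ := eventually_atTop.1 (h ⌈ε⁻¹⌉₊)
  refine ⟨1 + ∑ N ∈ Finset.range M, (2 : ℝ) ^ E N, fun N hN => ?_⟩
  have h1 : (1 : ℝ) ≤ N := by exact_mod_cast hN
  have h2 := Real.one_le_rpow h1 e.le
  have h3 : (0 : ℝ) ≤ ∑ N ∈ Finset.range M, (2 : ℝ) ^ E N := by positivity
  push_cast
  by_cases k : N < M
  · have := Finset.single_le_sum (f := fun N => (2 : ℝ) ^ E N) (fun _ _ => by positivity)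
      (Finset.mem_range.2 k)
    nlinarith
  · have h4 : (E N : ℝ) ≤ Nat.log 2 N * ε := by
      have a1 : (⌈ε⁻¹⌉₊ : ℝ) * E N ≤ Nat.log 2 N := by exact_mod_cast hM N (by omega)
      have a2 : ε⁻¹ * E N ≤ Nat.log 2 N :=
        (mul_le_mul_of_nonneg_right (Nat.le_ceil _) (by positivity)).trans a1
      rwa [inv_mul_le_iff₀ e, mul_comm] at a2
    have h5 : (2 : ℝ) ^ E N ≤ (N : ℝ) ^ ε := by
      rw [← Real.rpow_natCast]
      refine (Real.rpow_le_rpow_of_exponent_le one_le_two h4).trans ?_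
      rw [Real.rpow_mul zero_le_two, Real.rpow_natCast]
      refine Real.rpow_le_rpow (by positivity) ?_ e.le
      exact_mod_cast Nat.pow_log_le_self 2 (by omega)
    nlinarith

/-- a subpolynomial function is negligible -/
theorem SubP.neg {G : ℕ → ℕ} (g : SubP G) : Neg G fun N => N := fun k => by
  obtain ⟨C, hC⟩ := (((SubP.const k).mul g).pow 2) 1 one_pos
  filter_upwards [eventually_ge_atTop (⌈C⌉₊ + 1)] with N hN
  have h := hC N (by omega)
  rw [Real.rpow_one] at h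
  have h2 : (k * G N) ^ 2 ≤ ⌈C⌉₊ * N := by
    exact_mod_cast h.trans (mul_le_mul_of_nonneg_right (Nat.le_ceil C) (by positivity))
  refine (Nat.pow_le_pow_iff_left two_ne_zero).1 (h2.trans ?_)
  rw [sq]; exact Nat.mul_le_mul_right _ (by omega)

/-- `2 ^ G (log N) = N ^ o(1)` for a subpolynomial `G` -/
theorem SubP.two_pow_log {G : ℕ → ℕ} (g : SubP G) : SubP fun N => 2 ^ G (Nat.log 2 N) :=
  SubP.two_pow (g.neg.comp tendsto_log2)

/-- a power with a small exponent -/
theorem SubP.pow_of_neg {a e : ℕ → ℕ}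
    (h : Neg (fun N => (Nat.log 2 (a N) + 1) * e N) (Nat.log 2)) : SubP fun N => a N ^ e N :=
  (SubP.two_pow h).mono fun N _ => by
    rw [pow_mul]
    exact Nat.pow_le_pow_left (Nat.lt_pow_succ_log_self one_lt_two _).le _

/-- the number of levels -/
def lev (N : ℕ) : ℕ := Nat.log 2 (Nat.log 2 (Nat.log 2 (Nat.log 2 N))) + 1

theorem lev_pos (N : ℕ) : 1 ≤ lev N := Nat.le_add_left _ _

theorem lev_mono {N M : ℕ} (h : N ≤ M) : lev N ≤ lev M :=
  Nat.add_le_add_right (Nat.log_mono_right (Nat.log_mono_right (Nat.log_mono_right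
    (Nat.log_mono_right h)))) 1

theorem tendsto_lev : Tendsto lev atTop atTop :=
  (tendsto_add_atTop_nat 1).comp (tendsto_log2.comp (tendsto_log2.comp
    (tendsto_log2.comp tendsto_log2)))

theorem two_pow_log_succ_le (x : ℕ) : 2 ^ (Nat.log 2 x + 1) ≤ 2 * x + 2 := by
  rcases Nat.eq_zero_or_pos x with rfl | h
  · simp
  · have := Nat.pow_log_le_self 2 h.ne'
    rw [pow_succ]; omega

/-- the double exponential of the level, as a function of `log N` -/
theorem SubP.tower (c : ℕ) :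
    SubP fun x => 2 ^ 2 ^ (c * (Nat.log 2 (Nat.log 2 (Nat.log 2 x)) + 1)) :=
  (((((SubP.const 2).mul SubP.log).add (SubP.const 2)).pow c).two_pow_log).mono fun x _ => by
    refine Nat.pow_le_pow_right two_pos ?_
    rw [mul_comm, pow_mul]
    exact Nat.pow_le_pow_left (two_pow_log_succ_le _) c

/-- **the polylogarithmic losses of all levels** -/
theorem SubP.polylog_pow {a : ℕ → ℕ} (c : ℕ) (h : ∀ N, 1 ≤ N → a N ≤ (Nat.log 2 N + 2) ^ c) :
    SubP fun N => a N ^ 2 ^ 2 ^ (c * lev N) := by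
  have k := (((SubP.const c).mul (SubP.log.add (SubP.const 3))).mul (SubP.tower c)).two_pow_log
  refine k.mono fun N hN => ?_
  rw [pow_mul 2 (c * (Nat.log 2 (Nat.log 2 N) + 3))]
  refine Nat.pow_le_pow_left ((h N hN).trans ?_) _
  rw [mul_comm, pow_mul]
  refine Nat.pow_le_pow_left ?_ c
  have := Nat.lt_pow_succ_log_self one_lt_two (Nat.log 2 N)
  rw [pow_succ] at this
  rw [pow_add]; omega

theorem SubP.tower_lev (c : ℕ) : SubP fun N => 2 ^ 2 ^ 2 ^ (c * lev N) :=
  (SubP.polylog_pow (a := fun _ => 2) (c + 1) fun N _ => by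
    rw [pow_succ]
    exact le_trans (by omega) (Nat.le_mul_of_pos_left _ (by positivity))).mono fun N _ =>
      Nat.pow_le_pow_right two_pos (Nat.pow_le_pow_right two_pos (Nat.pow_le_pow_right two_pos
        (Nat.mul_le_mul_right _ (Nat.le_succ c))))

theorem neg_tower_lev (c : ℕ) : Neg (fun N => 2 ^ 2 ^ (c * lev N)) (Nat.log 2) :=
  (SubP.tower c).neg.comp tendsto_log2

theorem neg_lev_pow (i : ℕ) : Neg (fun N => lev N ^ i) (Nat.log 2) :=
  (neg_tower_lev i).le fun N => by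
    refine le_trans ?_ Nat.lt_two_pow_self.le
    rw [mul_comm, pow_mul]
    exact Nat.pow_le_pow_left Nat.lt_two_pow_self.le i

/-- about `N ^ (1 / L)` -/
def rt (L N : ℕ) : ℕ := 2 ^ (Nat.log 2 N / L + 1)

theorem two_le_rt (L N : ℕ) : 2 ≤ rt L N := by
  unfold rt; rw [pow_succ]; have := Nat.one_le_two_pow (n := Nat.log 2 N / L); omega

theorem lt_rt_pow {L : ℕ} (hL : 1 ≤ L) (N : ℕ) : N < rt L N ^ L := by
  unfold rt
  rw [← pow_mul]
  refine (Nat.lt_pow_succ_log_self one_lt_two N).trans_le (Nat.pow_le_pow_right two_pos ?_)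
  have := Nat.lt_div_mul_add (a := Nat.log 2 N) hL
  rw [add_mul, one_mul]; omega

theorem rt_le (L N : ℕ) : rt L N ≤ 2 * N + 2 :=
  (Nat.pow_le_pow_right two_pos (Nat.add_le_add_right (Nat.div_le_self _ _) 1)).trans
    (two_pow_log_succ_le N)

/-- **powers of the root**: `(N ^ (1 / L)) ^ e = N ^ o(1)` if `e = o(L)`, `e = o(log N)` -/
theorem SubP.rt_pow {L e : ℕ → ℕ} (h : Neg e L) (h' : Neg e (Nat.log 2)) :
    SubP fun N => rt (L N) N ^ e N := by
  have k : Neg (fun N => Nat.log 2 N / L N * e N) (Nat.log 2) := fun k => (h k).mono fun N h => by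
    calc k * (Nat.log 2 N / L N * e N) = Nat.log 2 N / L N * (k * e N) := by ring
      _ ≤ Nat.log 2 N / L N * L N := Nat.mul_le_mul_left _ h
      _ ≤ _ := Nat.div_mul_le_self _ _
  refine (SubP.two_pow (k.add h')).mono fun N _ => le_of_eq ?_
  rw [rt, ← pow_mul, add_mul, one_mul]

theorem SubP.rt {L : ℕ → ℕ} (h : Tendsto L atTop atTop) : SubP fun N => rt (L N) N := by
  simpa only [pow_one] using SubP.rt_pow (Neg.const h 1) (Neg.const tendsto_log2 1)

theorem SubP.rt_lev : SubP fun N => N325.rt (lev N) N := SubP.rt tendsto_lev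

/-- two scales: `(N ^ (1 / lev ^ j)) ^ (c * lev ^ i)` with `i < j` -/
theorem SubP.rt_lev_pow {i j : ℕ} (h : i < j) (c : ℕ) :
    SubP fun N => N325.rt (lev N ^ j) N ^ (c * lev N ^ i) :=
  SubP.rt_pow ((Neg.pow_lt tendsto_lev h).const_mul c) ((neg_lev_pow i).const_mul c)

end Crest.Agent.N325
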