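import Crest.Agent.N325.M0.Arr

/-!
# N325 / M0: the loops are implementable; the tactic `impl` (helper68)
-/

set_option autoImplicit false

namespace Crest.Agent.N325

variable {α β γ δ : Type} [Rp α] [Rp β] [Rp γ] [Rp δ] {σ : Bool}

@[fun_prop] theorem Impl.foldL {f : α → β → γ → R γ} {l : α → List β} {s : α → γ}
    (hf : Impl fun p : α × β × γ => f p.1 p.2.1 p.2.2) (hl : Pu true l) (hs : Pu true s) :
    Impl fun a => foldL (f a) (l a) (s a) := by
  let g : α → List β × γ → R γ := fun a c =>
    List.casesOn (motive := fun _ => R γ) c.1 (.ret c.2) fun x l => f a x c.2 >>= N325.foldL (f a) l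
  have e : ∀ a l s, N325.foldL (f a) l s = N325.call (g a) (l, s) := fun a l s => by
    cases l <;> rfl
  have : Impl fun p : α × List β × γ => g p.1 p.2 :=
    Impl.fix (fun a k c => List.casesOn (motive := fun _ => R γ) c.1 (.ret c.2) fun x l =>
      f a x c.2 >>= fun s => N325.call k (l, s)) (fun a c => by simp only [g, ← e]) (by fun_prop)
  exact (Impl.call_known (this.comp (Pu.id.pair (hl.pair hs)))).of_eq fun a => (e a _ _).symm

@[fun_prop] theorem Impl.forN {f : α → ℕ → γ → R γ} {n i : α → ℕ} {s : α → γ}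
    (hf : Impl fun p : α × ℕ × γ => f p.1 p.2.1 p.2.2) (hn : Pu true n) (hi : Pu true i)
    (hs : Pu true s) : Impl fun a => forN (f a) (n a) (i a) (s a) := by
  let g : α → ℕ × ℕ × γ → R γ := fun a c => Nat.casesOn (motive := fun _ => R γ) c.1 (.ret c.2.2)
    fun n => f a c.2.1 c.2.2 >>= N325.forN (f a) n (c.2.1 + 1)
  have e : ∀ a n i s, N325.forN (f a) n i s = N325.call (g a) (n, i, s) := fun a n i s => by
    cases n <;> rfl
  have : Impl fun p : α × ℕ × ℕ × γ => g p.1 p.2 :=
    Impl.fix (fun a k c => Nat.casesOn (motive := fun _ => R γ) c.1 (.ret c.2.2) fun n =>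
      f a c.2.1 c.2.2 >>= fun s => N325.call k (n, c.2.1 + 1, s)) (fun a c => by simp only [g, ← e])
      (by fun_prop)
  exact (Impl.call_known (this.comp (Pu.id.pair (hn.pair (hi.pair hs))))).of_eq
    fun a => (e a _ _ _).symm

@[fun_prop] theorem Impl.whileF {c : α → γ → Bool} {f : α → γ → R γ} {n : α → ℕ} {s : α → γ}
    (hc : Pu false fun p : α × γ => c p.1 p.2) (hf : Impl fun p : α × γ => f p.1 p.2)
    (hn : Pu true n) (hs : Pu true s) : Impl fun a => whileF (c a) (f a) (n a) (s a) := by
  let g : α → ℕ × γ → R γ := fun a x => Nat.casesOn (motive := fun _ => R γ) x.1 (.ret x.2)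
    fun n => if c a x.2 then f a x.2 >>= N325.whileF (c a) (f a) n else .ret x.2
  have e : ∀ a n s, N325.whileF (c a) (f a) n s = N325.call (g a) (n, s) := fun a n s => by
    cases n <;> rfl
  have : Impl fun p : α × ℕ × γ => g p.1 p.2 :=
    Impl.fix (fun a k x => Nat.casesOn (motive := fun _ => R γ) x.1 (.ret x.2) fun n =>
      if c a x.2 then f a x.2 >>= fun s => N325.call k (n, s) else .ret x.2)
      (fun a c => by simp only [g, ← e]) (by fun_prop)
  exact (Impl.call_known (this.comp (Pu.id.pair (hn.pair hs)))).of_eq fun a => (e a _ _).symm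

end Crest.Agent.N325
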