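import Crest.Agent.N325.M0.Interp5

/-!
# N325 / M0: the machine theorem

One word-RAM program evaluates the term `fu` on the input (the fuel `F`), draws `F` random bits,
evaluates the term `e` on the input and the bits for at most `F` steps and prints the result.
-/

set_option autoImplicit false

namespace Crest.Agent.N325.Mach

open Crest.Agent.R309.RAM Crest.WordRAM

variable {w : ℕ} {ρ : ℕ → ℕ}

/-- the instruction draws no random word -/
def opDet : Op → Prop
  | .rand _ => False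
  | _ => True

instance (i : Op) : Decidable (opDet i) := by
  cases i <;> unfold opDet <;> infer_instance

/-- the program draws no random word -/
def det : Prog → Prop
  | .blk l => ∀ i ∈ l, opDet i
  | .seq p q => det p ∧ det q
  | .ite _ p q => det p ∧ det q
  | .loop _ p => det p

instance detDec : (p : Prog) → Decidable (det p)
  | .blk l => by unfold det; infer_instance
  | .seq p q => by unfold det; exact @instDecidableAnd _ _ (detDec p) (detDec q)
  | .ite _ p q => by unfold det; exact @instDecidableAnd _ _ (detDec p) (detDec q)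
  | .loop _ p => by unfold det; exact detDec p

theorem effs_det {l : List Op} (h : ∀ i ∈ l, opDet i) : ∀ σ : St, (effs w ρ l σ).drawn = σ.drawn := by
  induction l with
  | nil => intro σ; rfl
  | cons i l ih =>
    intro σ
    rw [effs_cons, ih fun j hj => h j (List.mem_cons_of_mem _ hj)]
    have := h i List.mem_cons_self
    cases i <;> first | rfl | exact this.elim

theorem Ex_det {p : Prog} {σ σ' : St} {t : ℕ} (h : Ex w ρ p σ σ' t) :
    det p → σ'.drawn = σ.drawn := by
  induction h with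
  | blk l s => exact fun hk => effs_det hk s
  | seq _ _ ih1 ih2 => exact fun hk => (ih2 hk.2).trans (ih1 hk.1)
  | ite_true _ _ ih => exact fun hk => ih hk.1
  | ite_false _ _ ih => exact fun hk => ih hk.2
  | loop_done _ => exact fun _ => rfl
  | loop_step _ _ _ ih1 ih2 => exact fun hk => (ih2 hk).trans (ih1 hk)

theorem runs_det {p : Prog} {σ : St} {n : ℕ} {Q : St → Prop} (h : Runs w ρ p σ n Q) (hd : det p) :
    Runs w ρ p σ n fun σ' => Q σ' ∧ σ'.drawn = σ.drawn := by
  obtain ⟨σ', t, h1, h2, h3⟩ := h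
  exact ⟨σ', t, h1, h2, h3, Ex_det h1 hd⟩

theorem Good.of_keep {p : Prog} {σ σ' : St} (hG : Good σ)
    (h : ∀ r, keep r p → σ'.regs r = σ.regs r) (h8 : keep 8 p) (h9 : keep 9 p) (h10 : keep 10 p) :
    Good σ' :=
  ⟨(h 8 h8).trans hG.zero, (h 9 h9).trans hG.one, (h 10 h10).trans hG.two⟩

/-- read the input, write the two terms -/
def ph1 (e fu : Tm) : Prog :=
  .seq (.blk [.const 8 0, .const 9 1, .const 10 2, .add 5 0 9, .copy 17 0, .copy 11 5])
    (.seq (mkList [.load 14 16]) (.seq (.blk [.copy 2 5]) (.seq (.blk (bld fu.enc))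
      (.seq (.blk [.copy 13 5]) (.seq (.blk (bld e.enc))
        (.blk [.copy 3 11, .copy 4 8, .copy 6 9, .copy 7 8]))))))

/-- draw the tape -/
def ph2 : Prog :=
  .seq (.blk [.add 12 3 9, .load 12 12, .copy 17 12, .copy 3 5])
    (.seq (mkList [.rand 14, .rem 14 14 10])
      (.blk [.store 11 5, .add 15 5 9, .store 3 15, .copy 3 5, .add 5 15 9, .copy 2 13, .copy 4 8,
        .add 6 12 12, .add 6 6 12, .add 6 6 9, .copy 7 9]))

/-- print -/
def ph3 : Prog := .seq (.blk [.copy 1 5, .copy 0 8, .copy 6 12]) (.loop (.zero 6) outB)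

/-- the whole program -/
def whole (e fu : Tm) : Prog := .seq (.seq (ph1 e fu) (.seq interp ph2)) (.seq interp ph3)

theorem whole_ok (e fu : Tm) : (whole e fu).ok 20 :=
  ⟨⟨⟨by decide, by decide, by decide, bld_ok _, by decide, bld_ok _, by decide⟩, by decide,
    by decide⟩, by decide⟩

/-- the initial state -/
def st0 (w : ℕ) (inp : List ℕ) : St :=
  ⟨fun j => if j = 0 then inp.length % 2 ^ w else 0, fun i => inp[i]?.getD 0 % 2 ^ w, 0⟩

theorem ph1_spec (e fu : Tm) {inp : List ℕ} (hin : ∀ a ∈ inp, a < 2 ^ w)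
    (hw : 5 * inp.length + 5 + sz fu.enc + sz e.enc < 2 ^ w) (h1 : mx fu.enc < 2 ^ w)
    (h2 : mx e.enc < 2 ^ w) :
    Runs w ρ (ph1 e fu) (st0 w inp)
      (13 * inp.length + (bld fu.enc).length + (bld e.enc).length + 19) fun σ => Good σ ∧
      σ.regs 4 = 0 ∧ σ.regs 5 = 5 * inp.length + 3 + sz fu.enc + sz e.enc ∧
      RV σ.mem (σ.regs 5) fu.enc (σ.regs 2) ∧ RV σ.mem (σ.regs 5) e.enc (σ.regs 13) ∧
      RV σ.mem (σ.regs 5) (V.nats inp) (σ.regs 11) ∧ σ.regs 3 = σ.regs 11 ∧ σ.regs 6 = 1 ∧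
      σ.regs 7 = 0 ∧ σ.drawn = 0 := by
  have s1 : Runs w ρ (.blk [.const 8 0, .const 9 1, .const 10 2, .add 5 0 9, .copy 17 0, .copy 11 5])
      (st0 w inp) 6 fun σ => Good σ ∧ σ.regs 5 = inp.length + 1 ∧ σ.regs 17 = inp.length ∧
        σ.regs 11 = inp.length + 1 ∧ σ.mem = (st0 w inp).mem ∧ σ.drawn = 0 := by
    refine Runs.blk _ ⟨⟨?_, ?_, ?_⟩, ?_⟩ <;>
      simp (disch := omega) only [st0, effs_cons, effs_nil, Op.eff, Function.update_apply,
        Nat.reduceEqDiff, ↓reduceIte, Nat.mod_eq_of_lt, and_self]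
  have hval : (List.range inp.length).map (fun i => inp[i]?.getD 0) = inp := by
    apply List.ext_getElem (by simp)
    intro i h1 h2
    simp [List.getElem?_eq_getElem h2]
  refine (s1.seq fun σ1 ⟨G1, a5, a17, a11, am, ad⟩ => (Runs.keep (mkList_spec (src := [.load 14 16])
    (val := fun i => inp[i]?.getD 0) (d := fun _ => 0) (m0 := (st0 w inp).mem) (b := inp.length + 1)
    (L := inp.length) ?_ G1 a5 a17 am ad (by omega) (by omega))).seq
    (m := 1 + ((bld fu.enc).length + (1 + ((bld e.enc).length + 4))))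
    fun σ2 ⟨⟨G2, b5, br, _, bd⟩, bk⟩ => ?_).mono
      (by simp only [List.length_cons, List.length_nil]; omega) fun _ h => h
  · intro σ i hi _ h16 hm hd
    simp only [effs_cons, effs_nil, Op.eff, h16, hm i (by omega), st0, hd]
    rw [Nat.mod_eq_of_lt]
    rw [List.getElem?_eq_getElem hi]
    exact hin _ (List.getElem_mem hi)
  rw [hval] at br
  have b11 : σ2.regs 11 = inp.length + 1 := (bk 11 (by decide)).trans a11
  refine (Runs.blk _ (Q := fun σ => σ = _) rfl).seq fun σ3 e3 => ?_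
  have G3 : Good σ3 := e3 ▸ G2.effs (by decide) (by decide) (by decide)
  have c : σ3.regs 2 = σ2.regs 5 ∧ σ3.regs 5 = σ2.regs 5 ∧ σ3.regs 11 = σ2.regs 11 ∧
      σ3.mem = σ2.mem ∧ σ3.drawn = σ2.drawn := by
    subst e3
    simp only [effs_cons, effs_nil, Op.eff, Function.update_apply, Nat.reduceEqDiff, ↓reduceIte,
      and_self]
  obtain ⟨c2, c5, c11, cm, cd⟩ := c
  obtain ⟨d5, dr, dE, dd⟩ := bld_spec (w := w) (ρ := ρ) fu.enc σ3 _ G3 (c5.trans b5) (by omega)
    (by omega) h1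
  refine (Runs.blk _ (Q := fun σ => σ = _) rfl).seq fun σ4 e4 => ?_
  have G4 : Good σ4 := e4 ▸ G3.bld _
  have d2 : σ4.regs 2 = σ3.regs 2 := e4 ▸ effs_keep (bld_keep (by omega) (by omega) (by omega) _) _
  have d11 : σ4.regs 11 = σ3.regs 11 := e4 ▸ effs_keep (bld_keep (by omega) (by omega) (by omega) _) _
  rw [← e4] at d5 dr dE dd
  refine (Runs.blk _ (Q := fun σ => σ = _) rfl).seq fun σ5 e5 => ?_
  have G5 : Good σ5 := e5 ▸ G4.effs (by decide) (by decide) (by decide)
  have f : σ5.regs 13 = σ4.regs 5 ∧ σ5.regs 5 = σ4.regs 5 ∧ σ5.regs 11 = σ4.regs 11 ∧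
      σ5.regs 2 = σ4.regs 2 ∧ σ5.mem = σ4.mem ∧ σ5.drawn = σ4.drawn := by
    subst e5
    simp only [effs_cons, effs_nil, Op.eff, Function.update_apply, Nat.reduceEqDiff, ↓reduceIte,
      and_self]
  obtain ⟨f13, f5, f11, f2, fm, fd⟩ := f
  obtain ⟨g5, gr, gE, gd⟩ := bld_spec (w := w) (ρ := ρ) e.enc σ5 _ G5 (f5.trans d5) (by omega)
    (by omega) h2
  refine (Runs.blk _ (Q := fun σ => σ = _) rfl).seq fun σ6 e6 => ?_
  have G6 : Good σ6 := e6 ▸ G5.bld _
  have g2 : σ6.regs 2 = σ5.regs 2 := e6 ▸ effs_keep (bld_keep (by omega) (by omega) (by omega) _) _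
  have g11 : σ6.regs 11 = σ5.regs 11 := e6 ▸ effs_keep (bld_keep (by omega) (by omega) (by omega) _) _
  have g13 : σ6.regs 13 = σ5.regs 13 := e6 ▸ effs_keep (bld_keep (by omega) (by omega) (by omega) _) _
  rw [← e6] at g5 gr gE gd
  rw [fm] at gE
  rw [cm] at dE
  refine Runs.blk _ ⟨G6.effs (by decide) (by decide) (by decide), ?_⟩
  simp only [effs_cons, effs_nil, Op.eff, Function.update_apply, Nat.reduceEqDiff, ↓reduceIte,
    G6.zero, G6.one, true_and, g5]
  refine ⟨by omega, ?_, ?_, ?_, by omega⟩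
  · rw [g2, f2, d2, c2, b5]
    exact RV.ext gE dr
  · rw [g13, f13, d5]
    exact gr
  · rw [g11, f11, d11, c11, b11]
    exact RV.ext (dE.trans gE) br

theorem ph2_spec {σ : St} {F y h : ℕ} {ev iv : V} (hG : Good σ) (hI : Is σ 0 y 0 h σ.mem)
    (ry : RV σ.mem h (.leaf F) y) (re : RV σ.mem h ev (σ.regs 13)) (ri : RV σ.mem h iv (σ.regs 11))
    (hd : σ.drawn = 0) (hw : h + 4 * F + 6 < 2 ^ w) :
    Runs w ρ ph2 σ (14 * F + 22) fun σ' => Good σ' ∧ σ'.regs 4 = 0 ∧ σ'.regs 5 = h + 4 * F + 4 ∧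
      RV σ'.mem (σ'.regs 5) ev (σ'.regs 2) ∧
      RV σ'.mem (σ'.regs 5) (.node iv (V.nats (tapeBits ρ F))) (σ'.regs 3) ∧
      σ'.regs 6 = 3 * F + 1 ∧ σ'.regs 7 = 1 ∧ σ'.regs 12 = F := by
  obtain ⟨y1, y2, y3, y4⟩ := ry
  have hw1 : w ≠ 0 := by rintro rfl; omega
  have s1 : Runs w ρ (.blk [.add 12 3 9, .load 12 12, .copy 17 12, .copy 3 5]) σ 4 fun τ =>
      Good τ ∧ τ.regs 5 = h ∧ τ.regs 17 = F ∧ τ.regs 12 = F ∧ τ.regs 3 = h ∧
      τ.regs 11 = σ.regs 11 ∧ τ.regs 13 = σ.regs 13 ∧ τ.mem = σ.mem ∧ τ.drawn = 0 := by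
    refine Runs.blk _ ⟨hG.effs (by decide) (by decide) (by decide), ?_⟩
    simp (disch := omega) only [effs_cons, effs_nil, Op.eff, Function.update_apply,
      Nat.reduceEqDiff, ↓reduceIte, Nat.mod_eq_of_lt, hI.x, hI.h, hG.one, y4, hd, and_self]
  refine (s1.seq fun σ1 ⟨G1, a5, a17, a12, a3, a11, a13, am, ad⟩ => (Runs.keep (mkList_spec
    (src := [.rand 14, .rem 14 14 10]) (val := fun i => ρ i % 2) (d := fun i => i) (m0 := σ.mem)
    (b := h) (L := F) ?_ G1 a5 a17 am ad (by omega) (by omega))).seq (m := 11)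
    fun σ2 ⟨⟨G2, b5, br, bE, bd⟩, bk⟩ => ?_).mono
      (by simp only [List.length_cons, List.length_nil]; omega) fun _ h => h
  · intro τ i hi G h16 hm hd
    simp only [effs_cons, effs_nil, Op.eff, hd, Function.update_self, Function.update_idem]
    rw [Function.update_of_ne (by omega), G.two,
      Nat.mod_mod_of_dvd _ (dvd_pow_self 2 hw1)]
  have b3 : σ2.regs 3 = h := (bk 3 (by decide)).trans a3
  have b11 : σ2.regs 11 = σ.regs 11 := (bk 11 (by decide)).trans a11
  have b12 : σ2.regs 12 = F := (bk 12 (by decide)).trans a12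
  have b13 : σ2.regs 13 = σ.regs 13 := (bk 13 (by decide)).trans a13
  refine Runs.blk _ ⟨G2.effs (by decide) (by decide) (by decide), ?_⟩
  simp (disch := omega) only [effs_cons, effs_nil, Op.eff, Function.update_apply,
    Nat.reduceEqDiff, ↓reduceIte, Nat.mod_eq_of_lt, G2.zero, G2.one, b3, b5, b11, b12, b13,
    true_and, and_true]
  have E : Ext σ2.mem (h + 4 * F + 2) (Function.update (Function.update σ2.mem (h + 4 * F + 2)
      (σ.regs 11)) (h + 4 * F + 2 + 1) h) (h + 4 * F + 2 + 1 + 1) := by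
    refine ⟨by omega, fun i hi => ?_⟩
    simp (disch := omega) only [Function.update_of_ne]
  refine ⟨RV.ext (bE.trans E) re, ⟨by omega, by omega, ?_, ?_⟩, by omega⟩
  · rw [Function.update_of_ne (by omega), Function.update_self]
    exact RV.ext (bE.trans E) ri
  · rw [Function.update_self]
    exact RV.ext E br

end Crest.Agent.N325.Mach
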