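import Crest.Agent.N325.M0.Machine

/-!
# N325 / M0: the machine theorem, statement
-/

set_option autoImplicit false

namespace Crest.Agent.N325

namespace Mach

open Crest.Agent.R309.RAM Crest.WordRAM

variable {w : ℕ} {ρ : ℕ → ℕ}

theorem ph3_any {σ : St} {F : ℕ} (hG : Good σ) (h12 : σ.regs 12 = F) :
    Runs w ρ ph3 σ (14 * F + 4) fun _ => True := by
  refine ((Runs.blk _ (Q := fun σ => σ = _) rfl).seq fun σ1 e1 => out_any F σ1
    (e1 ▸ hG.effs (by decide) (by decide) (by decide)) ?_).mono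
    (by simp only [List.length_cons, List.length_nil]; omega) fun _ h => h
  subst e1
  simp only [effs_cons, effs_nil, Op.eff, Function.update_apply, Nat.reduceEqDiff, ↓reduceIte, h12,
    le_refl]

theorem ph3_good {σ : St} {F : ℕ} {out : List ℕ} (hG : Good σ) (h12 : σ.regs 12 = F)
    (r : RV σ.mem (σ.regs 5) (V.nats out) (σ.regs 3)) (hl : out.length ≤ F)
    (hw : σ.regs 5 + F < 2 ^ w) :
    Runs w ρ ph3 σ (14 * F + 18) fun σ' =>
      (List.range (σ'.regs 0)).map (fun i => σ'.mem (σ'.regs 1 + i)) = out := by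
  refine ((Runs.blk _ (Q := fun σ => σ = _) rfl).seq (m := 14 * (out.length + 1) + 1)
    fun σ1 e1 => ?_).mono (by simp only [List.length_cons, List.length_nil]; omega) fun _ h => h
  have G1 : Good σ1 := e1 ▸ hG.effs (by decide) (by decide) (by decide)
  have k : σ1.regs 0 = 0 ∧ σ1.regs 1 = σ.regs 5 ∧ σ1.regs 3 = σ.regs 3 ∧ σ1.regs 5 = σ.regs 5 ∧
      σ1.regs 6 = F ∧ σ1.mem = σ.mem := by
    subst e1
    simp only [effs_cons, effs_nil, Op.eff, Function.update_apply, Nat.reduceEqDiff, ↓reduceIte, h12,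
      hG.zero, and_self]
  obtain ⟨k0, k1, k3, k5, k6, km⟩ := k
  refine (Runs.keep (out_good (h0 := σ.regs 5) out [] σ1 G1 (by rw [km, k3]; exact r) k0 k5
    (by omega) (fun i hi => absurd hi (by simp)) (by simp; omega))).mono le_rfl
    fun σ2 ⟨⟨a0, am⟩, ak⟩ => ?_
  simp only [List.nil_append] at a0 am
  rw [a0, ak 1 (by decide), k1]
  apply List.ext_getElem (by simp)
  intro i h1 h2
  simp [am i h2]

/-- the program -/
def prog (e fu : Tm) : Program := ⟨20, (whole e fu).comp 20 0⟩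

theorem run_prog {e fu : Tm} {inp : List ℕ} {n : ℕ} {Q : St → Prop}
    (h : Runs w ρ (whole e fu) (st0 w inp) n Q) {T : ℕ} (hT : n + 1 ≤ T) :
    (run (prog e fu) w ρ inp T).halted = true ∧ ∃ σ, Q σ ∧ (run (prog e fu) w ρ inp T).output =
      (List.range (σ.regs 0)).map fun i => σ.mem (σ.regs 1 + i) := by
  obtain ⟨σ, t, h1, h2, h3⟩ := h
  haveI : NeZero (prog e fu).numRegs := ⟨by show (20 : ℕ) ≠ 0; omega⟩
  have h4 := Ex.run (P := prog e fu) h1 (o := 0) (whole_ok e fu) (At.self _)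
  have h0 : init (prog e fu) w inp = cfg 20 0 (st0 w inp) := rfl
  have h5 : step (prog e fu) w ρ (cfg 20 (0 + (whole e fu).len) σ) =
      { cfg 20 (0 + (whole e fu).len) σ with halted := true } := by
    have : (prog e fu).code[0 + (whole e fu).len]? = none := by
      rw [List.getElem?_eq_none_iff]
      show ((whole e fu).comp 20 0).length ≤ _
      rw [Prog.length_comp]
      omega
    unfold step
    simp only [cfg, Bool.false_eq_true, if_false, this]
  have h6 : ∀ k, run (prog e fu) w ρ inp (k + (1 + t)) =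
      { cfg 20 (0 + (whole e fu).len) σ with halted := true } := by
    intro k
    unfold run
    rw [Function.iterate_add_apply, Function.iterate_add_apply, h0]
    erw [h4]
    rw [Function.iterate_one]
    erw [h5]
    exact Function.iterate_fixed rfl k
  obtain ⟨k, rfl⟩ : ∃ k, T = k + (1 + t) := ⟨T - (1 + t), by omega⟩
  rw [h6]
  exact ⟨rfl, σ, h3, rfl⟩

end Mach

open Mach Crest.Agent.R309.RAM Crest.WordRAM in
/-- **The machine theorem.** -/
theorem machine (e fu : Tm) : ∃ (P : Program) (c : ℕ), ∀ (w : ℕ) (inp : List ℕ) (ρ : ℕ → ℕ)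
    (F n0 T : ℕ), (∀ a ∈ inp, a < 2 ^ w) → Ev (2 ^ w) fu (V.nats inp) (.leaf F) n0 →
    c * (inp.length + n0 + F + 1) < 2 ^ w → c * (inp.length + n0 + F + 1) ≤ T →
    (run P w ρ inp T).halted = true ∧ ∀ out : List ℕ,
      Ev (2 ^ w) e (.node (V.nats inp) (V.nats (tapeBits ρ F))) (V.nats out) F → out.length ≤ F →
      (run P w ρ inp T).output = out := by
  refine ⟨prog e fu, (bld fu.enc).length + (bld e.enc).length + sz fu.enc + sz e.enc + mx fu.enc +
    mx e.enc + 3 * cL + 100, fun w inp ρ F n0 T hin hfu hw hT => ?_⟩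
  generalize hc : (bld fu.enc).length + (bld e.enc).length + sz fu.enc + sz e.enc + mx fu.enc +
    mx e.enc + 3 * cL + 100 = c at hw hT
  have e1 : c * (inp.length + n0 + F + 1) = c * inp.length + c * n0 + c * F + c := by ring
  have e2 : 13 * inp.length ≤ c * inp.length := Nat.mul_le_mul_right _ (by omega)
  have e3 : (3 * cL + 12) * n0 ≤ c * n0 := Nat.mul_le_mul_right _ (by omega)
  have e4 : (3 * cL + 30) * F ≤ c * F := Nat.mul_le_mul_right _ (by omega)
  have e5 : cL * (3 * n0 + 1) = 3 * (cL * n0) + cL := by ring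
  have e6 : cL * (3 * F + 1) = 3 * (cL * F) + cL := by ring
  have e7 : (3 * cL + 12) * n0 = 3 * (cL * n0) + 12 * n0 := by ring
  have e8 : (3 * cL + 30) * F = 3 * (cL * F) + 30 * F := by ring
  have p1 : Runs w ρ (.seq (ph1 e fu) (.seq interp ph2)) (st0 w inp)
      (13 * inp.length + (bld fu.enc).length + (bld e.enc).length + 19 +
        (cL * (3 * n0 + 1) + 1 + (14 * F + 22))) fun σ' => Good σ' ∧ σ'.regs 4 = 0 ∧
      σ'.regs 5 ≤ 5 * inp.length + 7 + sz fu.enc + sz e.enc + 12 * n0 + 4 * F ∧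
      RV σ'.mem (σ'.regs 5) e.enc (σ'.regs 2) ∧
      RV σ'.mem (σ'.regs 5) (.node (V.nats inp) (V.nats (tapeBits ρ F))) (σ'.regs 3) ∧
      σ'.regs 6 = 3 * F + 1 ∧ σ'.regs 7 = 1 ∧ σ'.regs 12 = F := by
    refine (ph1_spec e fu hin (by omega) (by omega) (by omega)).seq
      fun σ1 ⟨G1, a4, a5, rf, re, ri, a3, a6, a7, ad⟩ => ?_
    refine (runs_det (Runs.keep (interp_ev hfu G1 ⟨rfl, a3, a4, rfl, rfl⟩ rf ri (by omega)
      (by rw [a7, a6]; omega))) (by decide)).seq fun σ2 ⟨⟨⟨y, hp, m, I, ry, b, E⟩, k⟩, d⟩ => ?_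
    obtain rfl := I.m
    refine (ph2_spec (G1.of_keep k (by decide) (by decide) (by decide)) I ry
      (by rw [k 13 (by decide)]; exact RV.ext E re) (by rw [k 11 (by decide)]; exact RV.ext E ri)
      (d.trans ad) (by omega)).mono le_rfl fun σ3 ⟨G3, c4, c5, r1, r2, c6⟩ =>
        ⟨G3, c4, by omega, r1, r2, c6⟩
  refine ⟨(run_prog (Q := fun _ => True) (p1.seq (m := cL * (3 * F + 1) + 1 + (14 * F + 4))
    fun σ3 ⟨G3, c4, c5, r1, r2, c6, c7, c12⟩ => ?_) (by omega)).1, fun out hout hl => ?_⟩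
  · exact (Runs.keep (interp_any (3 * F + 1) σ3 G3 c7 c6.le)).seq fun σ4 ⟨_, k⟩ =>
      ph3_any (G3.of_keep k (by decide) (by decide) (by decide)) ((k 12 (by decide)).trans c12)
  · obtain ⟨_, σ, h1, h2⟩ := run_prog (T := T) (p1.seq (m := cL * (3 * F + 1) + 1 + (14 * F + 18))
      fun σ3 ⟨G3, c4, c5, r1, r2, c6, c7, c12⟩ => (Runs.keep (interp_ev hout G3
        ⟨rfl, rfl, c4, rfl, rfl⟩ r1 r2 (by omega) (by rw [c7, c6]; omega))).seq
        fun σ4 ⟨⟨y, hp, m, I, ry, b, E⟩, k⟩ =>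
          ph3_good (G3.of_keep k (by decide) (by decide) (by decide))
            ((k 12 (by decide)).trans c12) (by rw [I.m, I.h, I.x]; exact ry) hl
            (by rw [I.h]; omega)) (by omega)
    rw [h2, h1]

end Crest.Agent.N325
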