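import Crest.Agent.N325.M0.Mon
import Crest.Agent.N325.M0.Lang
import Crest.Agent.R309.RAMAvg

/-!
# N325 / M0 (helper34): the probability that all samples of a run are good

Under `Sp g m (cost ≤ c)` the fraction of the tapes of length `L ≥ c` with a bad sample is at most
`g.d * c` (adaptivity and the union bound); transfer to the random words of the machine.
-/

set_option autoImplicit false

namespace Crest.Agent.N325

open Crest.Agent.R309.RAM Crest.WordRAM
open scoped ENNReal

variable {α : Type} {g : Gl}

theorem bad_nonneg (n : ℕ) (G : List Bool → Prop) : 0 ≤ bad n G := by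
  unfold bad; positivity

theorem exists_good_of_bad_lt {n : ℕ} {G : List Bool → Prop} (h : bad n G < 1) :
    ∃ l, l.length = n ∧ G l := by
  classical
  by_contra k
  push Not at k
  unfold bad at h
  rw [Finset.filter_true_of_mem fun v _ => k _ List.length_ofFn, Finset.card_univ] at h
  simp at h

/-- a specification with failure below one is not vacuous -/
theorem Sp.exists {m : R α} {Q : α → ℕ → Prop} (h : Sp g m Q) (hd : g.d < 1) : ∃ a t, Q a t := by
  induction m generalizing Q with
  | ret a => exact ⟨a, 0, h⟩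
  | tk t p m ih => obtain ⟨a, s, k⟩ := ih h.2; exact ⟨a, _, k⟩
  | smp n G m ih =>
    obtain ⟨l, e, gl⟩ := exists_good_of_bad_lt (h.1.trans_lt hd)
    obtain ⟨a, s, k⟩ := ih l (h.2 l e gl)
    exact ⟨a, _, k⟩

/-- programs without samples: every run is good -/
theorem Sp.good_of_neg {m : R α} {Q : α → ℕ → Prop} (h : Sp g m Q) (hd : g.d < 0)
    (τ : List Bool) : m.good τ := by
  induction m generalizing Q with
  | ret a => trivial
  | tk t p m ih => exact ih h.2
  | smp n G m ih => exact absurd (h.1.trans_lt hd) (not_lt.2 (bad_nonneg n G))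

theorem B_append (n L : ℕ) (Φ : List Bool → ℝ≥0∞) :
    B (n + L) Φ = B n fun x => B L fun y => Φ (x ++ y) := by
  induction n generalizing Φ with
  | zero => simp only [zero_add, B, List.nil_append]
  | succ n ih =>
    rw [show n + 1 + L = n + L + 1 by omega]
    simp only [B, ih, List.cons_append]

theorem B_eq_sum (n : ℕ) (Φ : List Bool → ℝ≥0∞) :
    B n Φ = (∑ v : Fin n → Bool, Φ (List.ofFn v)) / 2 ^ n := by
  induction n generalizing Φ with
  | zero => simp [B]
  | succ n ih =>
    simp only [B, ih]
    rw [← Fin.consEquiv (fun _ => Bool) |>.sum_comp, Fintype.sum_prod_type, Fintype.sum_bool]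
    have hc : ∀ (a : Bool) (v : Fin n → Bool),
        List.ofFn ((Fin.consEquiv fun _ => Bool) (a, v)) = a :: List.ofFn v := fun a v => by
      rw [List.ofFn_succ]; rfl
    simp only [hc]
    rw [← ENNReal.add_div, add_comm, pow_succ, ENNReal.div_eq_inv_mul, ENNReal.div_eq_inv_mul,
      ENNReal.div_eq_inv_mul, ENNReal.mul_inv (Or.inl (two_pow_ne_zero' n))
        (Or.inl (two_pow_ne_top' n))]
    ring

theorem B_bad (n : ℕ) (G : List Bool → Prop) :
    B n (fun x => ind (¬G x)) = ENNReal.ofReal (bad n G) := by
  classical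
  rw [B_eq_sum]
  unfold bad ind
  rw [ENNReal.ofReal_div_of_pos (by positivity), ENNReal.ofReal_natCast,
    ENNReal.ofReal_pow zero_le_two, ENNReal.ofReal_ofNat, Finset.card_filter]
  push_cast
  congr 2
  funext v
  congr

theorem tkb_append {n : ℕ} {x : List Bool} (h : x.length = n) (y : List Bool) :
    tkb n (x ++ y) = x := by
  subst h
  simp [tkb]

/-- **the union bound over adaptive samples** -/
theorem Sp.B_bad_le {m : R α} {c L : ℕ} (h : Sp g m fun _ t => t ≤ c) (hd : g.d < 1)
    (hL : c ≤ L) : B L (fun τ => ind (¬m.good τ)) ≤ ENNReal.ofReal g.d * c := by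
  induction m generalizing c L with
  | ret a =>
    refine le_trans (B_mono fun τ _ => (ind_false (not_not.2 trivial)).le) ?_
    rw [B_const]; exact zero_le
  | tk t p m ih => exact ih (h.2.mono fun a s (k : t + s ≤ c) => by omega) hL
  | smp n G m ih =>
    obtain ⟨_, _, s, e⟩ : ∃ l a s, n + 1 + s ≤ c := by
      obtain ⟨l, e, gl⟩ := exists_good_of_bad_lt (h.1.trans_lt hd)
      obtain ⟨a, s, k⟩ := (h.2 l e gl).exists hd
      exact ⟨l, a, s, k⟩
    obtain ⟨L, rfl⟩ : ∃ L', L = n + L' := ⟨L - n, by omega⟩
    obtain ⟨c, rfl⟩ : ∃ c', c = c' + (n + 1) := ⟨c - (n + 1), by omega⟩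
    rw [B_append]
    have k : ∀ x : List Bool, x.length = n →
        (B L fun y => ind (¬(R.smp n G m).good (x ++ y))) ≤
          ind (¬G x) + ENNReal.ofReal g.d * c := by
      intro x hx
      by_cases gx : G x
      · refine le_trans (le_trans (B_mono fun y _ => le_of_eq ?_)
          (ih x (c := c) ((h.2 x hx gx).mono fun a s (k : n + 1 + s ≤ _) => by omega)
            (by omega))) le_add_self
        simp only [R.good, tkb_append hx, gx, true_and, List.drop_left' hx]
      · rw [ind_true gx]
        refine le_trans (B_mono fun y _ => ind_le_one _) ?_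
        rw [B_const]; exact le_self_add
    refine (B_mono k).trans ?_
    rw [B_add, B_const, B_bad]
    refine (add_le_add_left (ENNReal.ofReal_le_ofReal h.1) _).trans ?_
    push_cast
    rw [mul_add, mul_add, mul_one, add_comm]
    exact add_le_add_right le_add_self _

/-- the first `F` random bits of the stream `ρ` -/
def tapeB (ρ : ℕ → ℕ) (F : ℕ) : List Bool := (List.range F).map fun i => decide (ρ i % 2 = 1)

@[simp] theorem length_tapeB (ρ : ℕ → ℕ) (F : ℕ) : (tapeB ρ F).length = F := by simp [tapeB]

theorem tapeB_toNat (ρ : ℕ → ℕ) (F : ℕ) : (tapeB ρ F).map Bool.toNat = tapeBits ρ F := by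
  unfold tapeB tapeBits
  rw [List.map_map]
  refine List.map_congr_left fun i _ => ?_
  rcases Nat.mod_two_eq_zero_or_one (ρ i) with h | h <;> simp [h]

theorem tapeB_sapp {w : ℕ} (hw : 1 ≤ w) (x : List ℕ) (y : ℕ → ℕ) :
    tapeB (sapp x y) x.length = bits w x := by
  induction x with
  | nil => rfl
  | cons a x ih =>
    unfold tapeB bits at *
    rw [List.length_cons, List.range_succ_eq_map, List.map_cons, List.map_map, List.map_cons, ← ih]
    congr 1
    rw [Nat.mod_mod_of_dvd _ (dvd_pow_self 2 (by omega))]
    rfl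

/-- **transfer to the machine**: an event implied by the goodness of the first `F` bits -/
theorem Sp.probAfter_ge {m : R α} {c F T w : ℕ} (h : Sp g m fun _ t => t ≤ c) (hd0 : 0 ≤ g.d)
    (hd : g.d < 1) (hF : c ≤ F) (hT : F ≤ T) (hw : 1 ≤ w) {P : Program} {inp : List ℕ}
    {E : Cfg P.numRegs → Prop} (hE : ∀ ρ, m.good (tapeB ρ F) → E (WordRAM.run P w ρ inp T)) :
    1 - g.d * c ≤ probAfter P w inp T E := by
  obtain ⟨T, rfl⟩ := Nat.exists_eq_add_of_le hT
  have h1 : A w (F + T) (fun y => ind (¬E (WordRAM.run P w y inp (F + T)))) ≤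
      ENNReal.ofReal g.d * c := by
    refine (A_le_B hw T F _ _ fun x hx => ?_).trans (h.B_bad_le hd hF)
    by_cases k : m.good (bits w x)
    · refine le_trans (A_mono fun y => (ind_false (not_not.2 (hE _ ?_))).le) ?_
      · rw [← hx, tapeB_sapp hw]; exact k
      · rw [A_const]; exact zero_le
    · rw [ind_true k]
      exact (A_mono fun y => ind_le_one _).trans (A_const 1).le
  have h2 : (1 : ℝ≥0∞) ≤ ENNReal.ofReal (probAfter P w inp (F + T) E) +
      ENNReal.ofReal g.d * c := by
    refine le_trans ?_ (add_le_add_right h1 _)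
    rw [ofReal_probAfter, ← A_add, ← A_const (w := w) (n := F + T) 1]
    refine A_mono fun y => ?_
    by_cases k : E (WordRAM.run P w y inp (F + T))
    · rw [ind_true k]; exact le_self_add
    · rw [ind_true k]; exact le_add_self
  have h3 : 0 ≤ probAfter P w inp (F + T) E := by
    unfold probAfter Crest.FinProb.uniformProb; positivity
  rw [← ENNReal.ofReal_natCast, ← ENNReal.ofReal_mul hd0,
    ← ENNReal.ofReal_add h3 (by positivity), ENNReal.one_le_ofReal] at h2
  linarith

end Crest.Agent.N325
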