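import Crest.Agent.N325.M0.Impl

/-!
# N325 / M0: the core rules of `Pu` and `Impl` (helper68)
-/

set_option autoImplicit false

namespace Crest.Agent.N325

variable {α β γ δ ε : Type} [Rp α] [Rp β] [Rp γ] [Rp δ] [Rp ε] {σ : Bool}

/-! ### pure code -/

theorem Pu.of_eq {f g : α → β} (h : Pu σ f) (e : ∀ a, f a = g a) : Pu σ g := (funext e : f = g) ▸ h

theorem Pu.of_iff {p q : α → Prop} (h : Pu σ p) (e : ∀ a, p a ↔ q a) : Pu σ q :=
  h.of_eq fun a => propext (e a)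

/-- `Sel` implies `Ar` -/
@[fun_prop] theorem Pu.weak {f : α → β} (h : Pu true f) : Pu σ f := by
  obtain ⟨t, d, c, hd, h⟩ := h
  refine ⟨t, d, c, hd, fun P s B a v h1 h2 h3 h4 h5 h6 => ?_⟩
  obtain ⟨r, r1, r2, r3, r4⟩ := h P s B a v h1 h2 h3 h4 h5 h6
  exact ⟨r, r1, r2, fun _ => r3 rfl, r4⟩

theorem Pu.ar {f : α → β} (h : Pu σ f) : Pu false f := by
  cases σ
  · exact h
  · exact h.weak

/-- a primitive with constant growth -/
theorem Pu.prim {f : α → β} (t : Tm) (d c : ℕ)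
    (h : ∀ (P : Par) (s B : ℕ) (a : α) (v : V), 1 ≤ s → d * s ≤ P.w → rp P B a v → v.mx < 2 ^ s →
      ∃ r, rp P B (f a) r ∧ r.mx ≤ v.mx + c ∧ Ev (2 ^ P.w) t v r c) : Pu σ f := by
  refine ⟨t, d + c + 1, c, by omega, fun P s B a v h1 h2 h3 _ h5 h6 => ?_⟩
  rw [add_assoc, add_mul] at h3 ⊢
  obtain ⟨r, r1, r2, r3⟩ := h P s B a v (h1.trans h2) (by omega) h5 h6
  exact ⟨r, r1, lt_up (r2.trans_lt (lt_grow c (h1.trans h2) h6)) (by omega), fun _ => r2,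
    r3.le (le_U _ _)⟩

/-- a map that keeps the representation -/
theorem Pu.of_rp {f : α → β} (h : ∀ P B a v, rp P B a v → rp P B (f a) v) : Pu σ f :=
  Pu.prim .id 0 1 fun P _ B a v _ _ h1 _ => ⟨v, h P B a v h1, Nat.le_succ _, Ev.id v⟩

@[fun_prop] theorem Pu.id : Pu σ fun a : α => a := Pu.of_rp fun _ _ _ _ h => h

theorem Pu.fst' : Pu σ fun p : α × β => p.1 :=
  Pu.prim .fst 0 1 fun _ _ _ _ _ _ _ ⟨x, y, e, h1, _⟩ _ =>
    ⟨x, h1, by rw [e, V.mx_node]; omega, e ▸ Ev.fst x y⟩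

theorem Pu.snd' : Pu σ fun p : α × β => p.2 :=
  Pu.prim .snd 0 1 fun _ _ _ _ _ _ _ ⟨x, y, e, _, h1⟩ _ =>
    ⟨y, h1, by rw [e, V.mx_node]; omega, e ▸ Ev.snd x y⟩

@[fun_prop] theorem Pu.comp {g : β → γ} {f : α → β} (hg : Pu σ g) (hf : Pu σ f) :
    Pu σ fun a => g (f a) := by
  obtain ⟨t1, d1, c1, hd1, hf⟩ := hf
  obtain ⟨t2, d2, c2, hd2, hg⟩ := hg
  refine ⟨.comp t2 t1, d2 * d1, c1 + c2 + 1, Nat.mul_pos hd2 hd1,
    fun P s B a v h1 h2 h3 h4 h5 h6 => ?_⟩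
  have e1 : s ≤ d1 * s := Nat.le_mul_of_pos_left _ hd1
  have e2 : d1 * s ≤ d2 * (d1 * s) := Nat.le_mul_of_pos_left _ hd2
  rw [mul_assoc] at h3 ⊢
  have e3 := U_add3 P.w c1 c2 1
  obtain ⟨r, r1, r2, r3, r4⟩ := hf P s B a v h1 h2 (by omega) (by omega) h5 h6
  obtain ⟨q, q1, q2, q3, q4⟩ := hg P (d1 * s) B (f a) r h1 (by omega) h3 (by omega) r1 r2
  exact ⟨q, q1, q2, fun h => by have := r3 h; have := q3 h; omega, (r4.comp q4).le (by omega)⟩

@[fun_prop] theorem Pu.fst {f : α → β × γ} (hf : Pu σ f) : Pu σ fun a => (f a).1 := Pu.fst'.comp hf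
@[fun_prop] theorem Pu.snd {f : α → β × γ} (hf : Pu σ f) : Pu σ fun a => (f a).2 := Pu.snd'.comp hf

/-- a function of two arguments whose growth is measured in the first argument -/
def Pu1 (f : β → γ → δ) : Prop :=
  ∃ t d c, ∀ (P : Par) (s B : ℕ) (b : β) (e : γ) (x y : V), 1 ≤ P.m → P.m ≤ s → d * s ≤ P.w →
    U P.w c ≤ P.K → rp P B b x → rp P B e y → x.mx < 2 ^ s → y.mx < 2 ^ s →
    ∃ r, rp P B (f b e) r ∧ r.mx ≤ x.mx + c ∧ Ev (2 ^ P.w) t (.node x y) r (U P.w c)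

@[fun_prop] theorem Pu.pair {f : α → β} {g : α → γ} (hf : Pu σ f) (hg : Pu σ g) :
    Pu σ fun a => (f a, g a) := by
  obtain ⟨t1, d1, c1, hd1, hf⟩ := hf
  obtain ⟨t2, d2, c2, hd2, hg⟩ := hg
  refine ⟨.pair t1 t2, d1 + d2, c1 + c2 + 1, by omega, fun P s B a v h1 h2 h3 h4 h5 h6 => ?_⟩
  rw [add_mul] at h3 ⊢
  have e3 := U_add3 P.w c1 c2 1
  obtain ⟨r, r1, r2, r3, r4⟩ := hf P s B a v h1 h2 (by omega) (by omega) h5 h6
  obtain ⟨q, q1, q2, q3, q4⟩ := hg P s B a v h1 h2 (by omega) (by omega) h5 h6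
  refine ⟨.node r q, ⟨r, q, rfl, r1, q1⟩, max_lt (lt_up r2 (by omega)) (lt_up q2 (by omega)),
    fun h => ?_, (r4.pair q4).le e3⟩
  have := r3 h; have := q3 h; rw [V.mx_node]; omega

theorem Pu1.app {f : β → γ → δ} (h : Pu1 f) {u : α → β} {e : α → γ} (hu : Pu σ u)
    (he : Pu false e) : Pu σ fun a => f (u a) (e a) := by
  obtain ⟨t1, d1, c1, hd1, hu⟩ := hu
  obtain ⟨t2, d2, c2, hd2, he⟩ := he
  obtain ⟨t, d, c, h⟩ := h
  refine ⟨.comp t (.pair t1 t2), (d + c + 1) * (d1 + d2), c1 + c2 + 2 + c, Nat.mul_pos (by omega)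
    (by omega), fun P s B a v h1 h2 h3 h4 h5 h6 => ?_⟩
  have e1 : s ≤ d1 * s := Nat.le_mul_of_pos_left _ hd1
  rw [mul_assoc, add_assoc d, add_mul] at h3 ⊢
  have e2 : (d1 + d2) * s ≤ (c + 1) * ((d1 + d2) * s) := Nat.le_mul_of_pos_left _ (by omega)
  have e0 : (d1 + d2) * s = d1 * s + d2 * s := add_mul _ _ _
  have e3 := U_add3 P.w c1 c2 2
  have e4 := U_add P.w (c1 + c2 + 2) c
  obtain ⟨r, r1, r2, r3, r4⟩ := hu P s B a v h1 h2 (by omega) (by omega) h5 h6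
  obtain ⟨q, q1, q2, -, q4⟩ := he P s B a v h1 h2 (by omega) (by omega) h5 h6
  have r2' : r.mx < 2 ^ ((d1 + d2) * s) := lt_up r2 (by omega)
  obtain ⟨z, z1, z2, z3⟩ := h P ((d1 + d2) * s) B _ _ r q h1 (by omega) (by omega) (by omega) r1 q1
    r2' (lt_up q2 (by omega))
  exact ⟨z, z1, lt_up (z2.trans_lt (lt_grow c (by omega) r2')) (by omega),
    fun h => by have := r3 h; omega, ((r4.pair q4).comp z3).le (by omega)⟩

/-- an `Ar` function of two arguments whose result is bounded through the first argument -/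
theorem Pu1.of_ar {f : β → γ → δ} (h : Pu false fun p : β × γ => f p.1 p.2) (k : ℕ)
    (hk : ∀ P B b e x r, rp P B b x → rp P B (f b e) r → r.mx ≤ x.mx + k) : Pu1 f := by
  obtain ⟨t, d, c, -, h⟩ := h
  refine ⟨t, d, c + k, fun P s B b e x y h1 h2 h3 h4 h5 h6 h7 h8 => ?_⟩
  have := U_mono P.w (Nat.le_add_right c k)
  obtain ⟨r, r1, -, -, r4⟩ := h P s B (b, e) (.node x y) h1 h2 h3 (by omega)
    ⟨x, y, rfl, h5, h6⟩ (max_lt h7 h8)
  exact ⟨r, r1, (hk P B b e x r h5 r1).trans (by omega), r4.le this⟩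

/-- an `Ar` function with small values is `Sel` -/
theorem Pu.small {f : α → β} (h : Pu false f) (k : ℕ)
    (hk : ∀ P B a r, rp P B (f a) r → r.mx ≤ k) : Pu σ f := by
  obtain ⟨t, d, c, hd, h⟩ := h
  refine ⟨t, d, c + k, hd, fun P s B a v h1 h2 h3 h4 h5 h6 => ?_⟩
  have := U_mono P.w (Nat.le_add_right c k)
  obtain ⟨r, r1, r2, -, r4⟩ := h P s B a v h1 h2 h3 (by omega) h5 h6
  exact ⟨r, r1, r2, fun _ => (hk P B a r r1).trans (by omega), r4.le this⟩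

@[fun_prop] theorem Pu.prop {p : α → Prop} (h : Pu false p) : Pu σ p :=
  h.small 1 fun _ _ a r e => by
    rw [show r = .leaf (open Classical in if p a then 1 else 0) from e, V.mx_leaf]
    split_ifs <;> omega

@[fun_prop] theorem Pu.bool {p : α → Bool} (h : Pu false p) : Pu σ p :=
  h.small 1 fun _ _ a r e => by rw [show r = .leaf (p a).toNat from e]; exact Bool.toNat_le _

/-- types all of whose values are constants of the language -/
class Cst (β : Type) [Rp β] : Prop where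
  ex : ∀ b : β, ∃ v, ∀ P B, rp P B b v

theorem Pu.const' {b : β} (v : V) (h : ∀ P B, rp P B b v) : Pu σ fun _ : α => b :=
  Pu.prim (.const v) 0 (v.mx + 1) fun P _ B _ x _ _ _ _ =>
    ⟨v, h P B, by omega, (Ev.const v x).le (by omega)⟩

@[fun_prop] theorem Pu.const [Cst β] (b : β) : Pu σ fun _ : α => b :=
  (Cst.ex b).elim fun v h => Pu.const' v h

instance : Cst ℕ := ⟨fun _ => ⟨_, fun _ _ => rfl⟩⟩
instance : Cst Unit := ⟨fun _ => ⟨.leaf 0, fun _ _ => trivial⟩⟩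
instance : Cst Prop := ⟨fun _ => ⟨_, fun _ _ => rfl⟩⟩
instance : Cst Bool := ⟨fun _ => ⟨_, fun _ _ => rfl⟩⟩
instance : Cst V := ⟨fun _ => ⟨_, fun _ _ => rfl⟩⟩
instance : Cst ℤ := ⟨fun _ => ⟨_, fun _ _ => rfl⟩⟩
instance [Cst α] [Cst β] : Cst (α × β) := ⟨fun p => by
  obtain ⟨x, h1⟩ := Cst.ex p.1
  obtain ⟨y, h3⟩ := Cst.ex p.2
  exact ⟨.node x y, fun P B => ⟨x, y, rfl, h1 P B, h3 P B⟩⟩⟩
instance [Cst α] : Cst (List α) := ⟨fun l => by
  induction l with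
  | nil => exact ⟨.leaf 0, fun _ _ => rp_nil.2 rfl⟩
  | cons a l ih =>
    obtain ⟨x, h1⟩ := Cst.ex a
    obtain ⟨y, h3⟩ := ih
    exact ⟨.node x y, fun P B => rp_cons.2 ⟨x, y, rfl, h1 P B, h3 P B⟩⟩⟩
theorem Cst.via {σ τ : Type} [Rp τ] [Cst τ] (e : σ → τ) : @Cst σ (Rp.via e) :=
  @Cst.mk σ (Rp.via e) fun b => Cst.ex (e b)
instance [Cst α] : Cst (Option α) := Cst.via _
instance [Cst α] [Cst β] : Cst (α ⊕ β) := Cst.via _
instance [Cst α] {p : α → Prop} : Cst (Subtype p) := Cst.via _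
instance {n : ℕ} : Cst (Fin n) := Cst.via _
instance {σ : Type} : Cst (Gh σ) := Cst.via _

@[fun_prop] theorem Pu.nil : Pu σ fun _ : α => ([] : List β) :=
  Pu.const' (.leaf 0) fun _ _ => rp_nil.2 rfl

theorem Pu.unit (f : α → Unit) : Pu σ f := Pu.of_rp fun _ _ _ _ _ => trivial

@[fun_prop] theorem Pu.gh {τ : Type} (f : α → τ) : Pu σ fun a => Gh.mk (f a) :=
  Pu.of_rp fun _ _ _ _ _ => trivial

/-- the coding map of `Rp.via` -/
theorem Pu.via_out {ρ τ : Type} [Rp τ] (e : ρ → τ) : @Pu ρ τ (Rp.via e) _ σ e :=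
  @Pu.of_rp ρ τ (Rp.via e) _ σ e fun _ _ _ _ h => h

/-- a map into a type with `Rp.via` -/
theorem Pu.via_in {ρ τ : Type} [Rp τ] (e : ρ → τ) {f : α → ρ} (h : Pu σ fun a => e (f a)) :
    @Pu α ρ _ (Rp.via e) σ f := h

@[fun_prop] theorem Pu.val {p : β → Prop} {f : α → Subtype p} (hf : Pu σ f) :
    Pu σ fun a => (f a).1 := hf
@[fun_prop] theorem Pu.subtype_mk {p : β → Prop} {f : α → β} (hf : Pu σ f) (h : ∀ a, p (f a)) :
    Pu σ fun a => (⟨f a, h a⟩ : Subtype p) := hf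
@[fun_prop] theorem Pu.fin_val {n : ℕ} {f : α → Fin n} (hf : Pu σ f) : Pu σ fun a => (f a).1 := hf
@[fun_prop] theorem Pu.fin_mk {n : ℕ} {f : α → ℕ} (hf : Pu σ f) (h : ∀ a, f a < n) :
    Pu σ fun a => (⟨f a, h a⟩ : Fin n) := hf

theorem ev_cond {W : ℕ} {p : Prop} {b x y : V} {s t : Tm} {n : ℕ}
    (hb : b = .leaf (open Classical in if p then 1 else 0)) (h1 : p → Ev W s x y n)
    (h2 : ¬p → Ev W t x y n) : Ev W (.cond s t) (.node b x) y (n + 1) := by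
  by_cases h : p
  · exact Ev.cond_ne (by rw [hb, if_pos h]; simp) (h1 h)
  · rw [hb, if_neg h]; exact Ev.cond_zero (h2 h)

/-- case distinction; the branches are only needed on their part of the domain -/
theorem Pu.by_cases {p : α → Prop} {f : α → β} (hp : Pu false p)
    (h1 : Pu σ fun a : {a // p a} => f a.1) (h2 : Pu σ fun a : {a // ¬p a} => f a.1) : Pu σ f := by
  obtain ⟨t0, d0, c0, hd0, hp⟩ := hp
  obtain ⟨t1, d1, c1, hd1, h1⟩ := h1
  obtain ⟨t2, d2, c2, hd2, h2⟩ := h2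
  refine ⟨.comp (.cond t1 t2) (.pair t0 .id), d0 + d1 + d2, c0 + (c1 + c2) + 4, by omega,
    fun P s B a v k1 k2 k3 k4 k5 k6 => ?_⟩
  rw [add_mul, add_mul] at k3 ⊢
  have e3 := U_add3 P.w c0 (c1 + c2) 4
  have e4 := U_add P.w c1 c2
  obtain ⟨r, r1, -, -, r3⟩ := hp P s B a v k1 k2 (by omega) (by omega) k5 k6
  by_cases h : p a
  · obtain ⟨q, q1, q2, q3, q4⟩ := h1 P s B ⟨a, h⟩ v k1 k2 (by omega) (by omega) k5 k6
    exact ⟨q, q1, lt_up q2 (by omega), fun k => (q3 k).trans (by omega), ((r3.pair (Ev.id v)).comp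
      (ev_cond r1 (fun _ => q4) fun k => absurd h k)).le (by omega)⟩
  · obtain ⟨q, q1, q2, q3, q4⟩ := h2 P s B ⟨a, h⟩ v k1 k2 (by omega) (by omega) k5 k6
    exact ⟨q, q1, lt_up q2 (by omega), fun k => (q3 k).trans (by omega), ((r3.pair (Ev.id v)).comp
      (ev_cond r1 (fun k => absurd k h) fun _ => q4)).le (by omega)⟩

@[fun_prop] theorem Pu.ite {p : α → Prop} [DecidablePred p] {f g : α → β} (hp : Pu false p)
    (hf : Pu σ f) (hg : Pu σ g) : Pu σ fun a => if p a then f a else g a :=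
  Pu.by_cases hp ((hf.comp Pu.id.val).of_eq fun a => by rw [if_pos a.2])
    ((hg.comp Pu.id.val).of_eq fun a => by rw [if_neg a.2])

@[fun_prop] theorem Pu.dite {p : α → Prop} [DecidablePred p] {f : ∀ a, p a → β}
    {g : ∀ a, ¬p a → β} (hp : Pu false p) (hf : Pu σ fun a : {a // p a} => f a.1 a.2)
    (hg : Pu σ fun a : {a // ¬p a} => g a.1 a.2) :
    Pu σ fun a => if h : p a then f a h else g a h :=
  Pu.by_cases hp (hf.of_eq fun a => by rw [dif_pos a.2]) (hg.of_eq fun a => by rw [dif_neg a.2])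

end Crest.Agent.N325
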