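import Crest.Agent.N325.M0.Rules

/-!
# N325 / M0: the rules of `Impl`, closures and recursion (helper68)
-/

set_option autoImplicit false

namespace Crest.Agent.N325

variable {α β γ δ ε : Type} [Rp α] [Rp β] [Rp γ] [Rp δ] [Rp ε] {σ : Bool}

theorem Impl.of_eq {f g : α → R β} (h : Impl f) (e : ∀ a, f a = g a) : Impl g :=
  (funext e : f = g) ▸ h

/-- weakening: same value and tape, more cost, more declared -/
theorem Res.of_run {P : Par} {B M k k' : ℕ} {t : Tm} {v : V} {m m' : R β} {τ : List Bool}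
    (h : Res P B M t v m τ k) (e1 : (m.run τ).val = (m'.run τ).val)
    (e2 : (m.run τ).tape = (m'.run τ).tape) (e3 : (m.run τ).cost ≤ (m'.run τ).cost)
    (e4 : (m.run τ).pk ≤ (m'.run τ).pk) (hk : k ≤ k') : Res P B M t v m' τ k' := by
  intro h1 h2 h3
  have := Nat.mul_le_mul_left P.K e3
  obtain ⟨r, r1, r2, r3⟩ := h (by omega) (by omega) (by omega)
  rw [e1] at r1
  rw [e2] at r3
  exact ⟨r, Rp.anti r1 (by omega), by omega, r3.le (by omega)⟩

theorem Impl.of_run {f g : α → R β} (h : Impl f) (e : ∀ a τ, ((f a).run τ).val = ((g a).run τ).val ∧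
    ((f a).run τ).tape = ((g a).run τ).tape ∧ ((f a).run τ).cost ≤ ((g a).run τ).cost ∧
    ((f a).run τ).pk ≤ ((g a).run τ).pk) : Impl g := by
  obtain ⟨t, d, c, h⟩ := h
  exact ⟨t, d, c, fun P B M a v τ h1 h2 h3 h4 h5 => (h P B M a v τ h1 h2 h3 h4 h5).of_run
    (e a τ).1 (e a τ).2.1 (e a τ).2.2.1 (e a τ).2.2.2 le_rfl⟩

/-- the general composition: straight-line code first; `hM` bounds its result -/
theorem Impl.comp' {g : β → R γ} {f : α → β} (hg : Impl g) (hf : Pu σ f)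
    (hM : σ = true ∨ ∀ P B a r τ, rp P B (f a) r → r.mx ≤ ((g (f a)).run τ).pk) :
    Impl fun a => g (f a) := by
  obtain ⟨t1, d1, c1, hd1, hf⟩ := hf
  obtain ⟨t2, d2, c2, hg⟩ := hg
  refine ⟨.comp t2 (.pair (.comp t1 .fst) .snd), d1 + d2, c1 + c2 + 5,
    fun P B M a v τ h1 h2 h3 h4 h5 k1 k2 k3 => ?_⟩
  rw [add_mul] at h2
  have e3 := U_add3 P.w c1 c2 5
  have e4 := le_U P.w c1
  obtain ⟨r, r1, -, r3, r4⟩ := hf P P.m B a v h1 le_rfl (by omega) (by omega) h4 (by omega)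
  have r3 : r.mx ≤ M + c1 := by
    rcases hM with h | h
    · exact (r3 h).trans (by omega)
    · exact (h P B a r τ r1).trans (k1.trans (by omega))
  dsimp only at k1 k2 k3 ⊢
  obtain ⟨q, q1, q2, q3⟩ := hg P B (M + c1) (f a) r τ h1 (by omega) (by omega) r1 r3 (by omega) k2
    (by omega)
  exact ⟨q, q1, by omega, ((((Ev.fst _ _).comp r4).pair (Ev.snd _ _)).comp q3).le (by omega)⟩

@[fun_prop] theorem Impl.comp {g : β → R γ} {f : α → β} (hg : Impl g) (hf : Pu true f) :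
    Impl fun a => g (f a) := hg.comp' hf (.inl rfl)

theorem Impl.ret' : Impl fun a : α => R.ret a :=
  ⟨.id, 0, 1, fun _ _ _ _ v _ _ _ _ h4 h5 _ _ _ =>
    ⟨v, h4, h5.trans (Nat.le_add_right _ _), (Ev.id _).le ((le_U _ _).trans (Nat.le_add_left _ _))⟩⟩

@[fun_prop] theorem Impl.ret {f : α → β} (h : Pu true f) : Impl fun a => R.ret (f a) :=
  Impl.ret'.comp h

@[fun_prop] theorem Impl.pure {f : α → β} (h : Pu true f) : Impl fun a => (pure (f a) : R β) :=
  Impl.ret h

@[fun_prop] theorem Impl.tk {k : α → R β} (t p : α → ℕ) (h : Impl k) :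
    Impl fun a => R.tk (t a) (p a) (k a) :=
  h.of_run fun _ _ => ⟨rfl, rfl, Nat.le_add_left _ _, le_max_right _ _⟩

@[fun_prop] theorem Impl.tick : Impl fun _ : α => tick :=
  Impl.tk (fun _ => 1) (fun _ => 0) (Impl.ret (Pu.unit _))

@[fun_prop] theorem Impl.nat {e : α → ℕ} (h : Pu false e) : Impl fun a => nat (e a) :=
  Impl.comp' (g := N325.nat) (Impl.tk (fun _ => 0) (fun a => a) Impl.ret') h
    (.inr fun _ _ a r _ k => by rw [show r = .leaf (e a) from k]; exact le_max_left _ _)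

@[fun_prop] theorem Impl.int {e : α → ℤ} (h : Pu false e) : Impl fun a => int (e a) :=
  Impl.comp' (g := N325.int) (Impl.tk (fun _ => 0) (fun a : ℤ => a.natAbs) Impl.ret') h
    (.inr fun _ _ a r _ k => by
      rw [show r = .node (.leaf (e a).toNat) (.leaf (-(e a)).toNat) from k]
      refine le_trans ?_ (le_max_left _ _)
      simp only [V.mx_node, V.mx_leaf]
      omega)

@[fun_prop] theorem Impl.bind {f : α → R β} {g : α → β → R γ} (hf : Impl f)
    (hg : Impl fun p : α × β => g p.1 p.2) : Impl fun a => f a >>= g a := by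
  obtain ⟨t1, d1, c1, hf⟩ := hf
  obtain ⟨t2, d2, c2, hg⟩ := hg
  refine ⟨.comp t2 (.comp (.pair (.pair .fst (.comp .fst .snd)) (.comp .snd .snd)) (.pair .fst t1)),
    d1 + d2, c1 + c2 + 13, fun P B M a v τ h1 h2 h3 h4 h5 => ?_⟩
  rw [add_mul] at h2
  have e3 := U_add3 P.w c1 c2 13
  have hf := hf P B M a v τ h1 (by omega) (by omega) h4 h5
  intro k1 k2 k3
  simp only [R.run_bind, mul_add, max_le_iff] at k1 k2 k3 ⊢
  obtain ⟨r, r1, r2, r3⟩ := hf k1.1 (by omega) (by omega)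
  obtain ⟨q, q1, q2, q3⟩ := hg P (B - ((f a).run τ).cost) _ (a, ((f a).run τ).val) (.node v r)
    ((f a).run τ).tape h1 (by omega) (by omega) ⟨v, r, rfl, Rp.anti h4 (Nat.sub_le _ _), r1⟩
    (max_le (h5.trans (Nat.le_add_right _ _)) r2) (k1.2.trans (Nat.le_add_right _ _))
    (by dsimp only; omega) (by dsimp only; omega)
  dsimp only at q1 q2 q3
  refine ⟨q, by rw [Nat.sub_add_eq]; exact q1, by omega, (((((Ev.fst _ _).pair r3)).comp
    (((Ev.fst _ _).pair ((Ev.snd _ _).comp (Ev.fst _ _))).pair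
      ((Ev.snd _ _).comp (Ev.snd _ _)))).comp q3).le (by omega)⟩

@[fun_prop] theorem Impl.rbind {f : α → R β} {g : α → β → R γ} (hf : Impl f)
    (hg : Impl fun p : α × β => g p.1 p.2) : Impl fun a => (f a).bind (g a) := Impl.bind hf hg

@[fun_prop] theorem Impl.map {f : α → R β} {g : α → β → γ} (hf : Impl f)
    (hg : Pu true fun p : α × β => g p.1 p.2) : Impl fun a => g a <$> f a :=
  Impl.bind hf (Impl.pure hg)

@[fun_prop] theorem Impl.seqRight {f : α → R β} {g : α → R γ} (hf : Impl f) (hg : Impl g) :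
    Impl fun a => SeqRight.seqRight (f a) fun _ => g a :=
  Impl.bind (g := fun a _ => g a) hf (hg.comp Pu.fst')

/-- case distinction; the branches are only needed on their part of the domain -/
theorem Impl.by_cases {p : α → Prop} {f : α → R β} (hp : Pu false p)
    (h1 : Impl fun a : {a // p a} => f a.1) (h2 : Impl fun a : {a // ¬p a} => f a.1) : Impl f := by
  obtain ⟨t0, d0, c0, hd0, hp⟩ := hp
  obtain ⟨t1, d1, c1, h1⟩ := h1
  obtain ⟨t2, d2, c2, h2⟩ := h2
  refine ⟨.comp (.cond t1 t2) (.pair (.comp t0 .fst) .id), d0 + d1 + d2, c0 + (c1 + c2) + 6,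
    fun P B M a v τ k1 k2 k3 k4 k5 k6 k7 k8 => ?_⟩
  rw [add_mul, add_mul] at k2
  have e3 := U_add3 P.w c0 (c1 + c2) 6
  have e4 := U_add P.w c1 c2
  obtain ⟨r, r1, -, -, r3⟩ := hp P P.m B a v k1 le_rfl (by omega) (by omega) k4 (by omega)
  by_cases h : p a
  · obtain ⟨q, q1, q2, q3⟩ := h1 P B M ⟨a, h⟩ v τ k1 (by omega) (by omega) k4 k5 k6 k7
      (by dsimp only; omega)
    dsimp only at q1 q2 q3
    exact ⟨q, q1, by omega, ((((Ev.fst _ _).comp r3).pair (Ev.id _)).comp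
      (ev_cond r1 (fun _ => q3) fun k => absurd h k)).le (by omega)⟩
  · obtain ⟨q, q1, q2, q3⟩ := h2 P B M ⟨a, h⟩ v τ k1 (by omega) (by omega) k4 k5 k6 k7
      (by dsimp only; omega)
    dsimp only at q1 q2 q3
    exact ⟨q, q1, by omega, ((((Ev.fst _ _).comp r3).pair (Ev.id _)).comp
      (ev_cond r1 (fun k => absurd k h) fun _ => q3)).le (by omega)⟩

@[fun_prop] theorem Impl.ite {p : α → Prop} [DecidablePred p] {f g : α → R β} (hp : Pu false p)
    (hf : Impl f) (hg : Impl g) : Impl fun a => if p a then f a else g a :=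
  Impl.by_cases hp ((hf.comp Pu.id.val).of_eq fun a => by rw [if_pos a.2])
    ((hg.comp Pu.id.val).of_eq fun a => by rw [if_neg a.2])

@[fun_prop] theorem Impl.dite {p : α → Prop} [DecidablePred p] {f : ∀ a, p a → R β}
    {g : ∀ a, ¬p a → R β} (hp : Pu false p) (hf : Impl fun a : {a // p a} => f a.1 a.2)
    (hg : Impl fun a : {a // ¬p a} => g a.1 a.2) :
    Impl fun a => if h : p a then f a h else g a h :=
  Impl.by_cases hp (hf.of_eq fun a => by rw [dif_pos a.2]) (hg.of_eq fun a => by rw [dif_neg a.2])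

/-! ### closures -/

theorem Impl.call' : Impl fun p : (γ → R δ) × γ => call p.1 p.2 := by
  refine ⟨.comp .app (.pair (.comp .fst (.comp .fst .fst)) .id), 0, 9,
    fun P B M ⟨g, c⟩ v τ _ _ _ ⟨u, x, e, ⟨t, e', e1, h⟩, hx⟩ h5 k1 k2 k3 => ?_⟩
  have k1 : max 0 ((g c).run τ).pk ≤ M := k1
  have k2 : 1 + ((g c).run τ).cost ≤ B := k2
  have k3 : M + (P.K * (1 + ((g c).run τ).cost) + U P.w 9) < 2 ^ P.m := k3
  show ∃ r, rp P (B - (1 + ((g c).run τ).cost)) ((g c).run τ).val r ∧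
    r.mx ≤ M + (P.K * (1 + ((g c).run τ).cost) + U P.w 9) ∧ Ev _ _ _
      (.node r (tp ((g c).run τ).tape)) (P.K * (1 + ((g c).run τ).cost) + U P.w 9)
  rw [mul_add, mul_one] at k3 ⊢
  rw [e, V.mx_node] at h5
  dsimp only at h hx
  obtain ⟨r, r1, r2, r3⟩ := h (B - 1) (by omega) M c x τ (Rp.anti hx (by omega)) (by omega)
    (by omega) (by omega) (by omega) (by omega)
  have := le_U P.w 9
  refine ⟨r, Rp.anti r1 (by omega), by omega, ?_⟩
  subst e e1
  exact ((((((Ev.fst _ _).comp (Ev.fst _ _)).comp (Ev.fst _ _))).pair (Ev.id _)).comp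
    (Ev.app r3)).le (by omega)

@[fun_prop] theorem Impl.call {g : α → γ → R δ} {x : α → γ} (hg : Pu true g) (hx : Pu true x) :
    Impl fun a => call (g a) (x a) := Impl.call'.comp (hg.pair hx)

/-- **recursion**: `g a` satisfies the equation `g a = F a (g a)`; `F` uses its argument through
`call` -/
theorem Pu.fix {g : α → γ → R δ} (F : α → (γ → R δ) → γ → R δ) (e : ∀ a c, g a c = F a (g a) c)
    (hF : Impl fun p : α × (γ → R δ) × γ => F p.1 p.2.1 p.2.2) : Pu σ g := by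
  obtain ⟨t, d, c, hF⟩ := hF
  let t' : Tm := .comp t (.pair (.pair (.comp .snd (.comp .fst .fst)) .fst) .snd)
  refine ⟨.pair (.const t'.enc) .id, d + (t'.enc.mx + 1), c + 10 + t'.enc.mx, by omega,
    fun P s B a v k1 k2 k3 k4 k5 k6 => ?_⟩
  have e0 := U_mono P.w (Nat.le_add_right (c + 10) t'.enc.mx)
  have e1 := U_add2 P.w c 10
  have e2 := Nat.mul_le_mul_left d k2
  have e3 : (V.node t'.enc v).mx ≤ v.mx + t'.enc.mx := by rw [V.mx_node]; omega
  rw [add_mul] at k3 ⊢
  refine ⟨.node t'.enc v, ?_, lt_up (e3.trans_lt (lt_grow _ (k1.trans k2) k6)) (by omega),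
    fun _ => by omega, ((Ev.const _ _).pair (Ev.id v)).le (by omega)⟩
  induction B with
  | zero => exact ⟨t', v, rfl, fun _ h => absurd h (Nat.not_lt_zero _)⟩
  | succ B ih =>
    have ih := ih (Rp.anti k5 (Nat.le_succ B))
    refine ⟨t', v, rfl, fun B' hB M x y τ h1 h2 h3 => ?_⟩
    rw [e]
    intro h4 h5 h6
    obtain ⟨r, r1, r2, r3⟩ := hF P B' M (a, g a, x) (.node v (.node (.node t'.enc v) y)) τ k1
      (by omega) (by omega) ⟨_, _, rfl, Rp.anti k5 (by omega), _, _, rfl, Rp.anti ih (by omega), h1⟩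
      (by simp only [V.mx_node] at h2 ⊢; omega) h4 h5 (by dsimp only; omega)
    dsimp only at r1 r2 r3
    exact ⟨r, r1, by omega, (((((((Ev.fst _ _).comp (Ev.fst _ _)).comp (Ev.snd _ _)).pair
      (Ev.fst _ _)).pair (Ev.snd _ _))).comp r3).le (by omega)⟩

/-- abstraction -/
theorem Pu.lam {g : α → γ → R δ} (h : Impl fun p : α × γ => g p.1 p.2) : Pu σ g :=
  Pu.fix (fun a _ c => g a c) (fun _ _ => rfl)
    (h.comp (f := fun p : α × (γ → R δ) × γ => (p.1, p.2.2)) (Pu.fst'.pair Pu.snd'.snd))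

/-- recursion, as a program -/
theorem Impl.fix {g : α → γ → R δ} (F : α → (γ → R δ) → γ → R δ) (e : ∀ a c, g a c = F a (g a) c)
    (hF : Impl fun p : α × (γ → R δ) × γ => F p.1 p.2.1 p.2.2) :
    Impl fun p : α × γ => g p.1 p.2 :=
  (hF.comp (f := fun p : α × γ => (p.1, g p.1, p.2))
    (Pu.fst'.pair (((Pu.fix F e hF).comp Pu.fst').pair Pu.snd'))).of_eq fun p => (e p.1 p.2).symm

/-- recursion without parameter -/
theorem Impl.fix0 {g : γ → R δ} (F : (γ → R δ) → γ → R δ) (e : ∀ c, g c = F g c)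
    (hF : Impl fun p : (γ → R δ) × γ => F p.1 p.2) : Impl g :=
  (Impl.fix (α := Unit) (g := fun _ => g) (fun _ => F) (fun _ => e) (hF.comp Pu.snd')).comp
    (f := fun c => ((), c)) ((Pu.unit _).pair Pu.id)

/-- a fixed program as a closure -/
theorem Pu.clo {g : γ → R δ} (h : Impl g) : Pu σ fun _ : α => g := Pu.lam (h.comp Pu.snd')

/-- a call of a known program -/
theorem Impl.call_known {τ : Type} {g : α → τ → R δ} {x : α → τ} (h : Impl fun a => g a (x a)) :
    Impl fun a => N325.call (g a) (x a) := Impl.tk (fun _ => 1) (fun _ => 0) h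

end Crest.Agent.N325
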