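import Crest.Agent.N325.M0.Top1
import Crest.Agent.N325.M0.Data2
import Crest.Agent.N325.M0.Machine2

/-!
# N325 / M0 (helper34): **the wrapper** `goal_of`
-/

set_option autoImplicit false

namespace Crest.Agent.N325

open Crest.GraphRAM

theorem machineThm : MachineThm := fun e fu => by
  obtain ⟨P, c, h⟩ := machine e fu
  exact ⟨P, c, fun w inp F n0 h1 h2 h3 ρ => h w inp ρ F n0 _ h3 h1 h2 le_rfl⟩

/-- the body of the loop of `lg2` -/
def lgB : ℕ × ℕ × ℕ → R (ℕ × ℕ) := fun p =>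
  if p.1 = 0 then .ret p.2 else if 1 < p.2.1 then
    whileF (fun s : ℕ × ℕ => decide (1 < s.1)) (fun s => pure (s.1 / 2, s.2 + 1)) (p.1 - 1)
      (p.2.1 / 2, p.2.2 + 1)
  else .ret p.2

theorem lgB_eq (n : ℕ) (s : ℕ × ℕ) :
    whileF (fun s : ℕ × ℕ => decide (1 < s.1)) (fun s => pure (s.1 / 2, s.2 + 1)) n s =
      call lgB (n, s) := by
  cases n with
  | zero => rfl
  | succ n =>
    rw [call, lgB, whileF]
    simp only [R.pure_bind', decide_eq_true_eq, Nat.add_eq_zero_iff, one_ne_zero, and_false,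
      if_false, Nat.add_sub_cancel]

theorem impl_lgB : Impl lgB :=
  Impl.fix0 (fun g p => if p.1 = 0 then .ret p.2 else if 1 < p.2.1 then
    call g (p.1 - 1, p.2.1 / 2, p.2.2 + 1) else .ret p.2) (fun p => by rw [lgB, lgB_eq])
    (by fun_prop)

@[fun_prop] theorem impl_lg2 {α : Type} [Rp α] {x : α → ℕ} (h : Pu true x) :
    Impl fun a => lg2 (x a) := by
  have := impl_lgB
  refine Impl.comp (g := lg2) ?_ h
  unfold lg2
  simp only [lgB_eq]
  refine Impl.bind (Impl.call_known ?_) ?_ <;> fun_prop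

theorem impl_fuel {fu : List ℕ → R ℕ} (h : Impl fu) (a b : ℕ) : Impl (fuel fu a b) := by
  unfold fuel
  fun_prop

/-- **the wrapper**: an implementable algorithm, an implementable program `fu` (without samples)
computing a number between the cost bound `Fu N` and an almost linear function `Fu' N` -/
theorem goal_of (alg : List ℕ → R (List ℕ)) (fu : List ℕ → R ℕ) (Fu Fu' : ℕ → ℕ) (c : ℕ)
    (ha : Impl alg) (hf : Impl fu) (hF : AL Fu')
    (h : ∀ (n : ℕ) (G : SimpleGraph (Fin n)) (adj : Fin n → List (Fin n)), 1 ≤ n →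
      (∀ v, (adj v).Nodup ∧ ∀ u, u ∈ adj v ↔ G.Adj v u) →
      (Sp ⟨(sizeN n adj + 2) ^ c, -1⟩ (fu (adjInput n adj)) fun F t =>
        Fu (sizeN n adj) ≤ F ∧ F ≤ Fu' (sizeN n adj) ∧ t ≤ Fu' (sizeN n adj)) ∧
      Sp ⟨(sizeN n adj + 2) ^ c, 1 / (3 * ((Fu (sizeN n adj) : ℝ) + 1))⟩ (alg (adjInput n adj))
        fun out t => IsMaxMatchingOutput G out ∧ t ≤ Fu (sizeN n adj)) : Goal :=
  goal_of_aux machineThm alg fu Fu Fu' c ha (impl_fuel hf) hF h

end Crest.Agent.N325
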