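import Crest.Agent.N325.M0.Std0
import Crest.Agent.N325.M0.Top

/-!
# N325 / M0 (helper34): the wrapper for large inputs, modulo the implementation of the fuel
-/

set_option autoImplicit false

namespace Crest.Agent.N325

open Crest.GraphRAM Filter

/-- small inputs are solved by the slow algorithm -/
def sw (N0 : ℕ) (slow alg : List ℕ → R (List ℕ)) (inp : List ℕ) : R (List ℕ) := do
  let N ← sizeR inp
  if N < N0 then slow inp else alg inp

theorem goal_ev_aux (h1 : Impl sizeR) (h2 : ∀ C, Impl (fuStd C))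
    (slow alg : List ℕ → R (List ℕ)) (S G : ℕ → ℕ) (c : ℕ) (hs : Impl slow) (ha : Impl alg)
    (hG : SubQ G)
    (hslow : ∀ (n : ℕ) (Γ : SimpleGraph (Fin n)) (adj : Fin n → List (Fin n)), 1 ≤ n →
      (∀ v, (adj v).Nodup ∧ ∀ u, u ∈ adj v ↔ Γ.Adj v u) →
      Sp ⟨S (sizeN n adj), -1⟩ (slow (adjInput n adj))
        fun out t => IsMaxMatchingOutput Γ out ∧ t ≤ S (sizeN n adj))
    (halg : ∀ᶠ N : ℕ in atTop, ∀ (n : ℕ) (Γ : SimpleGraph (Fin n)) (adj : Fin n → List (Fin n)),
      1 ≤ n → (∀ v, (adj v).Nodup ∧ ∀ u, u ∈ adj v ↔ Γ.Adj v u) → sizeN n adj = N →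
      Sp ⟨(N + 2) ^ c, 1 / ((N : ℝ) + 2) ^ 3⟩ (alg (adjInput n adj))
        fun out t => IsMaxMatchingOutput Γ out ∧ t ≤ N * G N) : Goal := by
  obtain ⟨N0, hN0⟩ := eventually_atTop.1 ((halg.and hG.le).and (subP_rt_lam.neg 4))
  let C : ℕ := (∑ N ∈ Finset.range N0, (S N + (2 * N + 4))) + 11
  have hF : AL fun N => C * (N * rt (lam N) N) := AL.mul_left (SubP.const C) (AL.id.mul subP_rt_lam)
  obtain ⟨k, hk⟩ := hF.lt_pow
  have hC : 11 ≤ C := Nat.le_add_left _ _
  have hS : ∀ N < N0, S N + (2 * N + 4) ≤ C := fun N h =>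
    (Finset.single_le_sum (f := fun N => S N + (2 * N + 4)) (fun _ _ => Nat.zero_le _)
      (Finset.mem_range.2 h)).trans (Nat.le_add_right _ _)
  refine goal_of (sw N0 slow alg) (fuStd C)
    (fun N => if N < N0 then S N + (2 * N + 4) else 4 * (N * rt (lam N) N)) _ (c + k)
    (by unfold sw; fun_prop) (h2 C) hF fun n Γ adj hn hadj => ?_
  have hN : 1 ≤ sizeN n adj := hn.trans (le_sizeN n adj)
  have s1 := hslow n Γ adj hn hadj
  have s2 := fun h => (hN0 (sizeN n adj) h).1.1 n Γ adj hn hadj rfl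
  have s3 := @sp_sizeR
  have s4 := @sp_fuStd ⟨(sizeN n adj + 2) ^ (c + k), -1⟩ C n adj
  replace s3 := fun g => @s3 g n adj
  generalize sizeN n adj = N at *
  have r2 := two_le_rt (lam N) N
  have k1 := hk N hN
  have k2 : (N + 2) ^ k ≤ (N + 2) ^ (c + k) := Nat.pow_le_pow_right (by omega) (by omega)
  have k3 : (N + 2) ^ c ≤ (N + 2) ^ (c + k) := Nat.pow_le_pow_right (by omega) (by omega)
  have k4 : N * 2 ≤ N * rt (lam N) N := Nat.mul_le_mul_left _ r2
  have k5 := Nat.mul_le_mul_right (N * rt (lam N) N) hC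
  have k6 : C * 1 ≤ C * (N * rt (lam N) N) := Nat.mul_le_mul_left _ (by omega)
  have k7 := hS N
  dsimp only at *
  refine ⟨(s4 (by omega) (by omega)).mono fun F t h => ⟨?_, h.1.le, by omega⟩,
    (s3 _).bind fun M t h => ?_⟩
  · split_ifs with e
    · have := k7 e; omega
    · omega
  · rw [h.1]
    split_ifs with e
    · have := k7 e
      exact (s1.gl (by dsimp only; omega) (neg_one_lt_zero.le.trans (by positivity))).mono
        fun out s q => ⟨q.1, by omega⟩
    · obtain ⟨⟨_, q1⟩, q2⟩ := hN0 N (by omega)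
      have q3 := Nat.mul_le_mul_left N q1
      refine ((s2 (by omega)).gl k3 (one_div_le_one_div_of_le (by positivity) ?_)).mono
        fun out s q => ⟨q.1, by omega⟩
      have q4 : 3 * (4 * (N * rt (lam N) N) + 1) ≤ (N + 2) ^ 3 := by
        have := Nat.mul_le_mul_left N q2
        nlinarith [Nat.zero_le (N ^ 3)]
      exact_mod_cast q4

end Crest.Agent.N325
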