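import Crest.Agent.N325.M0.Lev

/-!
# N325 / M0 (helper34): the quantitative class `SubQ` of functions `N ^ o(1)`

`SubQ G`: every power of `G N` is eventually below the fixed function `rt (lam N) N = N ^ o(1)`.
-/

set_option autoImplicit false

namespace Crest.Agent.N325

open Filter

/-- a parameter growing more slowly than `lev` -/
def lam (N : ℕ) : ℕ := Nat.log 2 (lev N) + 1

theorem lam_pos (N : ℕ) : 1 ≤ lam N := Nat.le_add_left _ _

theorem tendsto_lam : Tendsto lam atTop atTop :=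
  (tendsto_add_atTop_nat 1).comp (tendsto_log2.comp tendsto_lev)

theorem neg_lam_lev : Neg lam lev := (SubP.log.add (SubP.const 1)).neg.comp tendsto_lev

theorem subP_rt_lam : SubP fun N => rt (lam N) N := SubP.rt tendsto_lam

/-- quantitative `N ^ o(1)` -/
def SubQ (G : ℕ → ℕ) : Prop := ∀ k : ℕ, ∀ᶠ N in atTop, G N ^ k ≤ rt (lam N) N

variable {G H : ℕ → ℕ}

theorem SubQ.le (h : SubQ G) : ∀ᶠ N in atTop, G N ≤ rt (lam N) N := by
  simpa only [pow_one] using h 1

theorem SubQ.subP (h : SubQ G) : SubP G := subP_rt_lam.of_eventually h.le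

theorem SubQ.of_eventually (h : SubQ H) (k : ∀ᶠ N in atTop, G N ≤ H N) : SubQ G := fun j => by
  filter_upwards [h j, k] with N h1 h2
  exact (Nat.pow_le_pow_left h2 j).trans h1

theorem SubQ.mono (h : SubQ H) (k : ∀ N, 1 ≤ N → G N ≤ H N) : SubQ G :=
  h.of_eventually ((eventually_ge_atTop 1).mono k)

theorem SubQ.mul (g : SubQ G) (h : SubQ H) : SubQ fun N => G N * H N := fun k => by
  filter_upwards [g (k * 2), h (k * 2)] with N h1 h2
  refine (Nat.pow_le_pow_iff_left two_ne_zero).1 ?_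
  rw [← pow_mul, mul_pow, sq]
  exact Nat.mul_le_mul h1 h2

theorem SubQ.pow (g : SubQ G) (c : ℕ) : SubQ fun N => G N ^ c := fun k => by
  simpa only [pow_mul] using g (c * k)

theorem SubQ.max (g : SubQ G) (h : SubQ H) : SubQ fun N => max (G N) (H N) := fun k => by
  filter_upwards [g k, h k] with N h1 h2
  rcases le_total (G N) (H N) with e | e
  · rwa [max_eq_right e]
  · rwa [max_eq_left e]

/-- **`2 ^ E` with `E * lam = o(log N)`** -/
theorem SubQ.two_pow {E : ℕ → ℕ} (h : Neg (fun N => E N * lam N) (Nat.log 2)) :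
    SubQ fun N => 2 ^ E N := fun k => (h k).mono fun N h => by
  rw [← pow_mul, rt]
  refine Nat.pow_le_pow_right two_pos (Nat.le_succ_of_le ((Nat.le_div_iff_mul_le (lam_pos N)).2 ?_))
  rwa [mul_comm (E N), mul_assoc]

theorem subP_lam_aux :
    SubP fun x => Nat.log 2 (Nat.log 2 (Nat.log 2 (Nat.log 2 x)) + 1) + 1 :=
  (SubP.log.add (SubP.const 2)).mono fun x _ => by
    have h1 := Nat.log_le_self 2 (Nat.log 2 (Nat.log 2 (Nat.log 2 x)) + 1)
    have h2 := Nat.log_le_self 2 (Nat.log 2 (Nat.log 2 x))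
    have h3 := Nat.log_le_self 2 (Nat.log 2 x)
    omega

theorem SubP.neg_lam (g : SubP G) : Neg (fun N => G (Nat.log 2 N) * lam N) (Nat.log 2) :=
  (g.mul subP_lam_aux).neg.comp tendsto_log2

/-- `2 ^ G (log N)` for a subpolynomial `G` -/
theorem SubQ.two_pow_log (g : SubP G) : SubQ fun N => 2 ^ G (Nat.log 2 N) := SubQ.two_pow g.neg_lam

theorem SubQ.const (c : ℕ) : SubQ fun _ => c :=
  (SubQ.two_pow_log (SubP.const c)).mono fun _ _ => Nat.lt_two_pow_self.le

theorem SubQ.add (g : SubQ G) (h : SubQ H) : SubQ fun N => G N + H N :=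
  ((SubQ.const 2).mul (g.max h)).mono fun N _ => by
    have := le_max_left (G N) (H N)
    have := le_max_right (G N) (H N)
    omega

theorem SubQ.log : SubQ fun N => Nat.log 2 N :=
  (SubQ.two_pow_log (SubP.log.add (SubP.const 1))).mono fun _ _ =>
    (Nat.lt_pow_succ_log_self one_lt_two _).le

/-- the logarithm of a polynomially bounded number -/
theorem SubQ.log_of_le {a : ℕ → ℕ} (c : ℕ) (h : ∀ᶠ N in atTop, a N ≤ (N + 2) ^ c) :
    SubQ fun N => Nat.log 2 (a N) :=
  ((SubQ.const c).mul (SubQ.log.add (SubQ.const 3))).of_eventually (h.mono fun N h => by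
    refine (Nat.log_mono_right (h.trans (?_ : _ ≤ 2 ^ (c * (Nat.log 2 N + 3))))).trans
      (Nat.log_pow one_lt_two _).le
    rw [mul_comm, pow_mul]
    refine Nat.pow_le_pow_left ?_ c
    have := Nat.lt_pow_succ_log_self one_lt_two N
    rw [pow_succ] at this
    rw [pow_add]; omega)

theorem SubQ.clog_of_le {a : ℕ → ℕ} (c : ℕ) (h : ∀ᶠ N in atTop, a N ≤ (N + 2) ^ c) :
    SubQ fun N => Nat.clog 2 (a N) :=
  ((SubQ.log_of_le c h).add (SubQ.const 1)).mono fun _ _ => clog_le_log_add _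

theorem SubQ.clog : SubQ fun N => Nat.clog 2 (N + 2) :=
  SubQ.clog_of_le 1 (.of_forall fun _ => (pow_one _).ge)

/-- **the polylogarithmic losses of all levels** -/
theorem SubQ.polylog_pow {a : ℕ → ℕ} (c : ℕ)
    (h : ∀ᶠ N in atTop, a N ≤ (Nat.log 2 N + 2) ^ c) :
    SubQ fun N => a N ^ 2 ^ 2 ^ (c * lev N) := by
  have k := SubQ.two_pow_log
    (((SubP.const c).mul (SubP.log.add (SubP.const 3))).mul (SubP.tower c))
  refine k.of_eventually (h.mono fun N h => ?_)
  rw [pow_mul 2 (c * (Nat.log 2 (Nat.log 2 N) + 3))]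
  refine Nat.pow_le_pow_left (h.trans ?_) _
  rw [mul_comm, pow_mul]
  refine Nat.pow_le_pow_left ?_ c
  have := Nat.lt_pow_succ_log_self one_lt_two (Nat.log 2 N)
  rw [pow_succ] at this
  rw [pow_add]; omega

/-- polylogarithmic base, exponent at most doubly exponential in the level -/
theorem SubQ.polylog_pow' {a e : ℕ → ℕ} (c : ℕ)
    (h : ∀ᶠ N in atTop, a N ≤ (Nat.log 2 N + 2) ^ c)
    (he : ∀ᶠ N in atTop, e N ≤ 2 ^ 2 ^ (c * lev N)) : SubQ fun N => a N ^ e N :=
  (SubQ.polylog_pow (a := fun N => (Nat.log 2 N + 2) ^ c) c (.of_forall fun _ => le_rfl)).of_eventually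
    (by
      filter_upwards [h, he] with N h1 h2
      exact (Nat.pow_le_pow_left h1 _).trans (Nat.pow_le_pow_right (by positivity) h2))

theorem SubQ.tower_lev (c : ℕ) : SubQ fun N => 2 ^ 2 ^ 2 ^ (c * lev N) :=
  SubQ.two_pow_log (SubP.tower c)

theorem SubQ.lev : SubQ lev :=
  (SubQ.tower_lev 1).mono fun N _ => by
    rw [one_mul]
    exact (Nat.lt_two_pow_self.trans (Nat.lt_two_pow_self.trans Nat.lt_two_pow_self)).le

theorem neg_tower_lam (c : ℕ) : Neg (fun N => 2 ^ 2 ^ (c * lev N) * lam N) (Nat.log 2) :=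
  (SubP.tower c).neg_lam

/-- **powers of the root** -/
theorem SubQ.rt_pow {L e : ℕ → ℕ} (h : Neg (fun N => e N * lam N) L)
    (h' : Neg (fun N => e N * lam N) (Nat.log 2)) : SubQ fun N => rt (L N) N ^ e N := by
  have k : Neg (fun N => Nat.log 2 N / L N * (e N * lam N)) (Nat.log 2) := fun k =>
    (h k).mono fun N h => by
      calc k * (Nat.log 2 N / L N * (e N * lam N))
          = Nat.log 2 N / L N * (k * (e N * lam N)) := by ring
        _ ≤ Nat.log 2 N / L N * L N := Nat.mul_le_mul_left _ h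
        _ ≤ _ := Nat.div_mul_le_self _ _
  refine (SubQ.two_pow (E := fun N => (Nat.log 2 N / L N + 1) * e N)
    ((k.add h').le fun N => le_of_eq (by ring))).mono fun N _ => le_of_eq ?_
  rw [rt, ← pow_mul]

/-- the usual form: `e * lev ≤ L` and `e` at most doubly exponential in the level -/
theorem SubQ.rt_pow' {L e : ℕ → ℕ} (c : ℕ) (h : ∀ᶠ N in atTop, e N * N325.lev N ≤ c * L N)
    (he : ∀ᶠ N in atTop, e N ≤ 2 ^ 2 ^ (c * N325.lev N)) : SubQ fun N => rt (L N) N ^ e N := by
  refine SubQ.rt_pow (fun k => ?_) ((neg_tower_lam c).mono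
    (he.mono fun N h => Nat.mul_le_mul_right _ h) (.of_forall fun _ => le_rfl))
  filter_upwards [h, neg_lam_lev (k * (c + 1))] with N h1 h2
  refine Nat.le_of_mul_le_mul_left (?_ : (c + 1) * _ ≤ (c + 1) * _) (Nat.succ_pos c)
  calc (c + 1) * (k * (e N * lam N)) = e N * (k * (c + 1) * lam N) := by ring
    _ ≤ e N * N325.lev N := Nat.mul_le_mul_left _ h2
    _ ≤ _ := h1.trans (Nat.mul_le_mul_right _ (Nat.le_succ c))

theorem SubQ.rt_lev : SubQ fun N => rt (N325.lev N) N := by
  simpa only [pow_one] using SubQ.rt_pow' (L := N325.lev) (e := fun _ => 1) 1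
    (.of_forall fun _ => le_rfl) (.of_forall fun _ => Nat.one_le_two_pow)

/-- two scales: `(N ^ (1 / lev ^ j)) ^ (c * lev ^ i)` with `i < j` -/
theorem SubQ.rt_lev_pow {i j : ℕ} (h : i < j) (c : ℕ) :
    SubQ fun N => rt (N325.lev N ^ j) N ^ (c * N325.lev N ^ i) := by
  refine SubQ.rt_pow' (c + i) (.of_forall fun N => ?_) (.of_forall fun N => ?_)
  · rw [mul_assoc, ← pow_succ]
    exact Nat.mul_le_mul (Nat.le_add_right _ _) (Nat.pow_le_pow_right (lev_pos N) h)
  · refine le_trans ?_ Nat.lt_two_pow_self.le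
    rw [add_mul, pow_add, mul_comm i, pow_mul 2 (N325.lev N) i]
    exact Nat.mul_le_mul (Nat.lt_two_pow_self.le.trans (Nat.pow_le_pow_right two_pos
      (Nat.le_mul_of_pos_right _ (lev_pos N)))) (Nat.pow_le_pow_left Nat.lt_two_pow_self.le i)

end Crest.Agent.N325
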