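import Crest.Agent.N325.M0.Top0
import Crest.Agent.N325.M0.Prob
import Crest.Agent.R309.RAMProb

/-!
# N325 / M0 (helper34): from implementable programs to the statement on the word RAM
-/

set_option autoImplicit false

namespace Crest.Agent.N325

open Crest.GraphRAM Crest.WordRAM

/-- the machine theorem for the deep language -/
def MachineThm : Prop := ∀ e fu : Tm, ∃ (P : Program) (c : ℕ), ∀ (w : ℕ) (inp : List ℕ) (F n0 : ℕ),
  Ev (2 ^ w) fu (V.nats inp) (.leaf F) n0 → c * (inp.length + n0 + F + 1) < 2 ^ w →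
  (∀ a ∈ inp, a < 2 ^ w) → ∀ ρ : ℕ → ℕ,
    (WordRAM.run P w ρ inp (c * (inp.length + n0 + F + 1))).halted = true ∧
    ∀ out, Ev (2 ^ w) e (.node (V.nats inp) (V.nats (tapeBits ρ F))) (V.nats out) F →
      out.length ≤ F → (WordRAM.run P w ρ inp (c * (inp.length + n0 + F + 1))).output = out

/-- the statement of the row -/
def Goal : Prop :=
  ∃ (P : Crest.WordRAM.Program) (c₀ C : ℕ) (η : ℕ → ℝ), Antitone η ∧
    Filter.Tendsto η Filter.atTop (nhds 0) ∧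
    ∀ (n : ℕ) (G : SimpleGraph (Fin n)) (adj : Fin n → List (Fin n)), 1 ≤ n →
      (∀ v, (adj v).Nodup ∧ ∀ u, u ∈ adj v ↔ G.Adj v u) →
      (∀ ρ : ℕ → ℕ, (Crest.WordRAM.run P (c₀ * Nat.clog 2 (n + 2)) ρ (adjInput n adj)
          ⌈(C : ℝ) * ((n + (∑ v, (adj v).length) / 2 : ℕ) : ℝ) ^
            (1 + η (n + (∑ v, (adj v).length) / 2))⌉₊).halted = true) ∧
      2 / 3 ≤ Crest.WordRAM.probAfter P (c₀ * Nat.clog 2 (n + 2)) (adjInput n adj)
          ⌈(C : ℝ) * ((n + (∑ v, (adj v).length) / 2 : ℕ) : ℝ) ^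
            (1 + η (n + (∑ v, (adj v).length) / 2))⌉₊
          (fun c => IsMaxMatchingOutput G c.output)

/-- an implementable program run with words of `O(L)` bits -/
theorem Impl.exec {β : Type} [Rp β] {f : List ℕ → R β} (h : Impl f) (k : ℕ) :
    ∃ (t : Tm) (a c : ℕ), ∀ (L : ℕ) (inp : List ℕ) (τ : List Bool) (M T : ℕ), 1 ≤ L →
      M < 2 ^ (k * L) → T < 2 ^ (k * L) → (∀ x ∈ inp, x ≤ M) → ((f inp).run τ).pk ≤ M →
      ((f inp).run τ).cost ≤ T → ∃ P B r, rp P B ((f inp).run τ).val r ∧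
        Ev (2 ^ (a * L)) t (.node (V.nats inp) (tp τ)) r ((T + 1) * U (a * L) c + 2) := by
  obtain ⟨t, d, c, h⟩ := h
  obtain ⟨a, ha, hb⟩ := exists_bits d c k
  refine ⟨.comp .fst t, d * a, c, fun L inp τ M T hL hM hT hi hp hc => ?_⟩
  obtain ⟨r, r1, _, r3⟩ := h ⟨U (d * (a * L)) c, a * L, d * (a * L)⟩ _ M inp (V.nats inp) τ
    (Nat.mul_pos ha hL) le_rfl le_rfl (rp_nats.2 rfl) (mx_nats.2 hi) hp le_rfl
    (hb L M _ hL hM (hc.trans_lt hT))
  refine ⟨_, _, r, r1, ?_⟩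
  rw [mul_assoc]
  refine (r3.comp (Ev.fst _ _)).le ?_
  dsimp only
  nlinarith [Nat.mul_le_mul_left (U (d * (a * L)) c) hc]

theorem pow_lt_of_le {x N k k' : ℕ} (h : x < (N + 2) ^ k) (hk : k ≤ k') : x < (N + 2) ^ k' :=
  h.trans_le (Nat.pow_le_pow_right (by omega) hk)

/-- **the wrapper**, modulo the machine theorem and the implementation of the fuel program -/
theorem goal_of_aux (hM : MachineThm) (alg : List ℕ → R (List ℕ)) (fu : List ℕ → R ℕ)
    (Fu Fu' : ℕ → ℕ) (c : ℕ) (ha : Impl alg) (hf : ∀ a b, Impl (fuel fu a b)) (hF : AL Fu')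
    (h : ∀ (n : ℕ) (G : SimpleGraph (Fin n)) (adj : Fin n → List (Fin n)), 1 ≤ n →
      (∀ v, (adj v).Nodup ∧ ∀ u, u ∈ adj v ↔ G.Adj v u) →
      (Sp ⟨(sizeN n adj + 2) ^ c, -1⟩ (fu (adjInput n adj)) fun F t =>
        Fu (sizeN n adj) ≤ F ∧ F ≤ Fu' (sizeN n adj) ∧ t ≤ Fu' (sizeN n adj)) ∧
      Sp ⟨(sizeN n adj + 2) ^ c, 1 / (3 * ((Fu (sizeN n adj) : ℝ) + 1))⟩ (alg (adjInput n adj))
        fun out t => IsMaxMatchingOutput G out ∧ t ≤ Fu (sizeN n adj)) : Goal := by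
  obtain ⟨k1, hk1⟩ := hF.lt_pow
  obtain ⟨te, ae, ce, he⟩ := ha.exec (2 * (c + k1 + 3))
  have hV := hF.fuelV ae ce
  have hC : AL fun N => Fu' N + (N + 3) := hF.add (AL.id.add (AL.const 3))
  obtain ⟨k2, hk2⟩ := (hV.add hC).lt_pow
  obtain ⟨tf, af, cf, hfu⟩ := (hf ae ce).exec (2 * (c + k2 + 3))
  obtain ⟨P, cm, hP⟩ := hM te (.comp tf (.pair .id (.const (.leaf 0))))
  let n0 : ℕ → ℕ := fun N => (Fu' N + (N + 3) + 1) * U (af * Nat.clog 2 (N + 2)) cf + 6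
  have hn0 : AL n0 :=
    ((hC.add (AL.const 1)).mul (((SubP.const af).mul SubP.clog).U cf)).add (AL.const 6)
  have hT : AL fun N => (cm + 1) * (2 * N + 3 + n0 N + fuelV ae ce (Fu' N) N + 1) :=
    AL.mul_left (SubP.const _) (((((AL.mul_left (SubP.const 2) AL.id).add (AL.const 3)).add
      hn0).add hV).add (AL.const 1))
  obtain ⟨k3, hk3⟩ := hT.lt_pow
  obtain ⟨C, η, η1, η2, η3⟩ := hT.exists_eta
  refine ⟨P, ae + af + 2 * k3 + 1, C, η, η1, η2, fun n G adj hn hadj => ?_⟩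
  obtain ⟨s1, s2⟩ := h n G adj hn hadj
  have hN := le_sizeN n adj
  have hsz := sizeN_le fun v => (hadj v).1
  have hlen := length_adjInput_le n adj
  have hmem := fun a => @mem_adjInput_le n adj a
  have hhd := headD_adjInput n adj
  change (∀ ρ, (WordRAM.run P _ ρ _ ⌈(C : ℝ) * (sizeN n adj : ℝ) ^ (1 + η (sizeN n adj))⌉₊).halted
    = true) ∧ 2 / 3 ≤ probAfter P _ _ ⌈(C : ℝ) * (sizeN n adj : ℝ) ^ (1 + η (sizeN n adj))⌉₊ _
  generalize sizeN n adj = N at *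
  generalize adjInput n adj = inp at *
  have hN1 : 1 ≤ N := hn.trans hN
  have hL : 1 ≤ Nat.clog 2 (n + 2) := Nat.clog_pos one_lt_two (by omega)
  have hLN : Nat.clog 2 (n + 2) ≤ Nat.clog 2 (N + 2) := Nat.clog_mono_right _ (by omega)
  have hLl := clog_le_log_add (n + 2)
  have pw := pow_le_two_pow_clog hsz
  generalize Nat.clog 2 (n + 2) = L at *
  have hT' := η3 N hN1
  generalize ⌈(C : ℝ) * (N : ℝ) ^ (1 + η N)⌉₊ = T at *
  have hX : ∀ k, (N + 2) ^ c + (N + 2) ^ k + (N + 2) ^ 2 < (N + 2) ^ (c + k + 3) := fun k => by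
    have e1 : (N + 2) ^ c ≤ (N + 2) ^ (c + k + 2) := Nat.pow_le_pow_right (by omega) (by omega)
    have e2 : (N + 2) ^ k ≤ (N + 2) ^ (c + k + 1) := Nat.pow_le_pow_right (by omega) (by omega)
    have e3 : (N + 2) ^ 2 ≤ (N + 2) ^ (c + k + 2) := Nat.pow_le_pow_right (by omega) (by omega)
    have e4 : 0 < (N + 2) ^ (c + k + 1) := by positivity
    rw [pow_succ _ (c + k + 2)]
    rw [pow_succ _ (c + k + 1)] at *
    nlinarith
  have hi : ∀ k, ∀ x ∈ inp, x ≤ (N + 2) ^ c + (N + 2) ^ k + (N + 2) ^ 2 := fun k x hx =>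
    (hmem x hx).trans (le_trans (by nlinarith) (Nat.le_add_left _ _))
  -- the fuel
  have v1 := fuelV_mono ae ce (le_refl (Fu' N)) hN
  have k2' := hk2 N hN1
  have sf := sp_fuel (a := ae) (b := ce) (s1.gl (g' := ⟨(N + 2) ^ c + (N + 2) ^ k2 + (N + 2) ^ 2, -1⟩)
    (by dsimp only; omega) le_rfl) (by rw [hhd]; dsimp only at *; omega)
  obtain ⟨⟨f1, f2, f3⟩, f4⟩ := sf.run (sf.good_of_neg (by norm_num) [])
  rw [hhd] at f1 f2 f3
  obtain ⟨_, _, _, rfl, f5⟩ := hfu L inp [] _ (Fu' N + (N + 3)) hL ((hX k2).trans_le (pw _))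
    ((pow_lt_of_le (k := k2) (by dsimp only at *; omega) (by omega)).trans_le (pw _)) (hi k2) f4
    (by omega)
  generalize ((fuel fu ae ce inp).run []).val = F at *
  have w1 : ∀ a, a ≤ ae + af + 2 * k3 + 1 → 2 ^ (a * L) ≤ 2 ^ ((ae + af + 2 * k3 + 1) * L) :=
    fun a ha => Nat.pow_le_pow_right two_pos (Nat.mul_le_mul_right _ ha)
  have u1 : U (af * L) cf ≤ U (af * Nat.clog 2 (N + 2)) cf := by unfold U; gcongr
  have f6 : Ev (2 ^ ((ae + af + 2 * k3 + 1) * L)) (.comp tf (.pair .id (.const (.leaf 0))))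
      (V.nats inp) (.leaf F) (n0 N) :=
    (((Ev.id _).pair (Ev.const _ _)).comp f5).mono (w1 _ (by omega))
      (by have := Nat.mul_le_mul_left (Fu' N + (N + 3) + 1) u1; dsimp only [n0]; omega)
  have t1 : (cm + 1) * (inp.length + n0 N + F + 1) ≤
      (cm + 1) * (2 * N + 3 + n0 N + fuelV ae ce (Fu' N) N + 1) := by gcongr; omega
  have t2 : (cm + 1) * (inp.length + n0 N + F + 1) < 2 ^ ((ae + af + 2 * k3 + 1) * L) :=
    ((t1.trans_lt (hk3 N hN1)).trans_le (pw _)).trans_le (w1 _ (by omega))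
  have t3 := t1.trans hT'
  rw [add_mul, one_mul] at t2 t3
  have t4 : 2 * N + 1 < 2 ^ ((ae + af + 2 * k3 + 1) * L) := by
    refine lt_of_le_of_lt ?_ (((hk3 N hN1).trans_le (pw _)).trans_le (w1 _ (by omega)))
    rw [add_mul, one_mul]; omega
  have hP' := hP _ inp F (n0 N) f6 (by omega) fun a ha => (hmem a ha).trans_lt t4
  have hr : ∀ ρ, WordRAM.run P ((ae + af + 2 * k3 + 1) * L) ρ inp T =
      WordRAM.run P ((ae + af + 2 * k3 + 1) * L) ρ inp (cm * (inp.length + n0 N + F + 1)) :=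
    fun ρ => R309.RAM.iterate_of_halted (by omega) (hP' ρ).1
  refine ⟨fun ρ => by rw [hr]; exact (hP' ρ).1, ?_⟩
  have f7 : (Fu N + 1) * (U (ae * L) ce + 1) + (n + 2) ≤ F := by
    refine le_trans ?_ f1
    unfold fuelV U
    gcongr
  rw [mul_add, mul_one] at f7
  obtain ⟨_, _, q1, q2, _⟩ := s1.exists (by norm_num)
  have p0 : (0 : ℝ) < 3 * ((Fu N : ℝ) + 1) := by positivity
  refine le_trans ?_ ((s2.mono fun _ _ k => k.2).probAfter_ge (F := F) (by positivity)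
    (by rw [div_lt_one p0]; linarith [Nat.cast_nonneg (α := ℝ) (Fu N)]) (by omega) (by omega)
    (Nat.mul_pos (by omega) hL) fun ρ hg => ?_)
  · dsimp only
    rw [le_sub_comm, div_mul_eq_mul_div, div_le_iff₀ p0]
    linarith
  · obtain ⟨⟨g1, g2⟩, g3⟩ := s2.run hg
    obtain ⟨_, _, r, g4, g5⟩ := he L inp (tapeB ρ F) _ (Fu N) hL ((hX k1).trans_le (pw _))
      ((pow_lt_of_le ((q1.trans q2).trans_lt (hk1 N hN1)) (by omega)).trans_le (pw _)) (hi k1)
      (g3.trans (by dsimp only; omega)) g2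
    rw [rp_nats.1 g4, tp, tapeB_toNat] at g5
    have := length_le_of_isMax g1
    rw [hr, (hP' ρ).2 _ (g5.mono (w1 _ (by omega)) (by omega)) (by omega)]
    exact g1

end Crest.Agent.N325
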